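import Vale.Agent.N258B.C
import Vale.Agent.P258.R2.H390.Main2

/-! Block A1: labels of regions and colours of strands, all plats. -/

namespace Vale.Agent.N258B

open Set Filter Topology
open Vale.Agent.P258.Braid (Word)
open Vale.Agent.P002Z

open Vale.Agent.P258.Braid

variable {nb o : ℕ} {w w0 : Word} {G : Type} [Group G]

/-- the labels given by colours of the strands of the knot -/
def Pc {n : ℕ} (c : Fin n → G) (j : ℕ) : G := (((List.ofFn c).take j).map fun g => g⁻¹).prod

theorem A_cross_get {m : ℕ} (e : Bool) : ∀ (i : ℕ) (l : List (St m G)) (s t : St m G),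
    l[i]? = some s → l[i + 1]? = some t → ∀ j, (cross i e l)[j]? =
      if j = i then some (half e s t).1 else if j = i + 1 then some (half e s t).2 else l[j]?
  | 0, [], s, t, h, _, _ => by simp at h
  | 0, [_], s, t, _, h, _ => by simp at h
  | 0, a :: b :: l, s, t, h1, h2, j => by
    obtain rfl : a = s := by simpa using h1
    obtain rfl : b = t := by simpa using h2
    rcases j with _ | _ | j <;> simp [cross]
  | i + 1, [], s, t, h, _, _ => by simp at h
  | i + 1, a :: l, s, t, h1, h2, j => by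
    rcases j with _ | j
    · simp [cross]
    · simp only [cross, List.getElem?_cons_succ] at h1 h2 ⊢
      rw [A_cross_get e i l s t h1 h2 j]
      simp

/-- a row of strands, the labels of the regions, the positions and the products of colours -/
structure ARel {m : ℕ} (l : List (St m G)) (P : ℕ → G) (f : ℕ → ℕ) (τ : ℕ → G) : Prop where
  len : l.length = m
  col : ∀ j s, l[j]? = some s → s.col = (P (j + 1))⁻¹ * P j
  str : ∀ p < m, ∃ s, l[f p]? = some s ∧ s.lab.val = p ∧ s.tr = τ p

theorem ARel.step {m : ℕ} {l : List (St m G)} {P : ℕ → G} {f : ℕ → ℕ} {τ : ℕ → G}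
    (h : ARel l P f τ) (x : ℕ × Bool) (hx : x.1 + 1 < m) :
    ARel (cross x.1 x.2 l) (stepP x P) (fun p => sw x (f p)) fun p => τ p * under x P (f p) := by
  obtain ⟨i, e⟩ := x
  have hl := h.len
  obtain ⟨s, hs⟩ : ∃ s, l[i]? = some s :=
    ⟨_, List.getElem?_eq_getElem (show i < l.length by simp only at hx; omega)⟩
  obtain ⟨t, ht⟩ : ∃ t, l[i + 1]? = some t :=
    ⟨_, List.getElem?_eq_getElem (show i + 1 < l.length by simp only at hx; omega)⟩
  have cs := h.col i s hs
  have ct := h.col (i + 1) t ht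
  have hg := A_cross_get e i l s t hs ht
  refine ⟨by rw [cross_length, hl], fun j u hu => ?_, fun p hp => ?_⟩
  · simp only at hu
    rw [hg] at hu
    by_cases h1 : j = i
    · subst h1
      rw [if_pos rfl] at hu
      obtain rfl := Option.some.inj hu
      cases e
      · simp only [half, stepP, ct, Function.update_self, Bool.false_eq_true, if_false]
        rw [Function.update_of_ne (by omega)]
        group
      · simp only [half, stepP, cs, ct, Function.update_self, if_true]
        rw [Function.update_of_ne (by omega)]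
        group
    · rw [if_neg h1] at hu
      by_cases h2 : j = i + 1
      · subst h2
        rw [if_pos rfl] at hu
        obtain rfl := Option.some.inj hu
        cases e
        · simp only [half, stepP, cs, ct, Function.update_self, Bool.false_eq_true, if_false]
          rw [Function.update_of_ne (by omega)]
          group
        · simp only [half, stepP, cs, Function.update_self, if_true]
          rw [Function.update_of_ne (by omega)]
          group
      · rw [if_neg h2] at hu
        rw [h.col j u hu]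
        simp only [stepP]
        rw [Function.update_of_ne (by omega), Function.update_of_ne h2]
  · obtain ⟨u, hu, hu1, hu2⟩ := h.str p hp
    simp only [hg, sw]
    by_cases h1 : f p = i
    · rw [h1] at hu
      obtain rfl : u = s := Option.some.inj (hu.symm.trans hs)
      refine ⟨(half e u t).2, by simp [h1], ?_, ?_⟩
      · cases e <;> exact hu1
      · cases e
        · simp only [half, under, h1, hu2, ct, Bool.false_eq_true, if_false, if_true]
          group
        · simp [half, under, h1, hu2]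
    · by_cases h2 : f p = i + 1
      · rw [h2] at hu
        obtain rfl : u = t := Option.some.inj (hu.symm.trans ht)
        refine ⟨(half e s u).1, by simp [h2], ?_, ?_⟩
        · cases e <;> exact hu1
        · cases e
          · simp [half, under, h2, hu2]
          · simp only [half, under, h2, hu2, cs, if_true]
      · refine ⟨u, by simp [h1, h2, hu], hu1, ?_⟩
        cases e <;> simp [under, h1, h2, hu2]

theorem A_bridge {m : ℕ} (hw : ∀ x ∈ w, x.1 + 1 < m) (P : ℕ → G) (c : Fin m → G)
    (hc : ∀ j : Fin m, c j = (P (j + 1))⁻¹ * P j) : ∀ k ≤ w.length,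
    ARel (run (w.take k) (start c)) (reg w P k) (pos w k) fun p => trP w P p k := by
  intro k
  induction k with
  | zero =>
    intro _
    refine ⟨start_length c, fun j s hs => ?_, fun p hp => ?_⟩
    · change (start c)[j]? = some s at hs
      obtain ⟨hj, rfl⟩ := List.getElem?_eq_some_iff.1 hs
      simp only [start, List.getElem_ofFn]
      exact hc _
    · refine ⟨⟨⟨p, hp⟩, c ⟨p, hp⟩, 1⟩, ?_, rfl, rfl⟩
      change (start c)[p]? = _
      simp [start, hp]
  | succ k ih =>
    intro hk
    have hx : w[k]? = some w[k] := List.getElem?_eq_getElem hk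
    have h := (ih (by omega)).step w[k] (hw _ (List.getElem_mem hk))
    have e1 : run (w.take (k + 1)) (start c) = cross w[k].1 w[k].2 (run (w.take k) (start c)) := by
      rw [List.take_add_one, hx, run_append]; rfl
    have e2 : pos w (k + 1) = fun p => sw w[k] (pos w k p) := funext (pos_succ hx)
    have e3 : (fun p => trP w P p (k + 1)) =
        fun p => trP w P p k * under w[k] (reg w P k) (pos w k p) := by
      funext p
      simp only [trP, hx]
    rw [e1, e2, e3, reg_succ hx]
    exact h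

theorem A_bridge' {m : ℕ} (hw : ∀ x ∈ w, x.1 + 1 < m) (P : ℕ → G) (c : Fin m → G)
    (hc : ∀ j : Fin m, c j = (P (j + 1))⁻¹ * P j) :
    ARel (run w (start c)) (reg w P w.length) (pos w w.length) fun p => trP w P p w.length := by
  have h := A_bridge hw P c hc w.length le_rfl
  rwa [List.take_length] at h

theorem A_pos_ge {m : ℕ} (hw : ∀ x ∈ w, x.1 + 1 < m) {p : ℕ} (hp : m ≤ p) :
    ∀ k ≤ w.length, pos w k p = p := by
  intro k
  induction k with
  | zero => intro _; exact pos_zero w p
  | succ k ih =>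
    intro hk
    have h := hw _ (List.getElem_mem hk)
    rw [pos_succ (List.getElem?_eq_getElem hk), ih (by omega), sw, if_neg (by omega),
      if_neg (by omega)]

theorem A_trP_ge {m : ℕ} (hw : ∀ x ∈ w, x.1 + 1 < m) (P : ℕ → G) {p : ℕ} (hp : m ≤ p) :
    ∀ k ≤ w.length, trP w P p k = 1 := by
  intro k
  induction k with
  | zero => intro _; rfl
  | succ k ih =>
    intro hk
    have h := hw _ (List.getElem_mem hk)
    have hx : w[k]? = some w[k] := List.getElem?_eq_getElem hk
    simp only [trP, hx]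
    rw [ih (by omega), A_pos_ge hw hp k (by omega), under, if_neg (show ¬ p = w[k].1 + 1 by omega),
      if_neg (show ¬ p = w[k].1 by omega), ite_self, mul_one]

theorem A_same {m : ℕ} {w' : Word} (hw : ∀ x ∈ w, x.1 + 1 < m) (hw' : ∀ x ∈ w', x.1 + 1 < m)
    (h : Same m G w' w) (P : ℕ → G) :
    (∀ p, pos w w.length p = pos w' w'.length p) ∧
    (∀ j ≤ m, reg w P w.length j = reg w' P w'.length j) ∧
    ∀ p < m, trP w P p w.length = trP w' P p w'.length := by
  have h1 := A_bridge' hw P (fun j : Fin m => (P (j + 1))⁻¹ * P j) fun _ => rfl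
  have h2 := A_bridge' hw' P (fun j : Fin m => (P (j + 1))⁻¹ * P j) fun _ => rfl
  rw [h _ (start_length _)] at h2
  have key : ∀ p < m, pos w w.length p = pos w' w'.length p ∧
      trP w P p w.length = trP w' P p w'.length := by
    intro p hp
    obtain ⟨s, hs, l1, t1⟩ := h1.str p hp
    obtain ⟨p', hp', e⟩ := pos_surj hw' w'.length ((pos_lt hw w.length p).2 hp)
    obtain ⟨s', hs', l2, t2⟩ := h2.str p' hp'
    rw [e] at hs'
    obtain rfl : s = s' := Option.some.inj (hs.symm.trans hs')
    obtain rfl : p = p' := l1.symm.trans l2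
    exact ⟨e.symm, t1.symm.trans t2⟩
  refine ⟨fun p => ?_, fun j => ?_, fun p hp => (key p hp).2⟩
  · rcases lt_or_ge p m with hp | hp
    · exact (key p hp).1
    · rw [A_pos_ge hw hp _ le_rfl, A_pos_ge hw' hp _ le_rfl]
  · induction j with
    | zero => intro _; rw [reg_left, reg_left]
    | succ j ih =>
      intro hj
      have hs := List.getElem?_eq_getElem (show j < _ from h1.len.symm ▸ hj)
      have h3 := (h1.col j _ hs).symm.trans (h2.col j _ hs)
      rw [ih (by omega)] at h3
      exact inv_injective (mul_right_cancel h3)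

theorem A_rng' (h0 : ∀ x ∈ w0, x.1 + 1 < 2 * nb) (o : ℕ) : ∀ x ∈ w0, x.1 + 1 < 2 * nb + o :=
  fun x hx => (h0 x hx).trans_le (Nat.le_add_right _ _)

theorem same_pos {m : ℕ} (h0 : ∀ x ∈ w0, x.1 + 1 < m) (hw : ∀ x ∈ w, x.1 + 1 < m)
    (h : Same m G w0 w) (p : ℕ) : pos w w.length p = pos w0 w0.length p :=
  (A_same hw h0 h fun _ => 1).1 p

theorem same_reg {m : ℕ} (h0 : ∀ x ∈ w0, x.1 + 1 < m) (hw : ∀ x ∈ w, x.1 + 1 < m)
    (h : Same m G w0 w) (P : ℕ → G) (hP : P 0 = 1) :
    (∀ j ≤ m, reg w P w.length j = reg w0 P w0.length j) ∧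
      ∀ p < m, trP w P p w.length = trP w0 P p w0.length :=
  have _ := hP
  (A_same hw h0 h P).2

theorem ok_of_small (hb : 0 < nb) (h0 : ∀ x ∈ w0, x.1 + 1 < 2 * nb) (o : ℕ) : Ok nb o w0 :=
  ⟨hb, A_rng' h0 o, fun _ hp => A_pos_ge h0 hp _ le_rfl⟩

theorem split_of_small (h0 : ∀ x ∈ w0, x.1 + 1 < 2 * nb) (o : ℕ) (G : Type) [Group G] :
    Split nb o w0 G := by
  intro P _
  refine ⟨⟨fun j h6 _ => ?_, fun p h6 _ => A_trP_ge h0 P h6 _ le_rfl⟩, fun hP j hj => ?_⟩
  · exact reg_right (fun x hx => (h0 x hx).trans_le h6) P _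
  · rw [reg_congr h0 (P' := fun _ => 1) hP _ j hj, reg_one]

theorem ok_of_same (hb : 0 < nb) (h0 : ∀ x ∈ w0, x.1 + 1 < 2 * nb)
    (hw : ∀ x ∈ w, x.1 + 1 < 2 * nb + o) (h : Same (2 * nb + o) G w0 w) : Ok nb o w :=
  ⟨hb, hw, fun p hp => (same_pos (A_rng' h0 o) hw h p).trans (A_pos_ge h0 hp _ le_rfl)⟩

theorem split_of_same (h0 : ∀ x ∈ w0, x.1 + 1 < 2 * nb) (hw : ∀ x ∈ w, x.1 + 1 < 2 * nb + o)
    (h : Same (2 * nb + o) G w0 w) : Split nb o w G := by
  intro P hP
  obtain ⟨-, h2, h3⟩ := A_same hw (A_rng' h0 o) h P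
  obtain ⟨⟨s1, s2⟩, s3⟩ := split_of_small h0 o G P hP
  exact ⟨⟨fun j h6 hj => (h2 j hj).trans (s1 j h6 hj), fun p h6 hp => (h3 p hp).trans (s2 p h6 hp)⟩,
    fun hP j hj => (h2 j (by omega)).trans (s3 hP j hj)⟩

theorem capd_same (h0 : ∀ x ∈ w0, x.1 + 1 < 2 * nb) (hw : ∀ x ∈ w, x.1 + 1 < 2 * nb + o)
    (h : Same (2 * nb + o) G w0 w) (P : ℕ → G) : Capd nb w P ↔ Capd nb w0 P := by
  obtain ⟨-, h2, -⟩ := A_same hw (A_rng' h0 o) h P
  exact forall₂_congr fun j hj => by rw [h2 _ (by omega)]

theorem raw_same (hb : 0 < nb) (h0 : ∀ x ∈ w0, x.1 + 1 < 2 * nb)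
    (hw : ∀ x ∈ w, x.1 + 1 < 2 * nb + o) (h : Same (2 * nb + o) G w0 w) (P : ℕ → G)
    (hP : P 0 = 1) : Raw w P = Raw w0 P := by
  have _ := hP
  obtain ⟨h1, -, h3⟩ := A_same hw (A_rng' h0 o) h P
  obtain ⟨e1, e2, e3⟩ := walk_congr h1
  have ok := ok_of_small hb h0 o
  unfold Raw
  rw [e1]
  refine congrArg List.prod (List.map_congr_left fun i _ => ?_)
  have a1 := walk_lt ok i
  have a2 := (down_lt ok (walk w0 i)).2 a1
  rw [e2, e3, h3 _ (by omega), h3 _ (by omega)]

theorem A_comm {H : Type} [CommGroup H] (w : Word) (P : ℕ → H) (p : ℕ) : ∀ k ≤ w.length,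
    (reg w P k (pos w k p + 1))⁻¹ * reg w P k (pos w k p) = (P (p + 1))⁻¹ * P p := by
  intro k
  induction k with
  | zero => intro _; rw [reg_zero, pos_zero]
  | succ k ih =>
    intro hk
    have hx : w[k]? = some w[k] := List.getElem?_eq_getElem hk
    rw [reg_succ hx, pos_succ hx, ← ih (by omega)]
    generalize w[k] = x
    generalize reg w P k = R
    generalize pos w k p = q
    obtain ⟨i, e⟩ := x
    have hv : (if e = true then R (i + 2) * (R (i + 1))⁻¹ * R i
        else R i * (R (i + 1))⁻¹ * R (i + 2)) = R (i + 2) * (R (i + 1))⁻¹ * R i := by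
      split_ifs
      · rfl
      · rw [mul_comm, mul_comm (R i), mul_assoc]
    simp only [stepP, sw, hv]
    by_cases h1 : q = i
    · subst h1
      rw [if_pos rfl, Function.update_self, Function.update_of_ne (by omega)]
      group
    · rw [if_neg h1]
      by_cases h2 : q = i + 1
      · subst h2
        rw [if_pos rfl, Function.update_self, Function.update_of_ne (by omega), mul_comm,
          mul_comm (R (i + 1 + 1))⁻¹]
        group
      · rw [if_neg h2, Function.update_of_ne (by omega), Function.update_of_ne h2]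

theorem Pc_zero {n : ℕ} (c : Fin n → G) : Pc c 0 = 1 := rfl

theorem A_Pc_succ {n : ℕ} (c : Fin n → G) (j : Fin n) : Pc c (j + 1) = Pc c j * (c j)⁻¹ := by
  unfold Pc
  rw [List.take_add_one, List.map_append, List.prod_append, List.getElem?_ofFn, dif_pos j.2]
  simp

theorem A_Pc_col {n : ℕ} (c : Fin n → G) (j : Fin n) : c j = (Pc c (j + 1))⁻¹ * Pc c j := by
  rw [A_Pc_succ]; group

theorem A_Pc_ge {n : ℕ} (c : Fin n → G) {j : ℕ} (hj : n ≤ j) : Pc c j = Pc c n := by
  unfold Pc
  rw [List.take_of_length_le (by simpa using hj), List.take_of_length_le (by simp)]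

theorem A_even (R : ℕ → G) (h0 : R 0 = 1) (n : ℕ)
    (h : ∀ j < n, ((R (2 * j + 1))⁻¹ * R (2 * j)) * ((R (2 * j + 1 + 1))⁻¹ * R (2 * j + 1)) = 1) :
    ∀ j ≤ n, R (2 * j) = 1 := by
  intro j
  induction j with
  | zero => intro _; exact h0
  | succ j ih =>
    intro hj
    have h1 := h j hj
    rw [ih (by omega)] at h1
    calc R (2 * j + 1 + 1) = R (2 * j + 1) * (((R (2 * j + 1))⁻¹ * 1) *
          ((R (2 * j + 1 + 1))⁻¹ * R (2 * j + 1))) * (R (2 * j + 1))⁻¹ * R (2 * j + 1 + 1) := by
          rw [h1]; group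
      _ = 1 := by group

/-- the colouring by the orientation -/
theorem exists_col (ok : Ok nb o w) {A : Type} [CommGroup A] (g : A) :
    ∃ c : Fin (2 * nb) → A, Capd nb w (Pc c) ∧ (Pc c 1)⁻¹ = g := by
  classical
  obtain ⟨col, hcol⟩ : ∃ col : ℕ → A, ∀ p, col p = if ∃ i, p = walk w i then g
    else if ∃ i, p = down w (walk w i) then g⁻¹ else 1 := ⟨_, fun _ => rfl⟩
  have key : ∀ f : ℕ → ℕ, (∀ p, f (f p) = p) →
      (∀ i, ∃ j, f (walk w i) = down w (walk w j)) →
      (∀ i, ∃ j, f (down w (walk w i)) = walk w j) → ∀ p, col p * col (f p) = 1 := by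
    intro f f0 f1 f2 p
    rw [hcol, hcol]
    by_cases h1 : ∃ i, p = walk w i
    · obtain ⟨i, rfl⟩ := h1
      obtain ⟨j, e⟩ := f1 i
      rw [if_pos ⟨i, rfl⟩, e, if_neg fun ⟨k, hk⟩ => down_ne_walk w j k hk, if_pos ⟨j, rfl⟩,
        mul_inv_cancel]
    · rw [if_neg h1]
      by_cases h2 : ∃ i, p = down w (walk w i)
      · obtain ⟨i, rfl⟩ := h2
        obtain ⟨j, e⟩ := f2 i
        rw [if_pos ⟨i, rfl⟩, e, if_pos ⟨j, rfl⟩, inv_mul_cancel]
      · rw [if_neg h2, if_neg, if_neg, mul_one]
        · rintro ⟨i, hi⟩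
          obtain ⟨j, e⟩ := f2 i
          exact h1 ⟨j, by rw [← e, ← hi, f0]⟩
        · rintro ⟨i, hi⟩
          obtain ⟨j, e⟩ := f1 i
          exact h2 ⟨j, by rw [← e, ← hi, f0]⟩
  have k1 := key mate mate_mate (fun i => by
    have hp := per_pos ok
    refine ⟨i + per w - 1, ?_⟩
    have e : walk w i = walk w (i + per w - 1 + 1) := by
      rw [show i + per w - 1 + 1 = i + per w by omega, ← walk_mod w (i + per w),
        Nat.add_mod_right, walk_mod]
    rw [e, walk_succ, mate_mate]) fun i => ⟨i + 1, (walk_succ w i).symm⟩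
  have k2 := key (down w) (down_down w) (fun i => ⟨i, rfl⟩) fun i => ⟨i, down_down w _⟩
  have hm : ∀ j, mate (2 * j) = 2 * j + 1 := fun j => if_pos (by omega)
  have hb := ok.pos0
  have hc : ∀ p < 2 * nb, (Pc (fun i : Fin (2 * nb) => col i) (p + 1))⁻¹ *
      Pc (fun i : Fin (2 * nb) => col i) p = col p :=
    fun p hp => (A_Pc_col (fun i : Fin (2 * nb) => col i) ⟨p, hp⟩).symm
  refine ⟨fun i => col i, fun j hj => ⟨A_even _ (Pc_zero _) nb (fun j hj => ?_) j hj,
    A_even _ ((reg_left _ _ _).trans (Pc_zero _)) nb (fun j hj => ?_) j hj⟩, ?_⟩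
  · rw [hc _ (by omega), hc _ (by omega), ← hm]
    exact k1 _
  · have hr : ∀ q < 2 * nb, (reg w (Pc fun i : Fin (2 * nb) => col i) w.length (q + 1))⁻¹ *
        reg w (Pc fun i : Fin (2 * nb) => col i) w.length q = col (lab w q) := fun q hq => by
      have := A_comm w (Pc fun i : Fin (2 * nb) => col i) (lab w q) w.length le_rfl
      rw [pos_lab] at this
      rw [this, hc _ ((ok.top_lt _).1 (by rw [pos_lab]; exact hq))]
    have := k2 (lab w (2 * j))
    rw [down, pos_lab, hm] at this
    rw [hr _ (by omega), hr _ (by omega)]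
    exact this
  · have := hc 0 (by omega)
    rw [Pc_zero, mul_one] at this
    rw [this, hcol, if_pos ⟨0, (walk_zero w).symm⟩]

theorem exists_int (ok : Ok nb o w) :
    ∃ P : ℕ → Multiplicative ℤ, Capd nb w P ∧ P 1 = Multiplicative.ofAdd 1 := by
  obtain ⟨c, h1, h2⟩ := exists_col ok (Multiplicative.ofAdd (1 : ℤ))⁻¹
  exact ⟨Pc c, h1, inv_injective h2⟩

theorem Pc_inj {n : ℕ} {c c' : Fin n → G} (h : ∀ j ≤ n, Pc c j = Pc c' j) : c = c' := by
  funext j
  rw [A_Pc_col c j, A_Pc_col c' j, h _ j.2.le, h _ j.2]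

theorem Pc_surj {P : ℕ → G} (h0 : P 0 = 1) (h : Flat nb o P) :
    ∃ c : Fin (2 * nb) → G, ∀ j ≤ 2 * nb + o, P j = Pc c j := by
  have key : ∀ j ≤ 2 * nb, P j = Pc (fun i : Fin (2 * nb) => (P (i + 1))⁻¹ * P i) j := by
    intro j
    induction j with
    | zero => intro _; exact h0
    | succ j ih =>
      intro hj
      have h1 := A_Pc_succ (fun i : Fin (2 * nb) => (P (i + 1))⁻¹ * P i) ⟨j, hj⟩
      simp only at h1
      rw [h1, ← ih (by omega)]
      group
  refine ⟨fun i : Fin (2 * nb) => (P (i + 1))⁻¹ * P i, fun j hj => ?_⟩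
  rcases le_total j (2 * nb) with h6 | h6
  · exact key j h6
  · rw [A_Pc_ge _ h6, ← key _ le_rfl, h j h6 hj, h _ le_rfl (by omega)]

theorem Pc_flat {c : Fin (2 * nb) → G} (h : Capd nb w (Pc c)) : Flat nb o (Pc c) := fun _ h6 _ =>
  (A_Pc_ge c h6).trans (h nb le_rfl).1

theorem capd_congr (ok : Ok nb o w) {P P' : ℕ → G} (h : Capd nb w P)
    (e : ∀ j ≤ 2 * nb + o, P j = P' j) : Capd nb w P' := fun j hj =>
  ⟨(e _ (by omega)).symm.trans (h j hj).1,
    (reg_congr ok.rng e _ _ (by omega)).symm.trans (h j hj).2⟩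

theorem raw_congr (ok : Ok nb o w) {P P' : ℕ → G} (e : ∀ j ≤ 2 * nb + o, P j = P' j) :
    Raw w P = Raw w P' := by
  simp only [Raw, trP_congr ok.rng e]

theorem A_step_map {H : Type} [Group H] (f : G →* H) (x : ℕ × Bool) (P : ℕ → G) :
    stepP x (fun j => f (P j)) = fun j => f (stepP x P j) := by
  funext j
  unfold stepP
  by_cases h : j = x.1 + 1
  · subst h
    rw [Function.update_self, Function.update_self]
    split_ifs <;> simp
  · rw [Function.update_of_ne h, Function.update_of_ne h]

theorem A_fold_map {H : Type} [Group H] (f : G →* H) (l : Word) : ∀ P : ℕ → G,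
    l.foldl (fun P x => stepP x P) (fun j => f (P j)) =
      fun j => f (l.foldl (fun P x => stepP x P) P j) := by
  induction l with
  | nil => intro P; rfl
  | cons x l ih => intro P; rw [List.foldl_cons, List.foldl_cons, A_step_map, ih]

/-- naturality -/
theorem reg_map {H : Type} [Group H] (f : G →* H) (w : Word) (P : ℕ → G) (k j : ℕ) :
    reg w (fun j => f (P j)) k j = f (reg w P k j) :=
  congrFun (A_fold_map f (w.take k) P) j

theorem trP_map {H : Type} [Group H] (f : G →* H) (w : Word) (P : ℕ → G) (p k : ℕ) :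
    trP w (fun j => f (P j)) p k = f (trP w P p k) := by
  induction k with
  | zero => exact (map_one f).symm
  | succ k ih =>
    simp only [trP, ih, map_mul]
    congr 1
    cases w[k]? with
    | none => exact (map_one f).symm
    | some x =>
      simp only [under, reg_map]
      split_ifs <;> simp

theorem raw_map {H : Type} [Group H] (f : G →* H) (w : Word) (P : ℕ → G) :
    Raw w (fun j => f (P j)) = f (Raw w P) := by
  unfold Raw
  rw [map_list_prod, List.map_map]
  refine congrArg List.prod (List.map_congr_left fun i _ => ?_)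
  simp only [trP_map, Function.comp, map_mul, map_inv]

/-- the bridge to rows of coloured strands -/
theorem bridge {m : ℕ} (hw : ∀ x ∈ w, x.1 + 1 < m) (c : Fin m → G) :
    (∀ j, reg w (Pc c) w.length j =
      (((run w (start c)).take j).map fun s => s.col⁻¹).prod) ∧
    ∀ p : Fin m, ∃ s, (run w (start c))[pos w w.length p]? = some s ∧ s.lab = p ∧
      s.tr = trP w (Pc c) p w.length := by
  have h := A_bridge' hw (Pc c) c (A_Pc_col c)
  refine ⟨fun j => ?_, fun p => ?_⟩
  · induction j with
    | zero => exact (reg_left _ _ _).trans (Pc_zero c)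
    | succ j ih =>
      rw [List.take_add_one, List.map_append, List.prod_append, ← ih]
      rcases lt_or_ge j m with hj | hj
      · have hs := List.getElem?_eq_getElem (show j < _ from h.len.symm ▸ hj)
        rw [hs, Option.toList_some, List.map_singleton, List.prod_singleton, h.col j _ hs]
        group
      · rw [List.getElem?_eq_none (h.len.trans_le hj),
          reg_right (m := j + 1) (fun x hx => by have := hw x hx; omega),
          reg_right (m := j) (fun x hx => by have := hw x hx; omega),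
          A_Pc_ge c hj, A_Pc_ge c (by omega : m ≤ j + 1)]
        simp
  · obtain ⟨s, h1, h2, h3⟩ := h.str p p.2
    exact ⟨s, h1, Fin.ext h2, h3⟩

end Vale.Agent.N258B
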