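import Vale.Agent.N258B.A1

/-! Block A2: the explicit family. -/

namespace Vale.Agent.N258B

open Set Filter Topology
open Vale.Agent.P258.Braid (Word)
open Vale.Agent.P002Z

open Vale.Agent.P258.Braid

variable {G : Type} [Group G]

/-- the conditions at the caps, for colours -/
def Col (a : ℤ) (c : Fin 6 → G) : Prop :=
  (∀ i, c i * c (caps6.bot i) = 1) ∧ ∀ i, (pick (run (fam a) (start c)) i).col *
    (pick (run (fam a) (start c)) (caps6.top i)).col = 1

theorem A2_pw (i : ℕ) (z : ℤ) : ∀ x ∈ pw i z, x.1 = i := by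
  intro x hx
  cases z with
  | ofNat n => rw [List.eq_of_mem_replicate hx]
  | negSucc n => rw [List.eq_of_mem_replicate hx]

theorem A2_rng (a : ℤ) : ∀ x ∈ fam a ++ turn, x.1 + 1 < 6 := by
  intro x hx
  simp only [fam, turn, List.mem_append, List.mem_cons, List.not_mem_nil, or_false] at hx
  rcases hx with (h | h | h | h | h) | rfl | rfl | rfl | rfl
  all_goals first
    | (rw [A2_pw _ _ x h]; norm_num)
    | norm_num

theorem fam_small (a : ℤ) : ∀ x ∈ fam a ++ turn, x.1 + 1 < 2 * 3 := A2_rng a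

theorem A2_lab {a : ℤ} (ha : Odd a) (c : Fin 6 → G) :
    (run (fam a) (start c)).map St.lab = [0, 1, 3, 2, 5, 4] := by
  obtain ⟨k, rfl⟩ := ha
  have h2 : (hPerm : Equiv.Perm (St 6 G × St 6 G)) ^ (2 : ℤ) = hPerm ^ (2 * 1 : ℤ) := by norm_num
  have h10 : (hPerm : Equiv.Perm (St 6 G × St 6 G)) ^ (-2 * (2 * k + 1)) =
      hPerm ^ (2 * (-(2 * k + 1))) := by
    congr 1; ring
  have h9 : (hPerm : Equiv.Perm (St 6 G × St 6 G)) ^ (1 - 2 * (2 * k + 1)) =
      hPerm ^ (2 * (-(2 * k + 1)) + 1) := by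
    congr 1; ring
  rw [start6, run_fam, h2, h10, h9]
  simp only [actAt, hz_even, hz_odd]
  rfl

theorem A2_turn (s0 s1 s2 s3 s4 s5 : St 6 G) : run turn [s0, s1, s2, s3, s4, s5] =
    [⟨s1.lab, s0.col⁻¹ * s1.col * s0.col, s1.tr * s0.col⟩,
      ⟨s2.lab, s0.col⁻¹ * s2.col * s0.col, s2.tr * s0.col⟩,
      ⟨s3.lab, s0.col⁻¹ * s3.col * s0.col, s3.tr * s0.col⟩,
      ⟨s4.lab, s0.col⁻¹ * s4.col * s0.col, s4.tr * s0.col⟩, s0, s5] := rfl

theorem A2_ge {m : ℕ} {w : Word} (hw : ∀ x ∈ w, x.1 + 1 < m) {p : ℕ} (hp : m ≤ p) :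
    ∀ k ≤ w.length, pos w k p = p := by
  intro k
  induction k with
  | zero => intro _; exact pos_zero w p
  | succ k ih =>
    intro hk
    have h := hw _ (List.getElem_mem hk)
    rw [pos_succ (List.getElem?_eq_getElem hk), ih (by omega),
      sw, if_neg (by omega), if_neg (by omega)]

theorem fam_perm {a : ℤ} (ha : Odd a) (p : ℕ) :
    pos (fam a ++ turn) (fam a ++ turn).length p = perm p := by
  rcases lt_or_ge p 6 with hp | hp
  · have h1 := (bridge (A2_rng a) fun _ : Fin 6 => (1 : Multiplicative ℤ)).2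
    have hl := A2_lab ha fun _ : Fin 6 => (1 : Multiplicative ℤ)
    obtain ⟨s0, s1, s2, s3, s4, s5, hr⟩ := list6
      (run (fam a) (start fun _ : Fin 6 => (1 : Multiplicative ℤ)))
      (by rw [run_length, start_length])
    rw [run_append, hr, A2_turn] at h1
    rw [hr] at hl
    simp only [List.map_cons, List.map_nil, List.cons.injEq, and_true] at hl
    obtain ⟨l0, l1, l2, l3, l4, l5⟩ := hl
    obtain ⟨s, hs, hs0, -⟩ := h1 ⟨p, hp⟩
    have hs1 : s.lab.val = p := congrArg Fin.val hs0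
    have hq := (pos_lt (A2_rng a) (fam a ++ turn).length p).2 hp
    simp only at hs
    clear hs0
    generalize pos (fam a ++ turn) (fam a ++ turn).length p = q at hs hq
    subst hs1
    interval_cases q
    all_goals
      obtain rfl := Option.some.inj hs
      simp only [l0, l1, l2, l3, l4, l5]
      rfl
  · rw [A2_ge (A2_rng a) hp _ le_rfl]
    obtain ⟨q, rfl⟩ := Nat.exists_eq_add_of_le' hp
    rfl

theorem Pc_one (c : Fin 6 → G) : (Pc c 1)⁻¹ = c 0 := by
  simp [Pc, List.ofFn_succ]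

theorem A2_six (x0 x1 x2 x3 x4 x5 : G) :
    (∀ j ≤ 3, (([x0, x1, x2, x3, x4, x5].take (2 * j)).map fun g => g⁻¹).prod = 1) ↔
      x0 * x1 = 1 ∧ x2 * x3 = 1 ∧ x4 * x5 = 1 := by
  have key : ∀ x y : G, x⁻¹ * y⁻¹ = 1 ↔ x * y = 1 := fun x y => by
    rw [← mul_inv_rev, inv_eq_one, mul_eq_one_comm]
  constructor
  · intro h
    have h1 : x0⁻¹ * (x1⁻¹ * 1) = 1 := h 1 (by norm_num)
    have h2 : x0⁻¹ * (x1⁻¹ * (x2⁻¹ * (x3⁻¹ * 1))) = 1 := h 2 (by norm_num)
    have h3 : x0⁻¹ * (x1⁻¹ * (x2⁻¹ * (x3⁻¹ * (x4⁻¹ * (x5⁻¹ * 1))))) = 1 := h 3 (by norm_num)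
    rw [mul_one] at h1 h2 h3
    rw [← mul_assoc, h1, one_mul] at h2 h3
    rw [← mul_assoc, h2, one_mul] at h3
    exact ⟨(key _ _).1 h1, (key _ _).1 h2, (key _ _).1 h3⟩
  · rintro ⟨h1, h2, h3⟩ j hj
    rw [← key] at h1 h2 h3
    interval_cases j
    · rfl
    · show x0⁻¹ * (x1⁻¹ * 1) = 1
      rw [mul_one, h1]
    · show x0⁻¹ * (x1⁻¹ * (x2⁻¹ * (x3⁻¹ * 1))) = 1
      rw [mul_one, h2, mul_one, h1]
    · show x0⁻¹ * (x1⁻¹ * (x2⁻¹ * (x3⁻¹ * (x4⁻¹ * (x5⁻¹ * 1))))) = 1
      rw [mul_one, h3, mul_one, h2, mul_one, h1]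

theorem capd_iff {a : ℤ} (ha : Odd a) (c : Fin 6 → G) :
    Capd 3 (fam a ++ turn) (Pc c) ↔ Col a c := by
  have _ := ha
  have h1 := (bridge (A2_rng a) c).1
  obtain ⟨s0, s1, s2, s3, s4, s5, hr⟩ := list6 (run (fam a) (start c))
    (by rw [run_length, start_length])
  rw [run_append, hr, A2_turn] at h1
  have e1 : ∀ j, Pc c j = (([c 0, c 1, c 2, c 3, c 4, c 5].take j).map fun g => g⁻¹).prod :=
    fun j => rfl
  have e2 : ∀ j, reg (fam a ++ turn) (Pc c) (fam a ++ turn).length j =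
      (([s0.col⁻¹ * s1.col * s0.col, s0.col⁻¹ * s2.col * s0.col, s0.col⁻¹ * s3.col * s0.col,
        s0.col⁻¹ * s4.col * s0.col, s0.col, s5.col].take j).map fun g => g⁻¹).prod := fun j => by
    rw [h1 j]
    simp only [List.map_take, List.map_cons, List.map_nil]
  have e : Capd 3 (fam a ++ turn) (Pc c) ↔ (∀ j ≤ 3, Pc c (2 * j) = 1) ∧
      ∀ j ≤ 3, reg (fam a ++ turn) (Pc c) (fam a ++ turn).length (2 * j) = 1 :=
    ⟨fun hc => ⟨fun j hj => (hc j hj).1, fun j hj => (hc j hj).2⟩,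
      fun hc j hj => ⟨hc.1 j hj, hc.2 j hj⟩⟩
  rw [e]
  simp only [e2]
  simp only [e1]
  rw [A2_six, A2_six]
  have key : ∀ g x y : G, (g⁻¹ * x * g) * (g⁻¹ * y * g) = 1 ↔ x * y = 1 := by
    intro g x y
    constructor
    · intro h
      calc x * y = g * ((g⁻¹ * x * g) * (g⁻¹ * y * g)) * g⁻¹ := by group
        _ = 1 := by rw [h]; group
    · intro h
      calc _ = g⁻¹ * (x * y) * g := by group
        _ = 1 := by rw [h]; group
  simp only [key, Col, hr]
  constructor
  · rintro ⟨⟨b1, b2, b3⟩, t1, t2, t3⟩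
    refine ⟨fun i => ?_, fun i => ?_⟩
    · fin_cases i
      · exact b1
      · exact mul_eq_one_comm.1 b1
      · exact b2
      · exact mul_eq_one_comm.1 b2
      · exact b3
      · exact mul_eq_one_comm.1 b3
    · fin_cases i
      · exact t3
      · exact t1
      · exact mul_eq_one_comm.1 t1
      · exact t2
      · exact mul_eq_one_comm.1 t2
      · exact mul_eq_one_comm.1 t3
  · rintro ⟨b, t⟩
    exact ⟨⟨b 0, b 2, b 4⟩, t 1, t 3, t 0⟩

theorem raw_eq {a : ℤ} (ha : Odd a) (c : Fin 6 → G) :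
    Raw (fam a ++ turn) (Pc c) = caps6.rawLon (fam a) c := by
  have h1 := (bridge (A2_rng a) c).2
  obtain ⟨s0, s1, s2, s3, s4, s5, hr⟩ := list6 (run (fam a) (start c))
    (by rw [run_length, start_length])
  rw [raw5' _ c _ _ _ _ _ _ hr (A2_lab ha c)]
  rw [run_append, hr] at h1
  have key : ∀ p < 6, ∀ s : St 6 G, (run turn [s0, s1, s2, s3, s4, s5])[perm p]? = some s →
      trP (fam a ++ turn) (Pc c) p (fam a ++ turn).length = s.tr := by
    intro p hp s hs
    obtain ⟨s', hs', -, t⟩ := h1 ⟨p, hp⟩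
    simp only at hs' t
    rw [fam_perm ha] at hs'
    rw [← t, Option.some.inj (hs'.symm.trans hs)]
  obtain ⟨w0, w1, w2, w3, w4, w5⟩ := walk_perm (fam_perm ha)
  unfold Raw
  rw [w0]
  simp only [List.range_succ, List.range_zero, List.nil_append, List.cons_append, List.map_cons,
    List.map_nil, List.prod_cons, List.prod_nil]
  rw [walk_zero, w1, w2, w3, w4, w5, key 0 (by norm_num) _ rfl, key 1 (by norm_num) _ rfl,
    key 2 (by norm_num) _ rfl, key 3 (by norm_num) _ rfl, key 4 (by norm_num) _ rfl,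
    key 5 (by norm_num) _ rfl]
  simp only [half]
  group

theorem A2_cross_comm {m : ℕ} {H : Type} [CommGroup H] (c : Fin m → H) (e : Bool) :
    ∀ (i : ℕ) (l : List (St m H)), (∀ s ∈ l, s.col = c s.lab) →
      ∀ s ∈ cross i e l, s.col = c s.lab
  | 0, [], h => h
  | 0, [_], h => h
  | 0, a :: b :: l, h => by
    have ha := h a (by simp)
    have hb := h b (by simp)
    intro s hs
    simp only [cross, List.mem_cons] at hs
    rcases hs with rfl | rfl | hs
    · cases e
      · exact hb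
      · simp [half, hb]
    · cases e
      · simp [half, ha]
      · exact ha
    · exact h s (by simp [hs])
  | i + 1, [], h => h
  | i + 1, a :: l, h => by
    intro s hs
    simp only [cross, List.mem_cons] at hs
    rcases hs with rfl | hs
    · exact h s (by simp)
    · exact A2_cross_comm c e i l (fun s hs => h s (by simp [hs])) s hs

theorem A2_run_comm {m : ℕ} {H : Type} [CommGroup H] (c : Fin m → H) (w : Word) :
    ∀ l : List (St m H), (∀ s ∈ l, s.col = c s.lab) → ∀ s ∈ run w l, s.col = c s.lab := by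
  induction w with
  | nil => intro l h; exact h
  | cons x w ih => intro l h; exact ih _ (A2_cross_comm c x.2 x.1 l h)

/-- the colouring by the orientation -/
theorem col_ori {a : ℤ} (ha : Odd a) {A : Type} [CommGroup A] (g : A) :
    ∃ c : Fin 6 → A, Col a c ∧ c 0 = g ∧ caps6.rawLon (fam a) c = g ^ caps6.expo (fam a) := by
  let φ : Multiplicative ℤ →* A := zpowersHom A g
  have ho : ∀ i, caps6.ori (fam a) i = if i ∈ ([0, 5, 3] : List (Fin 6)) then 1 else -1 := by
    intro i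
    unfold Caps.ori
    rw [(walk_of_lab _ (A2_lab ha _)).1]
  obtain ⟨c, hc⟩ : ∃ c : Fin 6 → A,
    c = fun i => φ (Multiplicative.ofAdd (caps6.ori (fam a) i)) := ⟨_, rfl⟩
  have hm : ∀ i j, caps6.ori (fam a) i + caps6.ori (fam a) j = 0 → c i * c j = 1 := by
    intro i j hij
    rw [hc]
    simp only
    rw [← map_mul, ← ofAdd_add, hij, ofAdd_zero, map_one]
  refine ⟨c, ⟨fun i => hm _ _ ?_, fun i => ?_⟩, ?_, ?_⟩
  · rw [ho, ho]
    revert i
    decide
  · have hl := A2_lab ha c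
    have hcol := A2_run_comm c (fam a) (start c) (by
      intro s hs
      obtain ⟨i, rfl⟩ := (List.mem_ofFn' _ _).1 hs
      rfl)
    obtain ⟨s0, s1, s2, s3, s4, s5, hr⟩ := list6 (run (fam a) (start c))
      (by rw [run_length, start_length])
    rw [hr] at hl hcol ⊢
    simp only [List.map_cons, List.map_nil, List.cons.injEq, and_true] at hl
    obtain ⟨l0, l1, l2, l3, l4, l5⟩ := hl
    have e0 := hcol s0 (by simp)
    have e1 := hcol s1 (by simp)
    have e2 := hcol s2 (by simp)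
    have e3 := hcol s3 (by simp)
    have e4 := hcol s4 (by simp)
    have e5 := hcol s5 (by simp)
    rw [l0] at e0
    rw [l1] at e1
    rw [l2] at e2
    rw [l3] at e3
    rw [l4] at e4
    rw [l5] at e5
    have t0 : s0.col * s5.col = 1 := by rw [e0, e5]; exact hm _ _ (by rw [ho, ho]; decide)
    have t1 : s1.col * s2.col = 1 := by rw [e1, e2]; exact hm _ _ (by rw [ho, ho]; decide)
    have t3 : s3.col * s4.col = 1 := by rw [e3, e4]; exact hm _ _ (by rw [ho, ho]; decide)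
    fin_cases i
    · exact t0
    · exact t1
    · exact mul_eq_one_comm.1 t1
    · exact t3
    · exact mul_eq_one_comm.1 t3
    · exact mul_eq_one_comm.1 t0
  · rw [hc]
    simp only
    rw [ho]
    simp [φ]
  · rw [hc, rawLon_map]
    rfl

end Vale.Agent.N258B
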