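import Vale.Agent.N258B.Defs
import Vale.Agent.P002Z.PF

/-!
# Internal definitions and first lemmas on multiplicative functions of paths
-/

namespace Vale.Agent.N258B

open Set Filter Topology
open Vale.Agent.P258.Braid (Word)
open Vale.Agent.P002Z

section generic

variable {X Y : Type} [TopologicalSpace X] [TopologicalSpace Y] {G : Type} [Group G]

/-- `s` is a gauge transformation from `φ` to `ψ` on `V`. -/
def Par (φ ψ : PF X G) (V : Set X) (s : X → G) : Prop :=
  ∀ x y (p : Path x y), (∀ t, p t ∈ V) → ψ.v p = (s y)⁻¹ * φ.v p * s x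

/-- Locally simply connected, in the strong sense. -/
def Nice (X : Type) [TopologicalSpace X] : Prop :=
  ∀ x : X, ∀ U ∈ 𝓝 x, ∃ V, IsOpen V ∧ x ∈ V ∧ V ⊆ U ∧ IsSimplyConnected V

/-- the trivial function -/
def triv (X : Type) [TopologicalSpace X] (G : Type) [Group G] : PF X G where
  v _ := 1
  hom _ := rfl
  trans _ _ := (mul_one _).symm

/-- change of gauge -/
def gauge (φ : PF X G) (s : X → G) : PF X G where
  v := fun {x y} p => (s y)⁻¹ * φ.v p * s x
  hom h := by rw [φ.hom h]
  trans p q := by rw [φ.trans]; group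

theorem par_gauge (φ : PF X G) (s : X → G) (V : Set X) : Par φ (gauge φ s) V s :=
  fun _ _ _ _ => rfl

variable {φ ψ χ : PF X G} {V V' : Set X} {s s' τ τ' : X → G}

theorem Par.mono (h : Par φ ψ V s) (hV : V' ⊆ V) : Par φ ψ V' s :=
  fun x y p hp => h x y p fun t => hV (hp t)

theorem Par.refl (φ : PF X G) (V : Set X) : Par φ φ V fun _ => 1 :=
  fun _ _ _ _ => by simp

theorem Par.symm (h : Par φ ψ V s) : Par ψ φ V fun x => (s x)⁻¹ :=
  fun x y p hp => by rw [h x y p hp]; group

theorem Par.trans (h : Par φ ψ V s) (h' : Par ψ χ V s') : Par φ χ V fun x => s x * s' x :=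
  fun x y p hp => by rw [h' x y p hp, h x y p hp]; group

theorem Par.congr (h : Par φ ψ V s) (e : ∀ x ∈ V, s' x = s x) : Par φ ψ V s' :=
  fun x y p hp => by
    rw [h x y p hp, e x (p.source ▸ hp 0), e y (p.target ▸ hp 1)]

theorem Par.comap (h : Par φ ψ V s) (f : C(Y, X)) :
    Par (φ.comap f) (ψ.comap f) (f ⁻¹' V) fun y => s (f y) :=
  fun _ _ p hp => h _ _ (p.map f.continuous) hp

theorem Par.unique (h : Par φ ψ V s) (h' : Par φ ψ V s') {x y : X} (hj : JoinedIn V x y)
    (e : s x = s' x) : s y = s' y := by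
  obtain ⟨p, hp⟩ := hj
  have h1 := (h x y p hp).symm.trans (h' x y p hp)
  rw [e] at h1
  exact inv_injective (mul_right_cancel (mul_right_cancel h1))

theorem Par.glue {ι : Type*} (U : ι → Set X) (hU : ∀ i, IsOpen (U i)) {S : Set X}
    (hS : S ⊆ ⋃ i, U i) (h : ∀ i, Par φ ψ (S ∩ U i) s) : Par φ ψ S s := by
  intro x y p hp
  refine path_induction U hU S hS (fun x y p => ψ.v p = (s y)⁻¹ * φ.v p * s x) ?_ ?_ ?_ p hp
  · intro x y p q hpq h
    rw [← ψ.hom hpq, ← φ.hom hpq, h]
  · intro x y z p q h1 h2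
    rw [ψ.trans, φ.trans, h1, h2]; group
  · intro i x y p hp
    exact h i x y p hp

theorem pot_iff_par : φ.Pot V τ ↔ Par (triv X G) φ V τ :=
  forall₄_congr fun x y p _ => by simp [triv]

theorem pot_mono (h : φ.Pot V τ) (hV : V' ⊆ V) : φ.Pot V' τ :=
  fun x y p hp => h x y p fun t => hV (hp t)

theorem pot_mul_left (h : φ.Pot V τ) (a : G) : φ.Pot V fun x => a * τ x :=
  fun x y p hp => by rw [h x y p hp]; group

theorem pot_congr (h : φ.Pot V τ) (e : ∀ x ∈ V, τ' x = τ x) : φ.Pot V τ' :=
  pot_iff_par.2 ((pot_iff_par.1 h).congr e)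

theorem pot_comap (h : φ.Pot V τ) (f : C(Y, X)) :
    (φ.comap f).Pot (f ⁻¹' V) fun y => τ (f y) :=
  fun _ _ p hp => h _ _ (p.map f.continuous) hp

theorem pot_glue {ι : Type*} (U : ι → Set X) (hU : ∀ i, IsOpen (U i)) {S : Set X}
    (hS : S ⊆ ⋃ i, U i) (h : ∀ i, φ.Pot (S ∩ U i) τ) : φ.Pot S τ :=
  pot_iff_par.2 (Par.glue U hU hS fun i => pot_iff_par.1 (h i))

/-- two potentials have a constant ratio along paths -/
theorem pot_ratio (h : φ.Pot V τ) (h' : φ.Pot V' τ') {x y : X} (hj : JoinedIn (V ∩ V') x y) :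
    τ' y * (τ y)⁻¹ = τ' x * (τ x)⁻¹ := by
  obtain ⟨p, hp⟩ := hj
  have h1 := (h x y p fun t => (hp t).1).symm.trans (h' x y p fun t => (hp t).2)
  calc τ' y * (τ y)⁻¹ = τ' y * ((τ y)⁻¹ * τ x) * (τ x)⁻¹ := by group
    _ = _ := by rw [h1]; group

theorem par_of_pot (h : φ.Pot V τ) (h' : ψ.Pot V τ') : Par φ ψ V fun x => (τ x)⁻¹ * τ' x :=
  (pot_iff_par.1 h).symm.trans (pot_iff_par.1 h')

theorem pot_of_par (h : φ.Pot V τ) (h' : Par φ ψ V s) : ψ.Pot V fun x => τ x * s x :=
  pot_iff_par.2 ((pot_iff_par.1 h).trans h')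

theorem toHom_eq_of_par {x0 : X} (h : Par φ ψ univ s) (h0 : s x0 = 1) :
    φ.toHom x0 = ψ.toHom x0 := by
  refine MonoidHom.ext fun a => ?_
  obtain ⟨p, rfl⟩ := Path.Homotopic.Quotient.mk_surjective a
  rw [PF.toHom_mk, PF.toHom_mk, h _ _ p fun _ => mem_univ _, h0]
  simp

theorem par_of_toHom [PathConnectedSpace X] {x0 : X} (h : φ.toHom x0 = ψ.toHom x0) :
    ∃ s, s x0 = 1 ∧ Par φ ψ univ s := by
  let σ : ∀ x, Path x0 x := fun x => PathConnectedSpace.somePath x0 x
  have key : ∀ p : Path x0 x0, φ.v p = ψ.v p := fun p => by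
    rw [← PF.toHom_mk, ← PF.toHom_mk, h]
  refine ⟨fun x => φ.v (σ x) * (ψ.v (σ x))⁻¹, by simp only [key, mul_inv_cancel], ?_⟩
  intro x y p _
  have h1 := key ((σ x).trans (p.trans (σ y).symm))
  rw [φ.trans, φ.trans, ψ.trans, ψ.trans, φ.symm, ψ.symm] at h1
  calc ψ.v p = ψ.v (σ y) * ((ψ.v (σ y))⁻¹ * ψ.v p * ψ.v (σ x)) * (ψ.v (σ x))⁻¹ := by group
    _ = _ := by rw [← h1]; group

theorem exists_pf [PathConnectedSpace X] (x0 : X) (f : FundamentalGroup X x0 →* G) :
    ∃ φ : PF X G, φ.toHom x0 = f := by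
  obtain ⟨κ, hκ, -⟩ := exists_univ x0
  refine ⟨κ.post f, MonoidHom.ext fun a => ?_⟩
  obtain ⟨p, rfl⟩ := Path.Homotopic.Quotient.mk_surjective a
  have := hκ (Path.Homotopic.Quotient.mk p)
  rw [PF.toHom_mk] at this ⊢
  exact congrArg f this

/-- On a simply connected space there is a global potential. -/
theorem exists_pot_univ [SimplyConnectedSpace X] (φ : PF X G) : ∃ τ, φ.Pot univ τ :=
  φ.exists_pot fun x p _ => by
    rw [φ.hom (SimplyConnectedSpace.paths_homotopic p (Path.refl x)), φ.refl]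

end generic

/-! ### The plat -/

/-- the position after `k` letters of the strand with bottom position `p` -/
def pos (w : Word) (k p : ℕ) : ℕ := (w.take k).foldl (fun q x => sw x q) p

/-- the top position of the strand with bottom position `p`, for the explicit family -/
def perm : ℕ → ℕ
  | 0 => 4
  | 1 => 0
  | 2 => 2
  | 3 => 1
  | 4 => 5
  | 5 => 3
  | p + 6 => p + 6

/-- the words that we consider -/
structure Ok (b o : ℕ) (w : Word) : Prop where
  pos0 : 0 < b
  rng : ∀ x ∈ w, x.1 + 1 < 2 * b + o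
  top : ∀ p, 2 * b ≤ p → pos w w.length p = p

/-- the other end of a cap -/
def mate (q : ℕ) : ℕ := if q % 2 = 0 then q + 1 else q - 1

/-- the bottom position of the strand with top position `q` -/
def lab (w : Word) (q : ℕ) : ℕ := w.foldr (fun x q => sw x q) q

/-- the strand on which one comes down after going up the strand `p` -/
def down (w : Word) (p : ℕ) : ℕ := lab w (mate (pos w w.length p))

/-- the strands on which one goes up -/
def walk (w : Word) (i : ℕ) : ℕ := (fun p => mate (down w p))^[i] 0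

/-- the number of bridges of the component of the first strand -/
noncomputable def per (w : Word) : ℕ := Function.minimalPeriod (fun p => mate (down w p)) 0

/-- the heights at which the strand `p` exists -/
def act (b : ℕ) (w : Word) (p : ℕ) (t : ℝ) : Prop := 2 * b ≤ p ∨ (-1 ≤ t ∧ t ≤ w.length + 1)

/-- all strands -/
def link (b o : ℕ) (w : Word) : Set (ℂ × ℝ) :=
  {y | ∃ p < 2 * b + o, act b w p y.2 ∧ y.1 = strand b w p y.2}

/-- the complement of all strands -/
abbrev XX (b o : ℕ) (w : Word) : Type := ↥(link b o w)ᶜ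

/-- for `e = 1` the points above all strands, for `e = -1` the points below all strands -/
def Up (b o : ℕ) (w : Word) (e : ℝ) : Set (XX b o w) :=
  {y | ∀ p < 2 * b + o, act b w p y.1.2 → (strand b w p y.1.2).re = y.1.1.re →
    0 < e * (y.1.1.im - (strand b w p y.1.2).im)}

/-- the box between the two strands of the crossing number `k` -/
def Vb (b o : ℕ) (w : Word) (k : ℕ) : Set (XX b o w) :=
  {y | ∃ x, w[k]? = some x ∧ (x.1 : ℝ) < y.1.1.re ∧ y.1.1.re < x.1 + 1 ∧
    |y.1.1.im| < (y.1.2 - k) * (1 - (y.1.2 - k))}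

/-- the number of crossings below the height `t` -/
noncomputable def stage (w : Word) (t : ℝ) : ℕ := min w.length ⌈t - 1 / 2⌉₊

open Classical in
/-- the number of strands to the left of the point -/
noncomputable def idx (b o : ℕ) (w : Word) (y : ℂ × ℝ) : ℕ :=
  ((Finset.range (2 * b + o)).filter fun p => (strand b w p y.2).re < y.1.re).card

section labels

variable {G : Type} [Group G]

/-- the effect of a crossing on the labels of the regions -/
def stepP (x : ℕ × Bool) (P : ℕ → G) : ℕ → G :=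
  Function.update P (x.1 + 1)
    (if x.2 then P (x.1 + 2) * (P (x.1 + 1))⁻¹ * P x.1 else P x.1 * (P (x.1 + 1))⁻¹ * P (x.1 + 2))

/-- the labels of the regions after `k` letters -/
def reg (w : Word) (P : ℕ → G) (k : ℕ) : ℕ → G := (w.take k).foldl (fun P x => stepP x P) P

/-- the colour of the strand above, when the strand at the position `q` passes under -/
def under (x : ℕ × Bool) (P : ℕ → G) (q : ℕ) : G :=
  if x.2 then (if q = x.1 + 1 then (P (x.1 + 1))⁻¹ * P x.1 else 1)
  else (if q = x.1 then (P (x.1 + 1))⁻¹ * P (x.1 + 2) else 1)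

/-- the product of the colours of the strands above the strand `p` during the first `k` letters -/
def trP (w : Word) (P : ℕ → G) (p : ℕ) : ℕ → G
  | 0 => 1
  | k + 1 => trP w P p k * (match w[k]? with
    | some x => under x (reg w P k) (pos w k p)
    | none => 1)

/-- the conditions at the caps -/
def Capd (b : ℕ) (w : Word) (P : ℕ → G) : Prop :=
  ∀ j ≤ b, P (2 * j) = 1 ∧ reg w P w.length (2 * j) = 1

/-- the other strands have trivial colours -/
def Flat (b o : ℕ) (P : ℕ → G) : Prop := ∀ j, 2 * b ≤ j → j ≤ 2 * b + o → P j = 1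

/-- the product of the colours above the knot -/
noncomputable def Raw (w : Word) (P : ℕ → G) : G :=
  ((List.range (per w)).map fun i =>
    trP w P (walk w i) w.length * (trP w P (down w (walk w i)) w.length)⁻¹).prod

/-- `τp`, `τm` are potentials above and below the strands, and `P` labels the regions -/
structure Reg {b o : ℕ} {w : Word} (φ : PF (XX b o w) G) (P : ℕ → G) (τp τm : XX b o w → G) :
    Prop where
  up : φ.Pot (Up b o w 1) τp
  dn : φ.Pot (Up b o w (-1)) τm
  lab : ∀ y ∈ Up b o w 1 ∩ Up b o w (-1),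
    τm y = reg w P (stage w y.1.2) (idx b o w y.1) * τp y

/-- `P` is the labelling of the regions given by `φ` and the base point `x0` -/
def HasReg {b o : ℕ} {w : Word} (φ : PF (XX b o w) G) (x0 : XX b o w) (P : ℕ → G) : Prop :=
  ∃ τp τm, Reg φ P τp τm ∧ τp x0 = 1

/-- the labels when the colours of the knot are forgotten -/
def forget (b : ℕ) (P : ℕ → G) : ℕ → G := fun j => if j ≤ 2 * b then 1 else P j

/-- seen by the labelling `P`, the other strands are split off -/
def SplitAt (b o : ℕ) (w : Word) (P : ℕ → G) : Prop :=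
  (∀ j, 2 * b ≤ j → j ≤ 2 * b + o → reg w P w.length j = P j) ∧
    ∀ p, 2 * b ≤ p → p < 2 * b + o → trP w P p w.length = 1

/-- seen by `G`, the other strands are split off -/
def Split (b o : ℕ) (w : Word) (G : Type) [Group G] : Prop :=
  ∀ P : ℕ → G, P 0 = 1 → SplitAt b o w P ∧
    ((∀ j ≤ 2 * b, P j = 1) → ∀ j ≤ 2 * b, reg w P w.length j = 1)

end labels

/-! ### Punctured solid tori -/

/-- the points of the solid torus with radius in `J` -/
abbrev TJ (J : Set ℝ) : Type := {x : Circle × ℂ // ‖x.2‖ ∈ J}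

/-- the data of the embedded situation -/
structure Emb (b o : ℕ) (w : Word) (ν : Circle × ℂ → S3) (e : ↥(pattern b o w) → S3)
    (eX : C(XX b o w, ↥(core ν)ᶜ)) : Prop where
  ok : Ok b o w
  he : IsOpenEmbedding e
  hν : IsOpenEmbedding ν
  hcore : core ν = e '' (Subtype.val ⁻¹' knot b w)
  heX : ∀ (y : XX b o w) (h : y.1 ∈ pattern b o w), (eX y).1 = e ⟨y.1, h⟩

end Vale.Agent.N258B
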