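import Vale.Agent.N258B.GeoA

/-! Block C: the walk along the knot. -/

namespace Vale.Agent.N258B

open Set Filter Topology
open Vale.Agent.P258.Braid (Word)
open Vale.Agent.P002Z

variable {nb o : ℕ} {w : Word}

theorem C_sw_sw (x : ℕ × Bool) (q : ℕ) : sw x (sw x q) = q := by
  unfold sw; split_ifs <;> omega

theorem pos_lab (w : Word) (q : ℕ) : pos w w.length (lab w q) = q := by
  rw [pos, List.take_length, lab]
  induction w with
  | nil => rfl
  | cons x w ih => rw [List.foldr_cons, List.foldl_cons, C_sw_sw, ih]

theorem lab_pos (w : Word) (p : ℕ) : lab w (pos w w.length p) = p := by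
  rw [pos, List.take_length, lab]
  induction w generalizing p with
  | nil => rfl
  | cons x w ih => rw [List.foldr_cons, List.foldl_cons, ih, C_sw_sw]

theorem mate_mate (q : ℕ) : mate (mate q) = q := by
  unfold mate; split_ifs <;> omega

theorem mate_ne (q : ℕ) : mate q ≠ q := by
  unfold mate; split_ifs <;> omega

theorem mate_lt (nb q : ℕ) : mate q < 2 * nb ↔ q < 2 * nb := by
  unfold mate; split_ifs <;> omega

theorem C_pos_down (w : Word) (p : ℕ) :
    pos w w.length (down w p) = mate (pos w w.length p) := by
  rw [down, pos_lab]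

theorem down_down (w : Word) (p : ℕ) : down w (down w p) = p := by
  rw [down, C_pos_down, mate_mate, lab_pos]

theorem C_down_ne (w : Word) (p : ℕ) : down w p ≠ p := fun h => by
  have := C_pos_down w p
  rw [h] at this
  exact mate_ne _ this.symm

theorem down_lt (ok : Ok nb o w) (p : ℕ) : down w p < 2 * nb ↔ p < 2 * nb := by
  rw [← ok.top_lt, C_pos_down, mate_lt, ok.top_lt]

theorem walk_zero (w : Word) : walk w 0 = 0 := rfl

theorem walk_succ (w : Word) (i : ℕ) : walk w (i + 1) = mate (down w (walk w i)) :=
  Function.iterate_succ_apply' _ _ _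

theorem walk_lt (ok : Ok nb o w) (i : ℕ) : walk w i < 2 * nb := by
  induction i with
  | zero => have := ok.pos0; rw [walk_zero]; omega
  | succ i ih => rwa [walk_succ, mate_lt, down_lt ok]

theorem C_step_inj (w : Word) : Function.Injective fun p => mate (down w p) := fun a b h => by
  have h1 := congrArg (fun q => down w (mate q)) h
  simpa only [mate_mate, down_down] using h1

theorem per_pos (ok : Ok nb o w) : 0 < per w := by
  obtain ⟨i, j, hij, h⟩ := Finite.exists_ne_map_eq_of_infinite
    (fun i : ℕ => (⟨walk w i, walk_lt ok i⟩ : Fin (2 * nb)))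
  have h' : walk w i = walk w j := congrArg Fin.val h
  clear h
  wlog hlt : i < j generalizing i j
  · exact this j i hij.symm h'.symm (by omega)
  obtain ⟨d, rfl⟩ := Nat.exists_eq_add_of_lt hlt
  refine Function.IsPeriodicPt.minimalPeriod_pos (n := d + 1) (by omega) ?_
  rw [walk, walk, add_assoc, Function.iterate_add_apply] at h'
  exact (((C_step_inj w).iterate i) h').symm

theorem walk_per (w : Word) : walk w (per w) = 0 := Function.iterate_minimalPeriod

theorem walk_inj {i j : ℕ} (hi : i < per w) (hj : j < per w) (h : walk w i = walk w j) :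
    i = j := Function.iterate_injOn_Iio_minimalPeriod hi hj h

theorem walk_mod (w : Word) (i : ℕ) : walk w (i % per w) = walk w i :=
  Function.iterate_mod_minimalPeriod_eq

theorem C_down_ne_walk (w : Word) (d : ℕ) : ∀ i, down w (walk w i) ≠ walk w (i + d) := by
  induction d using Nat.twoStepInduction with
  | zero => exact fun i => C_down_ne w _
  | one => exact fun i h => mate_ne _ (by rw [walk_succ] at h; exact h.symm)
  | more d ih _ =>
    intro i h
    refine ih (i + 1) ?_
    rw [walk_succ, h, show i + (d + 2) = (i + 1 + d) + 1 by omega, walk_succ, mate_mate, down_down]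

/-- the knot is never traversed in both directions along one strand -/
theorem down_ne_walk (w : Word) (i j : ℕ) : down w (walk w i) ≠ walk w j := by
  rcases le_total i j with h | h
  · obtain ⟨d, rfl⟩ := Nat.exists_eq_add_of_le h
    exact C_down_ne_walk w d i
  · obtain ⟨d, rfl⟩ := Nat.exists_eq_add_of_le h
    intro e
    exact C_down_ne_walk w d j (by rw [← e, down_down])

theorem C_cap_mate {q : ℕ} (hq : q < 2 * nb) : cap nb q 1 = cap nb (mate q) 1 := by
  rw [cap, cap, if_pos hq, if_pos ((mate_lt nb q).2 hq), min_self]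
  congr 1
  rcases Nat.even_or_odd' q with ⟨r, rfl | rfl⟩
  · rw [mate, if_pos (by omega), pow_succ, pow_mul]
    push_cast
    ring
  · rw [mate, if_neg (by omega), Nat.add_sub_cancel, pow_succ, pow_mul]
    push_cast
    ring

/-- the tips of the caps -/
theorem tip_top (ok : Ok nb o w) {p : ℕ} (hp : p < 2 * nb) :
    strand nb w p (w.length + 1) = strand nb w (down w p) (w.length + 1) := by
  rw [strand_top p (by linarith), strand_top (down w p) (by linarith), add_sub_cancel_left,
    C_pos_down]
  exact C_cap_mate ((ok.top_lt p).2 hp)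

theorem tip_bot (w : Word) {p : ℕ} (hp : p < 2 * nb) :
    strand nb w p (-1) = strand nb w (mate p) (-1) := by
  rw [strand_bot nb w p (by norm_num), strand_bot nb w (mate p) (by norm_num), neg_neg]
  exact C_cap_mate hp

/-- the walk depends only on the permutation -/
theorem walk_congr {w w0 : Word} (h : ∀ p, pos w w.length p = pos w0 w0.length p) :
    per w = per w0 ∧ (∀ i, walk w i = walk w0 i) ∧ ∀ p, down w p = down w0 p := by
  have hl : ∀ q, lab w q = lab w0 q := fun q => by
    conv_lhs => rw [← pos_lab w0 q, ← h, lab_pos]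
  have hd : down w = down w0 := funext fun p => by rw [down, down, h, hl]
  refine ⟨by rw [per, per, hd], fun i => by rw [walk, walk, hd], fun p => by rw [hd]⟩

/-- if the walk has `nb` steps it covers the knot -/
theorem walk_cover (ok : Ok nb o w) (h : per w = nb) {p : ℕ} (hp : p < 2 * nb) :
    ∃ i < nb, p = walk w i ∨ p = down w (walk w i) := by
  have i1 : Set.InjOn (walk w) (Finset.range nb : Set ℕ) := fun i hi j hj e =>
    walk_inj (by rw [h]; simpa using hi) (by rw [h]; simpa using hj) e
  have i2 : Set.InjOn (fun i => down w (walk w i)) (Finset.range nb : Set ℕ) := fun i hi j hj e =>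
    i1 hi hj (by simpa only [down_down] using congrArg (down w) e)
  have hd : Disjoint ((Finset.range nb).image (walk w))
      ((Finset.range nb).image fun i => down w (walk w i)) := by
    rw [Finset.disjoint_left]
    intro a ha hb
    obtain ⟨i, -, rfl⟩ := Finset.mem_image.1 ha
    obtain ⟨j, -, e⟩ := Finset.mem_image.1 hb
    exact down_ne_walk w j i e
  have he : (Finset.range nb).image (walk w) ∪ ((Finset.range nb).image fun i => down w (walk w i))
      = Finset.range (2 * nb) := by
    refine Finset.eq_of_subset_of_card_le (fun a ha => ?_) ?_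
    · rw [Finset.mem_range]
      rcases Finset.mem_union.1 ha with ha | ha
      · obtain ⟨i, -, rfl⟩ := Finset.mem_image.1 ha
        exact walk_lt ok i
      · obtain ⟨i, -, rfl⟩ := Finset.mem_image.1 ha
        exact (down_lt ok _).2 (walk_lt ok i)
    · rw [Finset.card_union_of_disjoint hd, Finset.card_image_of_injOn i1,
        Finset.card_image_of_injOn i2, Finset.card_range, Finset.card_range]
      omega
  have hm : p ∈ Finset.range (2 * nb) := Finset.mem_range.2 hp
  rw [← he] at hm
  rcases Finset.mem_union.1 hm with ha | ha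
  · obtain ⟨i, hi, rfl⟩ := Finset.mem_image.1 ha
    exact ⟨i, Finset.mem_range.1 hi, Or.inl rfl⟩
  · obtain ⟨i, hi, rfl⟩ := Finset.mem_image.1 ha
    exact ⟨i, Finset.mem_range.1 hi, Or.inr rfl⟩

theorem walk_perm (h : ∀ p, pos w w.length p = perm p) :
    per w = 3 ∧ walk w 1 = 5 ∧ walk w 2 = 3 ∧ down w 0 = 4 ∧ down w 5 = 2 ∧ down w 3 = 1 := by
  have hl : ∀ p, lab w (perm p) = p := fun p => by rw [← h, lab_pos]
  have d0 : down w 0 = 4 := by rw [down, h]; exact hl 4
  have d5 : down w 5 = 2 := by rw [down, h]; exact hl 2
  have d3 : down w 3 = 1 := by rw [down, h]; exact hl 1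
  have w1 : walk w 1 = 5 := by rw [walk_succ, walk_zero, d0]; rfl
  have w2 : walk w 2 = 3 := by rw [walk_succ, w1, d5]; rfl
  have w3 : walk w 3 = 0 := by rw [walk_succ, w2, d3]; rfl
  refine ⟨?_, w1, w2, d0, d5, d3⟩
  have : Fact (Nat.Prime 3) := ⟨Nat.prime_three⟩
  refine Function.minimalPeriod_eq_prime w3 fun hf => ?_
  have : walk w 1 = 0 := hf
  omega

end Vale.Agent.N258B
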