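import Vale.Agent.N258B.D0

/-! Block D1: the action of the commutator. -/

namespace Vale.Agent.N258B

open Set Filter Topology
open Vale.Agent.P258.Braid (Word)
open Vale.Agent.P002Z

open Vale.Agent.P258.Braid

variable {m : ℕ} {G : Type} [Group G]

theorem D1_pw {i : ℕ} {z : ℤ} {x : ℕ × Bool} (h : x ∈ pw i z) : x.1 = i := by
  cases z with
  | ofNat n => rw [List.eq_of_mem_replicate h]
  | negSucc n => rw [List.eq_of_mem_replicate h]

theorem D1_inv {w : Word} {k : ℕ} (h : ∀ x ∈ w, x.1 + 1 < k) : ∀ x ∈ inverse w, x.1 + 1 < k := by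
  intro x hx
  obtain ⟨y, hy, rfl⟩ := List.mem_map.1 (List.mem_reverse.1 hx)
  exact h y hy

theorem D1_app {u v : Word} {k : ℕ} (h : ∀ x ∈ u, x.1 + 1 < k) (h' : ∀ x ∈ v, x.1 + 1 < k) :
    ∀ x ∈ u ++ v, x.1 + 1 < k := fun x hx => (List.mem_append.1 hx).elim (h x) (h' x)

theorem D1_rngA : ∀ x ∈ ringA, x.1 + 1 < 2 * 3 + 1 := by
  refine D1_app (by decide) (D1_app (fun x hx => ?_) (by decide))
  obtain ⟨l, hl, hx⟩ := List.mem_flatten.1 hx
  rw [List.eq_of_mem_replicate hl] at hx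
  exact (by decide : ∀ x ∈ [(3, false), (2, false), (2, false), (3, false)],
    x.1 + 1 < 2 * 3 + 1) x hx

theorem D1_rngB : ∀ x ∈ ringB, x.1 + 1 < 2 * 3 + 1 := by decide

theorem D1_rngP {i : ℕ} (hi : i < 6) (z : ℤ) : ∀ x ∈ pw i z, x.1 + 1 < 2 * 3 + 1 := fun x hx => by
  have := D1_pw hx
  omega

theorem sat_rng (n : ℤ) : ∀ x ∈ sat n, x.1 + 1 < 2 * 3 + 1 :=
  D1_app (D1_app (D1_rngP (by decide) _) (D1_rngP (by decide) _))
    (D1_app (D1_app D1_rngA (D1_app D1_rngB (D1_app (D1_inv D1_rngA) (D1_inv D1_rngB))))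
      (D1_app (D1_app (D1_rngP (by decide) _)
        (D1_app (D1_rngP (by decide) _) (D1_rngP (by decide) _))) (by decide)))

theorem cj_cj (g h : G) (s : St m G) : cj h (cj g s) = cj (g * h) s := by
  refine St.ext rfl ?_ ?_
  · simp only [cj, mul_inv_rev, mul_assoc]
  · simp only [cj, mul_assoc]

theorem cj_one (s : St m G) : cj 1 s = s := by
  refine St.ext rfl ?_ ?_
  · simp only [cj, inv_one, mul_one, one_mul]
  · simp only [cj, mul_one]

theorem cj_col (h : G) (s : St m G) : (cj h s).col = h⁻¹ * s.col * h := rfl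

theorem cj_lab (h : G) (s : St m G) : (cj h s).lab = s.lab := rfl

theorem half_false (s t : St m G) : half false s t = (t, cj t.col⁻¹ s) := by
  simp only [half, cj, inv_inv]

theorem half_true (s t : St m G) : half true s t = (cj s.col t, s) := rfl

theorem D1_loop (a0 a1 x y E r s : St m G) :
    run [(3, false), (2, false), (2, false), (3, false)] [a0, a1, x, y, E, r, s] =
      [a0, a1, cj E.col⁻¹ x, cj E.col⁻¹ y,
        cj (E.col * (y.col * x.col)⁻¹ * E.col⁻¹) E, r, s] := by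
  simp only [run, List.foldl_cons, List.foldl_nil, cross, half_false, cj_cj, cj_col]
  congr 6
  group

theorem D1_loops (a0 a1 x y E r s : St m G) (k : ℕ) :
    run (List.replicate k [(3, false), (2, false), (2, false), (3, false)]).flatten
      [a0, a1, x, y, E, r, s] =
      [a0, a1, cj ((y.col * x.col) ^ k * ((E.col * (y.col * x.col)) ^ k)⁻¹) x,
        cj ((y.col * x.col) ^ k * ((E.col * (y.col * x.col)) ^ k)⁻¹) y,
        cj (E.col ^ k * ((E.col * (y.col * x.col)) ^ k)⁻¹) E, r, s] := by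
  induction k with
  | zero => simp only [List.replicate_zero, List.flatten_nil, run, List.foldl_nil, pow_zero,
      inv_one, mul_one, cj_one]
  | succ k ih =>
    rw [List.replicate_succ', List.flatten_append, run_append, ih, List.flatten_singleton,
      D1_loop]
    simp only [cj_cj, cj_col]
    have c1 : (E.col ^ k)⁻¹ * E.col * E.col ^ k = E.col := by group
    have c2 : ((y.col * x.col) ^ k)⁻¹ * (y.col * x.col) * (y.col * x.col) ^ k =
        y.col * x.col := by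
      generalize y.col * x.col = q
      group
    rw [pow_succ, pow_succ, pow_succ]
    generalize (E.col * (y.col * x.col)) ^ k = S at *
    generalize (y.col * x.col) ^ k = Q at *
    generalize E.col ^ k = U at *
    have e1 : (U * S⁻¹)⁻¹ * E.col * (U * S⁻¹) = S * E.col * S⁻¹ := by
      calc _ = S * (U⁻¹ * E.col * U) * S⁻¹ := by group
        _ = _ := by rw [c1]
    have e2 : (Q * S⁻¹)⁻¹ * y.col * (Q * S⁻¹) * ((Q * S⁻¹)⁻¹ * x.col * (Q * S⁻¹)) =
        S * (y.col * x.col) * S⁻¹ := by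
      calc _ = S * (Q⁻¹ * (y.col * x.col) * Q) * S⁻¹ := by group
        _ = _ := by rw [c2]
    rw [e1, e2]
    have e3 : Q * S⁻¹ * (S * E.col * S⁻¹)⁻¹ =
        Q * (y.col * x.col) * (S * (E.col * (y.col * x.col)))⁻¹ := by group
    have e4 : U * S⁻¹ * (S * E.col * S⁻¹ * (S * (y.col * x.col) * S⁻¹)⁻¹ * (S * E.col * S⁻¹)⁻¹) =
        U * E.col * (S * (E.col * (y.col * x.col)))⁻¹ := by group
    rw [e3, e4]

/-- the action of `ringA` -/
theorem run_ringA (a0 a1 x y a4 a5 E : St m G) : run ringA [a0, a1, x, y, a4, a5, E] =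
    [a0, a1, cj ((y.col * x.col) ^ 252 * ((E.col * (y.col * x.col)) ^ 252)⁻¹) x,
      cj ((y.col * x.col) ^ 252 * ((E.col * (y.col * x.col)) ^ 252)⁻¹) y,
      cj (E.col⁻¹ * (cj (E.col ^ 252 * ((E.col * (y.col * x.col)) ^ 252)⁻¹) E).col) a4,
      cj (E.col⁻¹ * (cj (E.col ^ 252 * ((E.col * (y.col * x.col)) ^ 252)⁻¹) E).col) a5,
      cj (E.col ^ 252 * ((E.col * (y.col * x.col)) ^ 252)⁻¹) E] := by
  have h1 : run [(5, false), (4, false)] [a0, a1, x, y, a4, a5, E] =
      [a0, a1, x, y, E, cj E.col⁻¹ a4, cj E.col⁻¹ a5] := by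
    simp only [run, List.foldl_cons, List.foldl_nil, cross, half_false]
  have h2 : ∀ x y F r s : St m G, run [(4, true), (5, true)] [a0, a1, x, y, F, r, s] =
      [a0, a1, x, y, cj F.col r, cj F.col s, F] := fun x y F r s => by
    simp only [run, List.foldl_cons, List.foldl_nil, cross, half_true]
  rw [ringA, run_append, run_append, h1, D1_loops, h2, cj_cj, cj_cj]

/-- the action of `ringB` -/
theorem run_ringB (a0 a1 a2 a3 x y E : St m G) : run ringB [a0, a1, a2, a3, x, y, E] =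
    [a0, a1, a2, a3, cj E.col⁻¹ x, cj E.col⁻¹ y,
      cj (E.col * (y.col * x.col)⁻¹ * E.col⁻¹) E] := by
  simp only [ringB, run, List.foldl_cons, List.foldl_nil, cross, half_false, cj_cj, cj_col]
  congr 8
  group

omit [Group G] in
theorem D1_row {l : List (St m G)} (h : l.length = 7) :
    ∃ a0 a1 a2 a3 a4 a5 E, l = [a0, a1, a2, a3, a4, a5, E] := by
  match l, h with
  | [a0, a1, a2, a3, a4, a5, E], _ => exact ⟨a0, a1, a2, a3, a4, a5, E, rfl⟩

/-- the word moves the pairs `2, 3` and `4, 5` rigidly -/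
def D1Rigid (m : ℕ) (G : Type) [Group G] (u : Word) : Prop :=
  ∀ a0 a1 a2 a3 a4 a5 E : St m G, ∃ (h h' : G) (E' : St m G), E'.lab = E.lab ∧
    run u [a0, a1, a2, a3, a4, a5, E] = [a0, a1, cj h a2, cj h a3, cj h' a4, cj h' a5, E']

theorem D1Rigid.append {u v : Word} (hu : D1Rigid m G u) (hv : D1Rigid m G v) :
    D1Rigid m G (u ++ v) := by
  intro a0 a1 a2 a3 a4 a5 E
  obtain ⟨h, h', E', e1, e2⟩ := hu a0 a1 a2 a3 a4 a5 E
  obtain ⟨g, g', E'', f1, f2⟩ := hv a0 a1 (cj h a2) (cj h a3) (cj h' a4) (cj h' a5) E'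
  refine ⟨h * g, h' * g', E'', f1.trans e1, ?_⟩
  rw [run_append, e2, f2, cj_cj, cj_cj, cj_cj, cj_cj]

theorem D1Rigid.inv {u : Word} (hu : D1Rigid m G u) : D1Rigid m G (inverse u) := by
  intro a0 a1 a2 a3 a4 a5 E
  obtain ⟨b0, b1, b2, b3, b4, b5, F, hb⟩ :=
    D1_row (l := run (inverse u) [a0, a1, a2, a3, a4, a5, E]) (by rw [run_length]; rfl)
  have h1 := run_inverse (inverse u) [a0, a1, a2, a3, a4, a5, E]
  obtain ⟨h, h', E', e1, e2⟩ := hu b0 b1 b2 b3 b4 b5 F
  rw [inverse_inverse, hb, e2] at h1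
  simp only [List.cons.injEq, and_true] at h1
  obtain ⟨rfl, rfl, rfl, rfl, rfl, rfl, rfl⟩ := h1
  refine ⟨h⁻¹, h'⁻¹, F, e1.symm, ?_⟩
  rw [hb]
  simp only [cj_cj, mul_inv_cancel, cj_one]

theorem run_mid (a0 a1 a2 a3 a4 a5 E : St m G) : ∃ (h h' : G) (E' : St m G), E'.lab = E.lab ∧
    run mid [a0, a1, a2, a3, a4, a5, E] = [a0, a1, cj h a2, cj h a3, cj h' a4, cj h' a5, E'] := by
  have hA : D1Rigid m G ringA := fun a0 a1 a2 a3 a4 a5 E =>
    ⟨_, _, _, cj_lab _ _, run_ringA a0 a1 a2 a3 a4 a5 E⟩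
  have hB : D1Rigid m G ringB := fun a0 a1 a2 a3 a4 a5 E =>
    ⟨1, _, _, cj_lab _ _, by rw [run_ringB, cj_one, cj_one]⟩
  exact (hA.append (hB.append (hA.inv.append hB.inv))) a0 a1 a2 a3 a4 a5 E

theorem D1_pair (h : G) (x y : St m G) (c : Commute h (y.col * x.col)) :
    (cj h y).col * (cj h x).col = y.col * x.col := by
  calc _ = h⁻¹ * (y.col * x.col * h) := by simp only [cj_col]; group
    _ = _ := by rw [← c.eq, inv_mul_cancel_left]

theorem D1_fix (h : G) (x : St m G) (c : Commute h x.col) : (cj h x).col = x.col := by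
  rw [cj_col, mul_assoc, ← c.eq, inv_mul_cancel_left]

theorem D1_commA (a0 a1 x y a4 a5 E : St m G) (c : Commute E.col (y.col * x.col)) :
    run ringA [a0, a1, x, y, a4, a5, E] = [a0, a1, cj (E.col ^ 252)⁻¹ x, cj (E.col ^ 252)⁻¹ y,
      a4, a5, cj ((y.col * x.col) ^ 252)⁻¹ E] := by
  have e1 : (y.col * x.col) ^ 252 * ((E.col * (y.col * x.col)) ^ 252)⁻¹ = (E.col ^ 252)⁻¹ := by
    rw [c.mul_pow, mul_inv_rev, mul_inv_cancel_left]
  have e2 : E.col ^ 252 * ((E.col * (y.col * x.col)) ^ 252)⁻¹ = ((y.col * x.col) ^ 252)⁻¹ := by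
    rw [c.eq, c.symm.mul_pow, mul_inv_rev, mul_inv_cancel_left]
  rw [run_ringA, e1, e2, D1_fix _ E (c.symm.pow_left 252).inv_left, inv_mul_cancel, cj_one,
    cj_one]

theorem D1_commB (a0 a1 a2 a3 x y E : St m G) (c : Commute E.col (y.col * x.col)) :
    run ringB [a0, a1, a2, a3, x, y, E] = [a0, a1, a2, a3, cj E.col⁻¹ x, cj E.col⁻¹ y,
      cj (y.col * x.col)⁻¹ E] := by
  rw [run_ringB, c.inv_right.eq, mul_inv_cancel_right]

theorem run_mid_comm (a0 a1 a2 a3 a4 a5 E : St m G) (h1 : Commute E.col (a3.col * a2.col))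
    (h2 : Commute E.col (a5.col * a4.col)) (h3 : Commute (a3.col * a2.col) (a5.col * a4.col)) :
    run mid [a0, a1, a2, a3, a4, a5, E] = [a0, a1, a2, a3, a4, a5, E] := by
  have f1 := D1_fix _ E (h1.symm.pow_left 252).inv_left
  have f2 := D1_fix _ E h2.symm.inv_left
  have key : run ringB (run ringA [a0, a1, a2, a3, a4, a5, E]) =
      run ringA (run ringB [a0, a1, a2, a3, a4, a5, E]) := by
    rw [D1_commA _ _ _ _ _ _ _ h1, D1_commB _ _ _ _ _ _ _ h2,
      D1_commB _ _ _ _ _ _ _ (by rw [f1]; exact h2), D1_commA _ _ _ _ _ _ _ (by rw [f2]; exact h1),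
      f1, f2, cj_cj, cj_cj, ((h3.pow_left 252).inv_left.inv_right).eq]
  rw [mid, run_append, run_append, run_append, key, run_inverse, run_inverse]

theorem D1_flat (l : Fin m) (t h : G) : cj h (⟨l, 1, t⟩ : St m G) = ⟨l, 1, t * h⟩ := by
  simp only [cj, mul_one, inv_mul_cancel]

theorem D1_flatA (a0 a1 x y a4 a5 : St m G) (l : Fin m) (t : G) :
    run ringA [a0, a1, x, y, a4, a5, ⟨l, 1, t⟩] =
      [a0, a1, x, y, a4, a5, ⟨l, 1, t * ((y.col * x.col) ^ 252)⁻¹⟩] := by
  rw [D1_commA _ _ _ _ _ _ _ (Commute.one_left _), D1_flat]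
  simp only [one_pow, inv_one, cj_one]

theorem D1_flatB (a0 a1 a2 a3 x y : St m G) (l : Fin m) (t : G) :
    run ringB [a0, a1, a2, a3, x, y, ⟨l, 1, t⟩] =
      [a0, a1, a2, a3, x, y, ⟨l, 1, t * (y.col * x.col)⁻¹⟩] := by
  rw [D1_commB _ _ _ _ _ _ _ (Commute.one_left _), D1_flat]
  simp only [inv_one, cj_one]

theorem run_mid_flat (a0 a1 a2 a3 a4 a5 E : St m G) (h : E.col = 1) :
    run mid [a0, a1, a2, a3, a4, a5, E] = [a0, a1, a2, a3, a4, a5, ⟨E.lab, 1,
      E.tr * (((a3.col * a2.col) ^ 252)⁻¹ * (a5.col * a4.col)⁻¹ * (a3.col * a2.col) ^ 252 *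
        (a5.col * a4.col))⟩] := by
  obtain ⟨l, c, t⟩ := E
  obtain rfl : c = 1 := h
  have hA : ∀ t : G, run (inverse ringA) [a0, a1, a2, a3, a4, a5, ⟨l, 1, t⟩] =
      [a0, a1, a2, a3, a4, a5, ⟨l, 1, t * (a3.col * a2.col) ^ 252⟩] := fun t => by
    have := run_inverse ringA [a0, a1, a2, a3, a4, a5, ⟨l, 1, t * (a3.col * a2.col) ^ 252⟩]
    rwa [D1_flatA, mul_inv_cancel_right] at this
  have hB : ∀ t : G, run (inverse ringB) [a0, a1, a2, a3, a4, a5, ⟨l, 1, t⟩] =
      [a0, a1, a2, a3, a4, a5, ⟨l, 1, t * (a5.col * a4.col)⟩] := fun t => by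
    have := run_inverse ringB [a0, a1, a2, a3, a4, a5, ⟨l, 1, t * (a5.col * a4.col)⟩]
    rwa [D1_flatB, mul_inv_cancel_right] at this
  rw [mid, run_append, run_append, run_append, D1_flatA, D1_flatB, hA, hB]
  simp only [mul_assoc]

theorem D1_same (h : ∀ l : List (St (2 * 3 + 1) G), l.length = 7 → run mid l = l) (n : ℤ) :
    Same (2 * 3 + 1) G (fam n ++ turn) (sat n) := by
  intro l hl
  rw [fam_eq, sat, run_append famA, run_append famA, run_append mid,
    h _ (by rw [run_length]; exact hl)]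

theorem same_sat_exp (hN : ∀ g : G, g ^ 252 = 1) (n : ℤ) :
    Same (2 * 3 + 1) G (fam n ++ turn) (sat n) := by
  have hA : ∀ l : List (St (2 * 3 + 1) G), l.length = 7 → run ringA l = l := by
    intro l hl
    obtain ⟨a0, a1, a2, a3, a4, a5, E, rfl⟩ := D1_row hl
    rw [run_ringA]
    simp only [hN, inv_one, mul_one, cj_one, inv_mul_cancel]
  refine D1_same (fun l hl => ?_) n
  have h1 := run_inverse ringA (run ringB l)
  rw [hA _ (by rw [run_length]; exact hl)] at h1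
  rw [mid, run_append, run_append, run_append, hA l hl, h1, run_inverse]

theorem same_sat_comm (A : Type) [CommGroup A] (n : ℤ) :
    Same (2 * 3 + 1) A (fam n ++ turn) (sat n) := by
  refine D1_same (fun l hl => ?_) n
  obtain ⟨a0, a1, a2, a3, a4, a5, E, rfl⟩ := D1_row hl
  exact run_mid_comm _ _ _ _ _ _ _ (Commute.all _ _) (Commute.all _ _) (Commute.all _ _)

end Vale.Agent.N258B
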