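import Vale.Agent.N258B.D1

/-! Block D2: the longitude is a product of two commutators. -/

namespace Vale.Agent.N258B

open Set Filter Topology
open Vale.Agent.P258.Braid (Word)
open Vale.Agent.P002Z

open Vale.Agent.P258.Braid

section

variable {m : ℕ} {G : Type} [Group G]

/-- the strand `s` has the bottom colour `c` and the product of colours `c ^ i * t` -/
def D2_Inv (s : St m G) (c : G) (i : ℤ) (t : G) : Prop := s.tr = c ^ i * t ∧ s.col = t⁻¹ * c * t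

variable {s : St m G} {c t : G} {i : ℤ}

theorem D2_Inv.start (l : Fin m) (c : G) : D2_Inv ⟨l, c, 1⟩ c 0 1 := ⟨by simp, by simp⟩

theorem D2_Inv.cj (h : D2_Inv s c i t) (g : G) : D2_Inv (cj g s) c i (t * g) :=
  ⟨by simp only [N258B.cj, h.1, mul_assoc], by simp only [N258B.cj, h.2]; group⟩

theorem D2_Inv.tw (h : D2_Inv s c i t) (Q : G) (z : ℤ) :
    D2_Inv (tw Q z s) c (i - z) (t * Q ^ z) := by
  have e : (t⁻¹ * c * t) ^ (-z) = t⁻¹ * c ^ (-z) * t := by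
    have := conj_zpow (a := t⁻¹) (b := c) (i := -z)
    rwa [inv_inv] at this
  refine ⟨?_, ?_⟩
  · simp only [P258.Braid.tw, h.1, h.2, e]
    generalize Q ^ z = V
    group
  · simp only [P258.Braid.tw, h.2, zpow_neg]
    generalize Q ^ z = V
    group

theorem D2_move {x y z A B C : G} (h1 : A * z⁻¹ = x * A) (h2 : B * y⁻¹ = z⁻¹ * B)
    (h3 : C * x = y⁻¹ * C) (a b c d : ℤ) :
    x ^ a * A * z ^ b * B * y ^ c * C * x ^ d = x ^ (a - b - c + d) * (A * B * C) := by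
  have k1 := (SemiconjBy.zpow_right (show SemiconjBy A z⁻¹ x from h1) (d - b - c)).eq
  have k2 := (SemiconjBy.zpow_right (show SemiconjBy B y⁻¹ z⁻¹ from h2) (d - c)).eq
  have k3 := (SemiconjBy.zpow_right (show SemiconjBy C x y⁻¹ from h3) d).eq
  calc x ^ a * A * z ^ b * B * y ^ c * C * x ^ d
      = x ^ a * A * z ^ b * B * y ^ c * (C * x ^ d) := by group
    _ = x ^ a * A * z ^ b * (B * y⁻¹ ^ (d - c)) * C := by rw [k3]; group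
    _ = x ^ a * (A * z⁻¹ ^ (d - b - c)) * B * C := by rw [k2]; group
    _ = _ := by rw [k1]; group

theorem D2_alg {x y z U α β : G} (k : ℤ) {t0 t1 t2 t3 t4 t5 : G} (e0 : t0 = U)
    (e1 : t1 = y * x⁻¹ * U) (e2 : t2 = y * x⁻¹ * β) (e3 : t3 = z * y⁻¹ * β * (t2⁻¹ * y * t2))
    (e4 : t4 = z * y⁻¹ * α) (e5 : t5 = α * (t4⁻¹ * z * t4))
    (r1 : t0⁻¹ * x * t0 * (t4⁻¹ * z * t4) = 1) (r2 : t2⁻¹ * y * t2 * (t5⁻¹ * z⁻¹ * t5) = 1)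
    (r3 : t1⁻¹ * x⁻¹ * t1 * (t3⁻¹ * y⁻¹ * t3) = 1) : ∃ a b c d : G,
    x ^ (2 * k + 1) * (t0 * t4⁻¹) * z ^ (-(4 * k + 1)) * (t5 * t2⁻¹) * y ^ (2 * k + 2) *
      (t3 * t1⁻¹) * x ^ (2 * k) = x ^ (6 * k + 2) * (a * b * a⁻¹ * b⁻¹ * (c * d * c⁻¹ * d⁻¹)) := by
  have h1 : t0 * t4⁻¹ * z⁻¹ = x * (t0 * t4⁻¹) := by
    calc _ = t0 * (t0⁻¹ * x * t0 * (t4⁻¹ * z * t4)) * t4⁻¹ * z⁻¹ := by rw [r1]; group
      _ = _ := by group
  have h2 : t5 * t2⁻¹ * y⁻¹ = z⁻¹ * (t5 * t2⁻¹) := by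
    calc _ = t5 * t2⁻¹ * y⁻¹ * t2 * (t2⁻¹ * y * t2 * (t5⁻¹ * z⁻¹ * t5)) * t2⁻¹ := by rw [r2]; group
      _ = _ := by group
  have h3 : t3 * t1⁻¹ * x = y⁻¹ * (t3 * t1⁻¹) := by
    calc _ = t3 * t1⁻¹ * x * t1 * (t1⁻¹ * x⁻¹ * t1 * (t3⁻¹ * y⁻¹ * t3)) * t1⁻¹ := by rw [r3]; group
      _ = _ := by group
  have k1 := D2_move h1 h2 h3 0 0 1 (-1)
  rw [D2_move h1 h2 h3]
  obtain ⟨M, hM⟩ : ∃ M, M = t0 * t4⁻¹ := ⟨_, rfl⟩
  have hx : x = M * z⁻¹ * M⁻¹ := by rw [hM, h1]; group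
  obtain ⟨g, hg⟩ : ∃ g, g = U * α⁻¹ * (y * z⁻¹) := ⟨_, rfl⟩
  obtain ⟨u, hu⟩ : ∃ u, u = U * β⁻¹ * x := ⟨_, rfl⟩
  obtain ⟨B, hB⟩ : ∃ B, B = u * (z * (y⁻¹ * x * y)) * u⁻¹ := ⟨_, rfl⟩
  refine ⟨g * y * g⁻¹, B * x * g⁻¹, u * z * u⁻¹, u * (y⁻¹ * M) * u⁻¹, ?_⟩
  have k2 : u * z * u⁻¹ * (u * (y⁻¹ * M) * u⁻¹) * (u * z * u⁻¹)⁻¹ * (u * (y⁻¹ * M) * u⁻¹)⁻¹ = B := by
    rw [hB]
    conv_rhs => rw [hx]
    group
  have k3 : x ^ (0 : ℤ) * (t0 * t4⁻¹) * z ^ (0 : ℤ) * (t5 * t2⁻¹) * y ^ (1 : ℤ) * (t3 * t1⁻¹) *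
      x ^ (-1 : ℤ) = g * y * g⁻¹ * (B * x * g⁻¹) * (g * y * g⁻¹)⁻¹ * (B * x * g⁻¹)⁻¹ * B := by
    rw [hB, hg, hu, e5, e3, e4, e2, e1, e0]
    group
  rw [k2, ← k3, k1]
  generalize t0 * t4⁻¹ * (t5 * t2⁻¹) * (t3 * t1⁻¹) = N
  group

theorem D2_turn (s0 s1 s2 s3 s4 s5 E : St m G) : run turn [s0, s1, s2, s3, s4, s5, E] =
    [⟨s1.lab, s0.col⁻¹ * s1.col * s0.col, s1.tr * s0.col⟩,
      ⟨s2.lab, s0.col⁻¹ * s2.col * s0.col, s2.tr * s0.col⟩,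
      ⟨s3.lab, s0.col⁻¹ * s3.col * s0.col, s3.tr * s0.col⟩,
      ⟨s4.lab, s0.col⁻¹ * s4.col * s0.col, s4.tr * s0.col⟩, s0, s5, E] := rfl

theorem D2_famA (s0 s1 s2 s3 s4 s5 E : St m G) : run famA [s0, s1, s2, s3, s4, s5, E] =
    [s0, tw (s2.col * s1.col) 1 s1, tw (s2.col * s1.col) 1 s2, tw (s4.col * s3.col) 1 s3,
      tw (s4.col * s3.col) 1 s4, s5, E] := by
  have h2 : (hPerm : Equiv.Perm (St m G × St m G)) ^ (2 : ℤ) = hPerm ^ (2 * 1 : ℤ) := by norm_num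
  rw [famA, run_append, run_pw, run_pw, h2]
  simp only [actAt, hz_even]

theorem D2_famB (k : ℤ) (s0 s1 s2 s3 s4 s5 E : St m G) : ∃ Q V W : G,
    run (famB (2 * k + 1)) [s0, s1, s2, s3, s4, s5, E] =
    [tw Q (-(2 * k + 1)) s0, tw Q (-(2 * k + 1)) s1, cj (tw V k s2).col (tw V k s3), tw V k s2,
      cj (tw W (-(2 * k + 1)) s4).col (tw W (-(2 * k + 1)) s5), tw W (-(2 * k + 1)) s4, E] := by
  have h10 : (hPerm : Equiv.Perm (St m G × St m G)) ^ (-2 * (2 * k + 1)) =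
      hPerm ^ (2 * (-(2 * k + 1))) := by
    congr 1; ring
  have h9 : (hPerm : Equiv.Perm (St m G × St m G)) ^ (1 - 2 * (2 * k + 1)) =
      hPerm ^ (2 * (-(2 * k + 1)) + 1) := by
    congr 1; ring
  refine ⟨s1.col * s0.col, s3.col * s2.col, s5.col * s4.col, ?_⟩
  rw [famB, run_append, run_append, run_pw, run_pw, run_pw, h10, h9]
  simp only [actAt, hz_even, hz_odd]
  rfl

end

theorem raw_sat {n : ℤ} (hn : Odd n) : ∃ j : ℤ, ∀ (G : Type) [Group G] (P : ℕ → G),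
    Capd 3 (sat n) P → ∃ a b c d : G,
      Raw (sat n) P = (P 1)⁻¹ ^ j * (a * b * a⁻¹ * b⁻¹ * (c * d * c⁻¹ * d⁻¹)) := by
  have hpos : ∀ p, pos (sat n) (sat n).length p = perm p := fun p =>
    (same_pos (fun x hx => (fam_small n x hx).trans (Nat.lt_succ_self _)) (sat_rng n)
      (same_sat_comm (Multiplicative ℤ) n) p).trans (fam_perm hn p)
  obtain ⟨k, rfl⟩ := hn
  refine ⟨6 * k + 2, fun G _ P hP => ?_⟩
  obtain ⟨x, hx⟩ : ∃ x, x = (P 1)⁻¹ := ⟨_, rfl⟩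
  obtain ⟨y, hy⟩ : ∃ y, y = (P 3)⁻¹ := ⟨_, rfl⟩
  obtain ⟨z, hz⟩ : ∃ z, z = (P 5)⁻¹ := ⟨_, rfl⟩
  have p0 : P 0 = 1 := (hP 0 (by norm_num)).1
  have p2 : P 2 = 1 := (hP 1 (by norm_num)).1
  have p4 : P 4 = 1 := (hP 2 (by norm_num)).1
  have p6 : P 6 = 1 := (hP 3 (by norm_num)).1
  have h1 := A_bridge' (m := 7) (sat_rng (2 * k + 1)) P ![x, x⁻¹, y, y⁻¹, z, z⁻¹, (P 7)⁻¹]
    (fun j => by fin_cases j <;> simp [hx, hy, hz, p0, p2, p4, p6])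
  have hs : start ![x, x⁻¹, y, y⁻¹, z, z⁻¹, (P 7)⁻¹] = [⟨0, x, 1⟩, ⟨1, x⁻¹, 1⟩, ⟨2, y, 1⟩,
    ⟨3, y⁻¹, 1⟩, ⟨4, z, 1⟩, ⟨5, z⁻¹, 1⟩, (⟨6, (P 7)⁻¹, 1⟩ : St 7 G)] := rfl
  have i0 := D2_Inv.start (0 : Fin 7) x
  have i1 := (D2_Inv.start (1 : Fin 7) x⁻¹).tw (y * x⁻¹) 1
  have i2 := (D2_Inv.start (2 : Fin 7) y).tw (y * x⁻¹) 1
  have i3 := (D2_Inv.start (3 : Fin 7) y⁻¹).tw (z * y⁻¹) 1
  have i4 := (D2_Inv.start (4 : Fin 7) z).tw (z * y⁻¹) 1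
  have i5 := D2_Inv.start (5 : Fin 7) z⁻¹
  have hr : ∀ l : List (St 7 G), run (sat (2 * k + 1)) l =
      run turn (run (famB (2 * k + 1)) (run mid (run famA l))) := fun l => by
    rw [sat, run_append, run_append, run_append]
  rw [hr, hs, D2_famA] at h1
  simp only at h1
  generalize (⟨0, x, 1⟩ : St 7 G) = a0 at h1 i0
  generalize tw (y * x⁻¹) 1 (⟨1, x⁻¹, 1⟩ : St 7 G) = a1 at h1 i1
  generalize tw (y * x⁻¹) 1 (⟨2, y, 1⟩ : St 7 G) = a2 at h1 i2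
  generalize tw (z * y⁻¹) 1 (⟨3, y⁻¹, 1⟩ : St 7 G) = a3 at h1 i3
  generalize tw (z * y⁻¹) 1 (⟨4, z, 1⟩ : St 7 G) = a4 at h1 i4
  generalize (⟨5, z⁻¹, 1⟩ : St 7 G) = a5 at h1 i5
  obtain ⟨h, h', E, -, hm⟩ := run_mid a0 a1 a2 a3 a4 a5 ⟨6, (P 7)⁻¹, 1⟩
  obtain ⟨Q, V, W, hb⟩ := D2_famB k a0 a1 (cj h a2) (cj h a3) (cj h' a4) (cj h' a5) E
  rw [hm, hb] at h1
  have j0 := i0.tw Q (-(2 * k + 1))
  have j1 := i1.tw Q (-(2 * k + 1))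
  have j2 := (i2.cj h).tw V k
  have j4 := (i4.cj h').tw W (-(2 * k + 1))
  have j3 := ((i3.cj h).tw V k).cj (tw V k (cj h a2)).col
  have j5 := ((i5.cj h').tw W (-(2 * k + 1))).cj (tw W (-(2 * k + 1)) (cj h' a4)).col
  generalize cj (tw V k (cj h a2)).col (tw V k (cj h a3)) = s3 at h1 j3
  generalize cj (tw W (-(2 * k + 1)) (cj h' a4)).col (tw W (-(2 * k + 1)) (cj h' a5)) = s5 at h1 j5
  generalize tw Q (-(2 * k + 1)) a0 = s0 at h1 j0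
  generalize tw Q (-(2 * k + 1)) a1 = s1 at h1 j1
  generalize tw V k (cj h a2) = s2 at h1 j2 j3
  generalize tw W (-(2 * k + 1)) (cj h' a4) = s4 at h1 j4 j5
  generalize Q ^ (-(2 * k + 1)) = U at j0 j1
  generalize V ^ k = V' at j2 j3
  generalize W ^ (-(2 * k + 1)) = W' at j4 j5
  have key : ∀ p < 7, ∀ s : St 7 G, (run turn [s0, s1, s3, s2, s5, s4, E])[perm p]? = some s →
      trP (sat (2 * k + 1)) P p (sat (2 * k + 1)).length = s.tr := by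
    intro p hp s hs
    obtain ⟨s', hs', -, t⟩ := h1.str p hp
    rw [hpos] at hs'
    rw [← t, Option.some.inj (hs'.symm.trans hs)]
  rw [D2_turn] at h1
  have cap : ∀ j < 3, ∀ u v : St 7 G, _[2 * j]? = some u → _[2 * j + 1]? = some v →
      u.col * v.col = 1 := fun j hj u v hu hv => by
    rw [h1.col _ _ hu, h1.col _ _ hv, (hP j hj.le).2, show 2 * j + 1 + 1 = 2 * (j + 1) by ring,
      (hP (j + 1) hj).2]
    group
  have c0 := cap 0 (by norm_num) _ _ rfl rfl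
  have c1 := cap 1 (by norm_num) _ _ rfl rfl
  have c2 := cap 2 (by norm_num) _ _ rfl rfl
  have kc : ∀ g u v : G, g⁻¹ * u * g * (g⁻¹ * v * g) = 1 → u * v = 1 := fun g u v e => by
    calc u * v = g * (g⁻¹ * u * g * (g⁻¹ * v * g)) * g⁻¹ := by group
      _ = 1 := by rw [e]; group
  have d0 : s1.col * s3.col = 1 := kc _ _ _ c0
  have d1 : s2.col * s5.col = 1 := kc _ _ _ c1
  rw [j1.2, j3.2] at d0
  rw [j5.2, j2.2] at d1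
  rw [j0.2, j4.2] at c2
  obtain ⟨a, b, c, d, e⟩ := D2_alg (U := U) (α := h' * W') (β := h * V') k (by group) (by group)
    (by group) (by rw [j2.2]; group) (by group) (by rw [j4.2]; group) c2 d1 d0
  refine ⟨a, b, c, d, ?_⟩
  obtain ⟨w0, w1, w2, w3, w4, w5⟩ := walk_perm hpos
  unfold Raw
  rw [w0]
  simp only [List.range_succ, List.range_zero, List.nil_append, List.cons_append, List.map_cons,
    List.map_nil, List.prod_cons, List.prod_nil]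
  rw [walk_zero, w1, w2, w3, w4, w5, key 0 (by norm_num) _ rfl, key 1 (by norm_num) _ rfl,
    key 2 (by norm_num) _ rfl, key 3 (by norm_num) _ rfl, key 4 (by norm_num) _ rfl,
    key 5 (by norm_num) _ rfl, ← hx, ← e]
  simp only [half]
  rw [j0.1, j1.1, j2.1, j3.1, j4.1, j5.1]
  group

end Vale.Agent.N258B
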