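import Vale.Agent.N258B.D1

/-! Block D4: special labellings of the pattern. -/

namespace Vale.Agent.N258B

open Set Filter Topology
open Vale.Agent.P258.Braid (Word)
open Vale.Agent.P002Z

open Vale.Agent.P258.Braid

variable {G : Type} [Group G]

theorem D4_same {m : ℕ} {w w' : Word} (hw : ∀ x ∈ w, x.1 + 1 < m) (hw' : ∀ x ∈ w', x.1 + 1 < m)
    (P : ℕ → G) (h : run w' (start fun j : Fin m => (P (j + 1))⁻¹ * P j) =
      run w (start fun j : Fin m => (P (j + 1))⁻¹ * P j)) :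
    (∀ j ≤ m, reg w P w.length j = reg w' P w'.length j) ∧
    ∀ p < m, trP w P p w.length = trP w' P p w'.length := by
  have h1 := A_bridge' hw P (fun j : Fin m => (P (j + 1))⁻¹ * P j) fun _ => rfl
  have h2 := A_bridge' hw' P (fun j : Fin m => (P (j + 1))⁻¹ * P j) fun _ => rfl
  rw [h] at h2
  refine ⟨fun j => ?_, fun p hp => ?_⟩
  · induction j with
    | zero => intro _; rw [reg_left, reg_left]
    | succ j ih =>
      intro hj
      have hs := List.getElem?_eq_getElem (show j < _ from h1.len.symm ▸ hj)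
      have h3 := (h1.col j _ hs).symm.trans (h2.col j _ hs)
      rw [ih (by omega)] at h3
      exact inv_injective (mul_right_cancel h3)
  · obtain ⟨s, hs, l1, t1⟩ := h1.str p hp
    obtain ⟨p', hp', e⟩ := pos_surj hw' w'.length ((pos_lt hw w.length p).2 hp)
    obtain ⟨s', hs', l2, t2⟩ := h2.str p' hp'
    rw [e] at hs'
    obtain rfl : s = s' := Option.some.inj (hs.symm.trans hs')
    obtain rfl : p = p' := l1.symm.trans l2
    exact t1.symm.trans t2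

theorem D4_start (c : Fin 7 → G) : start c = [⟨0, c 0, 1⟩, ⟨1, c 1, 1⟩, ⟨2, c 2, 1⟩, ⟨3, c 3, 1⟩,
    ⟨4, c 4, 1⟩, ⟨5, c 5, 1⟩, ⟨6, c 6, 1⟩] := rfl

theorem D4_famA {m : ℕ} (a0 a1 a2 a3 a4 a5 E : St m G) :
    run famA [a0, a1, a2, a3, a4, a5, E] =
      [a0, tw (a2.col * a1.col) 1 a1, tw (a2.col * a1.col) 1 a2, tw (a4.col * a3.col) 1 a3,
        tw (a4.col * a3.col) 1 a4, a5, E] := by
  have h2 : (hPerm : Equiv.Perm (St m G × St m G)) ^ (2 : ℤ) = hPerm ^ (2 * 1 : ℤ) := by norm_num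
  rw [famA, run_append, run_pw, run_pw, h2]
  simp only [actAt, hz_even]

theorem D4_mem {x y : G} (a a' b b' : G) (h : x * y = 1) (ha : a' * a = 1) (hb : b' * b = 1) :
    a' * x * a * (b' * y * b) ∈ commutator G := by
  rw [← Abelianization.ker_of, MonoidHom.mem_ker]
  have e : Abelianization.of (a' * x * a * (b' * y * b)) =
      Abelianization.of ((x * y) * (a' * a) * (b' * b)) := by
    simp only [map_mul, mul_comm, mul_left_comm, mul_assoc]
  rw [e, h, ha, hb, one_mul, one_mul, map_one]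

/-- in a metabelian group the commutator acts trivially -/
theorem sat_metabelian (n : ℤ) (hG : ∀ a ∈ commutator G, ∀ b ∈ commutator G, Commute a b)
    {P : ℕ → G} (h : ∀ j ≤ 3, P (2 * j) = 1) (h7 : P 7 ∈ commutator G) :
    (∀ j ≤ 7, reg (sat n) P (sat n).length j = reg (fam n ++ turn) P (fam n ++ turn).length j) ∧
      ∀ p < 7, trP (sat n) P p (sat n).length =
        trP (fam n ++ turn) P p (fam n ++ turn).length := by
  refine D4_same (m := 7) (sat_rng n) (A_rng' (fam_small n) 1) P ?_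
  have h2 : P 2 = 1 := h 1 (by norm_num)
  have h4 : P 4 = 1 := h 2 (by norm_num)
  have h6 : P 6 = 1 := h 3 (by norm_num)
  obtain ⟨c, hc⟩ : ∃ c : Fin 7 → G, c = fun j : Fin 7 => (P (j + 1))⁻¹ * P j := ⟨_, rfl⟩
  have e1 : c 3 * c 2 = 1 := by
    rw [hc]
    show (P 4)⁻¹ * P 3 * ((P 3)⁻¹ * P 2) = 1
    rw [h2, h4]; group
  have e2 : c 5 * c 4 = 1 := by
    rw [hc]
    show (P 6)⁻¹ * P 5 * ((P 5)⁻¹ * P 4) = 1
    rw [h4, h6]; group
  have e3 : c 6 ∈ commutator G := by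
    rw [hc]
    show (P 7)⁻¹ * P 6 ∈ commutator G
    rw [h6, mul_one]
    exact inv_mem h7
  have m1 : (c 4 * c 3) ^ (-1 : ℤ) * c 3 * (c 4 * c 3) ^ (1 : ℤ) *
      ((c 2 * c 1) ^ (-1 : ℤ) * c 2 * (c 2 * c 1) ^ (1 : ℤ)) ∈ commutator G :=
    D4_mem _ _ _ _ e1 (by group) (by group)
  have m2 : c 5 * ((c 4 * c 3) ^ (-1 : ℤ) * c 4 * (c 4 * c 3) ^ (1 : ℤ)) ∈ commutator G := by
    have := D4_mem 1 1 ((c 4 * c 3) ^ (1 : ℤ)) ((c 4 * c 3) ^ (-1 : ℤ)) e2 (by group) (by group)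
    rwa [one_mul, mul_one] at this
  rw [← hc, fam_eq, sat, run_append famA, run_append famA, run_append mid, D4_start, D4_famA,
    run_mid_comm]
  · exact hG _ e3 _ m1
  · exact hG _ e3 _ m2
  · exact hG _ m1 _ m2

theorem D4_tw {m : ℕ} {Q : G} {N : ℤ} (h : Q ^ N = 1) (k r : ℤ) (s : St m G) :
    (tw Q (N * k + r) s).col = (Q ^ r)⁻¹ * s.col * Q ^ r := by
  have e : Q ^ (N * k + r) = Q ^ r := by rw [zpow_add, zpow_mul, h, one_zpow, one_mul]
  simp only [tw, zpow_neg, e]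

theorem D4_tail {m : ℕ} {t : ℤ} {a0 a1 a2 a3 a4 a5 E : St m G} {L : List (St m G)}
    (hL : L = run (famB (10 * t + 5) ++ turn) [a0, a1, a2, a3, a4, a5, E])
    (h1 : (a1.col * a0.col) ^ (2 : ℤ) = 1) (h2 : (a3.col * a2.col) ^ (5 : ℤ) = 1)
    (h3 : (a5.col * a4.col) ^ (2 : ℤ) = 1) {u0 u1 u2 u3 u4 u5 : G}
    (e0 : (a1.col * a0.col)⁻¹ * a0.col * (a1.col * a0.col) = u0)
    (e1 : (a1.col * a0.col)⁻¹ * a1.col * (a1.col * a0.col) = u1)
    (e2 : ((a3.col * a2.col) ^ (2 : ℤ))⁻¹ * a2.col * (a3.col * a2.col) ^ (2 : ℤ) = u2)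
    (e3 : ((a3.col * a2.col) ^ (2 : ℤ))⁻¹ * a3.col * (a3.col * a2.col) ^ (2 : ℤ) = u3)
    (e4 : (a5.col * a4.col)⁻¹ * a4.col * (a5.col * a4.col) = u4)
    (e5 : (a5.col * a4.col)⁻¹ * a5.col * (a5.col * a4.col) = u5) :
    L.map St.col = [u0⁻¹ * u1 * u0, u0⁻¹ * (u2⁻¹ * u3 * u2) * u0, u0⁻¹ * u2 * u0,
      u0⁻¹ * (u4⁻¹ * u5 * u4) * u0, u0, u4, E.col] ∧ L[6]? = some E := by
  have f1 : -2 * (10 * t + 5) = 2 * (2 * (-(5 * t + 3)) + 1) := by ring
  have f2 : 1 - 2 * (10 * t + 5) = 2 * (2 * (-(5 * t + 3)) + 1) + 1 := by ring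
  have f3 : 10 * t + 5 = 2 * (5 * t + 2) + 1 := by ring
  rw [hL, famB, f1, f2, f3, run_append, run_append, run_append, run_pw, run_pw, run_pw]
  simp only [actAt, hz_even]
  rw [hz_odd, hz_odd]
  refine ⟨?_, rfl⟩
  simp only [turn, run, List.foldl_cons, List.foldl_nil, cross, half, List.map_cons, List.map_nil,
    D4_tw h1, D4_tw h2, D4_tw h3, zpow_one, e0, e1, e2, e3, e4, e5]

theorem D4_pow {q : G} (h : q ^ 5 = 1) : q ^ 252 = q ^ 2 := by
  rw [show 252 = 5 * 50 + 2 from rfl, pow_add, pow_mul, h, one_pow, one_mul]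

/-- the colours of the strands -/
def D4c : Fin 7 → Equiv.Perm (Fin 5) :=
  ![⟨![0, 1, 3, 4, 2], ![0, 1, 4, 2, 3], by decide, by decide⟩,
    ⟨![0, 1, 4, 2, 3], ![0, 1, 3, 4, 2], by decide, by decide⟩,
    ⟨![2, 1, 4, 3, 0], ![4, 1, 0, 3, 2], by decide, by decide⟩,
    ⟨![4, 1, 0, 3, 2], ![2, 1, 4, 3, 0], by decide, by decide⟩,
    ⟨![1, 4, 2, 3, 0], ![4, 0, 2, 3, 1], by decide, by decide⟩,
    ⟨![4, 0, 2, 3, 1], ![1, 4, 2, 3, 0], by decide, by decide⟩, 1]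

/-- a flat labelling that sees the extra strand -/
theorem sat_essential {n : ℤ} (hn : 10 ∣ n - 5) : ∃ P : ℕ → Equiv.Perm (Fin 5),
    Capd 3 (sat n) P ∧ Flat 3 1 P ∧ trP (sat n) P 6 (sat n).length ≠ 1 := by
  obtain ⟨t, ht⟩ := hn
  obtain rfl : n = 10 * t + 5 := by omega
  obtain ⟨b1, b2⟩ := bridge (m := 7) (sat_rng (10 * t + 5)) D4c
  obtain ⟨s, hs, -, hs'⟩ := b2 6
  have hp : pos (sat (10 * t + 5)) (sat (10 * t + 5)).length (6 : Fin 7) = 6 :=
    (same_pos (A_rng' (fam_small _) 1) (sat_rng _) (same_sat_comm (Multiplicative ℤ) _) 6).trans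
      (A_pos_ge (A2_rng _) le_rfl _ le_rfl)
  rw [hp] at hs
  obtain ⟨L, hL⟩ : ∃ L, L = run (sat (10 * t + 5)) (start D4c) := ⟨_, rfl⟩
  rw [← hL] at hs b1
  rw [sat, run_append famA, run_append mid, D4_start, D4_famA,
    run_mid_flat _ _ _ _ _ _ _ rfl, D4_pow (by decide +kernel)] at hL
  obtain ⟨k1, k2⟩ := D4_tail hL (by decide +kernel) (by decide +kernel) (by decide +kernel) rfl
    rfl rfl rfl rfl rfl
  refine ⟨Pc D4c, fun j hj => ⟨?_, ?_⟩, fun j h6 h7 => ?_, ?_⟩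
  · interval_cases j <;> decide +kernel
  · have e : (L.take (2 * j)).map (fun s => s.col⁻¹) =
        ((L.map St.col).take (2 * j)).map fun g => g⁻¹ := by
      rw [← List.map_take, List.map_map]; rfl
    rw [b1, e, k1]
    interval_cases j <;> decide +kernel
  · have h7' : j ≤ 7 := h7
    have h6' : 6 ≤ j := h6
    interval_cases j <;> decide +kernel
  · obtain rfl := Option.some.inj (k2.symm.trans hs)
    refine fun h => ?_
    have := hs'.trans h
    revert this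
    decide +kernel

end Vale.Agent.N258B
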