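import Vale.Agent.N258B.Defs

/-!
# Essential strands; genus two and trivial Alexander polynomial in terms of the group
-/

namespace Vale.Agent.N258B

open Vale.Agent.P258.Braid (Word)

/-- In the complement of the plat, the strand `p` between the heights `-1` and `w.length + 1` is
not homotopic to a path with the same ends that passes in front of the plat: the strand, closed
up at infinity, is not null-homotopic in the complement of the plat. -/
def Essential (b : ℕ) (w : Word) (p : ℕ) : Prop :=
  ∃ (x y : ↥(knot b w)ᶜ) (γ γ' : Path x y),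
    (∀ t, (γ t).1 = (strand b w p (t * (w.length + 2) - 1), t * (w.length + 2 : ℝ) - 1)) ∧
    (∀ t, 0 ≤ (γ' t).1.1.im ∧
      ((γ' t).1.2 ≤ -1 ∨ w.length + 1 ≤ (γ' t).1.2 ∨ 1 ≤ (γ' t).1.1.im)) ∧ ¬ γ.Homotopic γ'

/-- `g` is a product of two commutators, and the commutator subgroup of the group is perfect. -/
def TwoComm {Γ : Type} [Group Γ] (g : Γ) : Prop :=
  (∃ a b c d : Γ, g = a * b * a⁻¹ * b⁻¹ * (c * d * c⁻¹ * d⁻¹)) ∧
    ⁅commutator Γ, commutator Γ⁆ = commutator Γ

/-- The longitude of `ν` is a product of two commutators, and the commutator subgroup of the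
group of the knot is perfect. -/
def GenusTwoAlexOne {Z : Type} [TopologicalSpace Z] (ν : Circle × ℂ → Z) : Prop :=
  ∀ (x : ↥(core ν)ᶜ) (l : Path x x), (∀ t, (l t).1 = ν (ex t, 1)) →
    TwoComm (FundamentalGroup.fromPath (Path.Homotopic.Quotient.mk l))

end Vale.Agent.N258B
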