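import Vale.Agent.N258B.Q

/-! Block W1: every labelling comes from a function of paths. -/

namespace Vale.Agent.N258B

open Set Filter Topology
open Vale.Agent.P258.Braid (Word)
open Vale.Agent.P002Z

variable {nb o : ℕ} {w : Word} {G : Type} [Group G]

/-- a function with two values, left and right of a strand, is locally constant off the strand -/
theorem W1_lc (x : ℕ × Bool) (k : ℕ) (e : ℝ) (l r : G) {y : XX nb o w}
    (h : y.1.1.re ≠ ov x e (y.1.2 - k)) :
    ∀ᶠ z : XX nb o w in 𝓝 y, (if z.1.1.re < ov x e (z.1.2 - k) then l else r) =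
      if y.1.1.re < ov x e (y.1.2 - k) then l else r := by
  have c1 : Continuous fun z : XX nb o w => z.1.1.re := by fun_prop
  have c2 : Continuous fun z : XX nb o w => ov x e (z.1.2 - k) := by unfold ov; fun_prop
  rcases lt_or_gt_of_ne h with h | h
  · filter_upwards [(isOpen_lt c1 c2).mem_nhds h] with z hz
    rw [if_pos h, if_pos hz]
  · filter_upwards [(isOpen_lt c2 c1).mem_nhds h] with z hz
    rw [if_neg (not_lt.2 (le_of_lt h)), if_neg (not_lt.2 (le_of_lt hz))]

/-- the transition functions in the box of a crossing -/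
theorem W1_box (ok : Ok nb o w) (P : ℕ → G) (k : ℕ) : ∃ a b : XX nb o w → G,
    (∀ y ∈ Vb nb o w k, y ∈ Up nb o w 1 → ∀ᶠ z in 𝓝 y, a z = a y) ∧
    (∀ y ∈ Vb nb o w k, y ∈ Up nb o w (-1) → ∀ᶠ z in 𝓝 y, b z = b y) ∧
    ∀ y ∈ Vb nb o w k, y ∈ Up nb o w 1 → y ∈ Up nb o w (-1) → a y = b y * QQ nb o w P y.1 := by
  rcases hk : w[k]? with _ | x
  · refine ⟨fun _ => 1, fun _ => 1, ?_, ?_, ?_⟩ <;>
    · rintro y ⟨x, hx, -⟩
      rw [hk] at hx
      exact absurd hx (by simp)
  have key : ∃ aL aR bL bR : G, ∀ y ∈ Vb nb o w k, y.1.1.re ≠ ov x 1 (y.1.2 - k) →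
      y.1.1.re ≠ ov x (-1) (y.1.2 - k) →
      (if y.1.1.re < ov x 1 (y.1.2 - k) then aL else aR) =
        (if y.1.1.re < ov x (-1) (y.1.2 - k) then bL else bR) * QQ nb o w P y.1 := by
    have main : ∀ y ∈ Vb nb o w k, (x.1 : ℝ) < y.1.1.re ∧ y.1.1.re < x.1 + 1 ∧ k < y.1.2 ∧
        y.1.2 < k + 1 := by
      rintro y ⟨x', hx, h1, h2, h3⟩
      rw [hk] at hx
      obtain rfl : x = x' := Option.some.inj hx
      have h4 : 0 < (y.1.2 - k) * (1 - (y.1.2 - k)) := (abs_nonneg _).trans_lt h3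
      refine ⟨h1, h2, ?_, ?_⟩ <;> nlinarith
    have hs := reg_succ hk P
    obtain ⟨i, e⟩ := x
    cases e
    · refine ⟨reg w P k (i + 1), reg w P k (i + 2), reg w P k (i + 1) * (reg w P k i)⁻¹, 1, ?_⟩
      intro y hy n1 n2
      obtain ⟨h1, h2, h3, h4⟩ := main y hy
      obtain ⟨q1, q2, q3, q4⟩ := QQ_box ok P hk h1 h2 h3 h4
      have o1 : ov (i, false) 1 (y.1.2 - k) = i + 1 - (y.1.2 - k) := by
        simp only [ov, sg, Bool.false_eq_true, if_false]; ring
      have o2 : ov (i, false) (-1) (y.1.2 - k) = i + (y.1.2 - k) := by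
        simp only [ov, sg, Bool.false_eq_true, if_false]; ring
      rw [o1] at n1 ⊢
      rw [o2] at n2 ⊢
      rcases lt_or_gt_of_ne n1 with n1 | n1 <;> rcases lt_or_gt_of_ne n2 with n2 | n2
      · rw [if_pos n1, if_pos n2, q1 n2 n1]; group
      · rw [if_pos n1, if_neg (not_lt.2 n2.le), q3 n2 n1]; group
      · rw [if_neg (not_lt.2 n1.le), if_pos n2, q4 n2 n1, hs]
        simp only [stepP, Function.update_self, Bool.false_eq_true, if_false]
        group
      · rw [if_neg (not_lt.2 n1.le), if_neg (not_lt.2 n2.le), q2 n2 n1]; group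
    · refine ⟨reg w P k i, reg w P k (i + 1), 1, reg w P k (i + 1) * (reg w P k (i + 2))⁻¹, ?_⟩
      intro y hy n1 n2
      obtain ⟨h1, h2, h3, h4⟩ := main y hy
      obtain ⟨q1, q2, q3, q4⟩ := QQ_box ok P hk h1 h2 h3 h4
      have o1 : ov (i, true) 1 (y.1.2 - k) = i + (y.1.2 - k) := by
        simp only [ov, sg, if_true]; ring
      have o2 : ov (i, true) (-1) (y.1.2 - k) = i + 1 - (y.1.2 - k) := by
        simp only [ov, sg, if_true]; ring
      rw [o1] at n1 ⊢
      rw [o2] at n2 ⊢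
      rcases lt_or_gt_of_ne n1 with n1 | n1 <;> rcases lt_or_gt_of_ne n2 with n2 | n2
      · rw [if_pos n1, if_pos n2, q1 n1 n2]; group
      · rw [if_pos n1, if_neg (not_lt.2 n2.le), q4 n1 n2, hs]
        simp only [stepP, Function.update_self, if_true]
        group
      · rw [if_neg (not_lt.2 n1.le), if_pos n2, q3 n1 n2]; group
      · rw [if_neg (not_lt.2 n1.le), if_neg (not_lt.2 n2.le), q2 n1 n2]; group
  obtain ⟨aL, aR, bL, bR, key⟩ := key
  refine ⟨fun y => if y.1.1.re < ov x 1 (y.1.2 - k) then aL else aR,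
    fun y => if y.1.1.re < ov x (-1) (y.1.2 - k) then bL else bR, ?_, ?_, ?_⟩
  · intro y hy hu
    exact W1_lc x k 1 aL aR ((vb_mem_up ok hk (Or.inl rfl) hy).1 hu)
  · intro y hy hu
    exact W1_lc x k (-1) bL bR ((vb_mem_up ok hk (Or.inr rfl) hy).1 hu)
  · intro y hy hu hd
    exact key y hy ((vb_mem_up ok hk (Or.inl rfl) hy).1 hu)
      ((vb_mem_up ok hk (Or.inr rfl) hy).1 hd)

theorem exists_hasReg (ok : Ok nb o w) {P : ℕ → G} (hP : Capd nb w P) (x0 : XX nb o w) :
    ∃ φ : PF (XX nb o w) G, HasReg φ x0 P := by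
  classical
  choose a b ha hb hab using W1_box ok P
  let U : Bool ⊕ ℕ → Set (XX nb o w) := fun i =>
    match i with
    | Sum.inl true => Up nb o w 1
    | Sum.inl false => Up nb o w (-1)
    | Sum.inr k => Vb nb o w k
  let A : Bool ⊕ ℕ → XX nb o w → G := fun i y =>
    match i with
    | Sum.inl true => 1
    | Sum.inl false => if y ∈ Up nb o w 1 then QQ nb o w P y.1 else 1
    | Sum.inr k => if y ∈ Up nb o w 1 then a k y else b k y
  have o1 := isOpen_up nb o w (e := 1) (Or.inl rfl)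
  have o2 := isOpen_up nb o w (e := -1) (Or.inr rfl)
  have hU : ∀ i, IsOpen (U i) := by
    rintro ((_ | _) | k)
    exacts [o2, o1, isOpen_vb nb o w k]
  have hcov : ∀ y, ∃ i, y ∈ U i := by
    intro y
    rcases cover ok y with h | h | ⟨k, h⟩
    exacts [⟨Sum.inl true, h⟩, ⟨Sum.inl false, h⟩, ⟨Sum.inr k, h⟩]
  let L : Bool ⊕ ℕ → Bool ⊕ ℕ → Prop := fun i j =>
    ∀ x ∈ U i ∩ U j, ∀ᶠ y in 𝓝 x, A j y * (A i y)⁻¹ = A j x * (A i x)⁻¹
  have Lr : ∀ i, L i i := fun i x _ => Eventually.of_forall fun y => by simp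
  have Ls : ∀ i j, L i j → L j i := fun i j h x hx => by
    filter_upwards [h x ⟨hx.2, hx.1⟩] with y hy
    rw [← inv_inj]
    simpa using hy
  have L1 : L (Sum.inl true) (Sum.inl false) := by
    intro x hx
    have h1 : x ∈ Up nb o w 1 := hx.1
    have h2 := (continuous_subtype_val.tendsto x).eventually (QQ_lc ok hP (mem_up_up.1 hx))
    filter_upwards [o1.mem_nhds h1, h2] with y hy hq
    simp only [A, if_pos h1, if_pos hy]
    rw [hq]
  have L2 : ∀ k, L (Sum.inl true) (Sum.inr k) := by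
    intro k x hx
    have h1 : x ∈ Up nb o w 1 := hx.1
    filter_upwards [o1.mem_nhds h1, ha k x hx.2 h1] with y hy hq
    simp only [A, if_pos h1, if_pos hy]
    rw [hq]
  have L3 : ∀ k, L (Sum.inl false) (Sum.inr k) := by
    intro k x hx
    have e : ∀ y ∈ Vb nb o w k, y ∈ Up nb o w (-1) →
        A (Sum.inr k) y * (A (Sum.inl false) y)⁻¹ = b k y := by
      intro y hv hd
      by_cases hu : y ∈ Up nb o w 1
      · simp only [A, if_pos hu]
        rw [hab k y hv hu hd]; group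
      · simp only [A, if_neg hu]; group
    filter_upwards [o2.mem_nhds hx.1, (isOpen_vb nb o w k).mem_nhds hx.2, hb k x hx.2 hx.1]
      with y h1 h2 hq
    rw [e y h2 h1, e x hx.2 hx.1, hq]
  have hL : ∀ i j, L i j := by
    rintro ((_ | _) | k) ((_ | _) | l)
    · exact Lr (Sum.inl false)
    · exact Ls (Sum.inl true) (Sum.inl false) L1
    · exact L3 l
    · exact L1
    · exact Lr (Sum.inl true)
    · exact L2 l
    · exact Ls (Sum.inl false) (Sum.inr k) (L3 k)
    · exact Ls (Sum.inl true) (Sum.inr k) (L2 k)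
    · intro x hx
      obtain rfl : k = l := vb_disjoint hx.1 hx.2
      exact Lr (Sum.inr k) x hx
  obtain ⟨φ, t, ht, htt⟩ := exists_holonomy U hU hcov (fun i j y => A j y * (A i y)⁻¹) hL
    (fun i j k y _ => by group)
  refine ⟨gauge φ fun _ => (t (Sum.inl true) x0)⁻¹,
    fun y => t (Sum.inl true) y * (t (Sum.inl true) x0)⁻¹,
    fun y => t (Sum.inl false) y * (t (Sum.inl true) x0)⁻¹,
    ⟨pot_of_par (ht (Sum.inl true)) (par_gauge φ _ _),
      pot_of_par (ht (Sum.inl false)) (par_gauge φ _ _), ?_⟩, mul_inv_cancel _⟩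
  intro y hy
  have h1 : y ∈ Up nb o w 1 := hy.1
  have := htt (Sum.inl true) (Sum.inl false) y hy
  simp only [A, if_pos h1, inv_one, mul_one] at this
  rw [this, mul_assoc]
  rfl

theorem hasReg_triv (x0 : XX nb o w) : HasReg (triv (XX nb o w) G) x0 fun _ => 1 :=
  ⟨fun _ => 1, fun _ => 1, ⟨fun _ _ _ _ => by simp [triv], fun _ _ _ _ => by simp [triv],
    fun y _ => by rw [reg_one, one_mul]⟩, rfl⟩

end Vale.Agent.N258B
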