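import Vale.Agent.N258B.R1
import Vale.Agent.N258B.W1
import Vale.Agent.N258B.Defs2

/-! Block D5: an extra strand that is essential in the complement of the plat. -/

namespace Vale.Agent.N258B

open Set Filter Topology
open Vale.Agent.P258.Braid (Word)
open Vale.Agent.P002Z

variable {nb o : ℕ} {w : Word} {G : Type} [Group G]

/-- a potential on the punctured disc around an extra strand, at the height `0` -/
theorem D5_level (ok : Ok nb o w) {φ : PF (XX nb o w) G} {P : ℕ → G} {τp τm : XX nb o w → G}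
    (h : Reg φ P τp τm) (hF : Flat nb o P) {p : ℕ} (h1 : 2 * nb ≤ p) (h2 : p < 2 * nb + o) :
    ∃ s, φ.Pot (R1T nb o w p ∩ {y | y.1.2 = 0}) s := by
  classical
  have hp0 : strand nb w p 0 = (p : ℂ) := by
    have := strand_int (nb := nb) (w := w) p (Nat.zero_le w.length)
    rwa [Nat.cast_zero, pos_zero] at this
  have key : ∀ y ∈ R1T nb o w p ∩ {y | y.1.2 = 0}, y ∈ Up nb o w 1 → y ∈ Up nb o w (-1) →
      τm y = τp y := by
    rintro y ⟨hy, hy0⟩ u1 u2
    have hy0' : y.1.2 = 0 := hy0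
    have hy' : ‖y.1.1 - strand nb w p y.1.2‖ < 1 / 16 := hy
    have e : τm y = QQ nb o w P y.1 * τp y := h.lab y ⟨u1, u2⟩
    have hne := mem_up_up.1 ⟨u1, u2⟩ p h2 (Or.inl h1)
    rw [hy0', hp0] at hne hy'
    have hr := abs_lt.1 ((Complex.abs_re_le_norm _).trans_lt hy')
    rw [Complex.sub_re, Complex.natCast_re] at hr
    rw [Complex.natCast_re] at hne
    have h0 : y.1.2 = ((0 : ℕ) : ℝ) := by rw [hy0', Nat.cast_zero]
    rcases lt_or_gt_of_ne hne with c | c
    · rw [e, QQ_ref ok P (Nat.zero_le _) (j := p + 1) h2 (by push_cast; linarith)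
        (by push_cast; linarith [hr.2]) h0, reg_zero, hF _ (by omega) h2, one_mul]
    · rw [e, QQ_ref ok P (Nat.zero_le _) (j := p) h2.le (by linarith [hr.1]) c h0, reg_zero,
        hF _ h1 h2.le, one_mul]
  refine ⟨fun y => if y ∈ Up nb o w 1 then τp y else τm y,
    pot_glue (fun b : Bool => if b then Up nb o w 1 else Up nb o w (-1)) ?_ ?_ ?_⟩
  · rintro (_ | _)
    · exact isOpen_up nb o w (Or.inr rfl)
    · exact isOpen_up nb o w (Or.inl rfl)
  · rintro y ⟨-, hy0⟩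
    have hy0' : y.1.2 = 0 := hy0
    rcases cover ok y with c | c | ⟨k, x, -, -, -, c⟩
    · exact mem_iUnion.2 ⟨true, c⟩
    · exact mem_iUnion.2 ⟨false, c⟩
    · exfalso
      rw [hy0'] at c
      have hk : (0 : ℝ) ≤ k := Nat.cast_nonneg _
      nlinarith [abs_nonneg y.1.1.im]
  · rintro (_ | _)
    · refine pot_congr (pot_mono h.dn inter_subset_right) fun y hy => ?_
      by_cases c : y ∈ Up nb o w 1
      · rw [if_pos c, key y hy.1 c hy.2]
      · rw [if_neg c]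
    · refine pot_congr (pot_mono h.up inter_subset_right) fun y hy => ?_
      exact if_pos hy.2

/-- a potential on the punctured tube around an extra strand -/
theorem D5_tube (ok : Ok nb o w) {φ : PF (XX nb o w) G} {P : ℕ → G} {τp τm : XX nb o w → G}
    (h : Reg φ P τp τm) (hF : Flat nb o P) {p : ℕ} (h1 : 2 * nb ≤ p) (h2 : p < 2 * nb + o) :
    ∃ s, Par (triv (XX nb o w) G) φ (R1T nb o w p) s := by
  obtain ⟨F, hF', hrange, hval⟩ := R1_param ok h1 h2
  obtain ⟨s0, hs0⟩ := D5_level ok h hF h1 h2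
  obtain ⟨s, hs, -⟩ := R1_prod 0 (((pot_iff_par.1 hs0).comap F).mono (V' := {y | y.2 = 0})
    fun x hx => ⟨hrange ▸ mem_range_self x, by
      change (F x).1.2 = 0
      rw [hval]
      exact hx⟩)
  obtain ⟨r, hr, -⟩ := R1_push F hF' hs
  exact ⟨r, hrange ▸ hr⟩

/-- a flat function of paths extends over the extra strands -/
theorem ext_flat (ok : Ok nb o w) {φ : PF (XX nb o w) G} {P : ℕ → G} {τp τm : XX nb o w → G}
    (h : Reg φ P τp τm) (hF : Flat nb o P) (i : C(XX nb o w, ↥(knot nb w)ᶜ))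
    (hi : ∀ y, (i y).1 = y.1) :
    ∃ Φ : PF (↥(knot nb w)ᶜ) G, ∀ x y (p : Path x y), (Φ.comap i).v p = φ.v p := by
  choose st hst using fun p : {p : ℕ // 2 * nb ≤ p ∧ p < 2 * nb + o} =>
    D5_tube ok h hF p.2.1 p.2.2
  obtain ⟨r, hr, -⟩ := R1_glue (fun p : {p : ℕ // 2 * nb ≤ p ∧ p < 2 * nb + o} => R1T nb o w p.1)
    (fun p => R1T_open _) st hst (by
      intro p q y a1 a2
      by_cases hpq : p = q
      · rw [hpq]
      · exfalso
        have b := strand_sep ok (fun e => hpq (Subtype.ext e)) (t := y.1.2) (Or.inl p.2.1)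
        have b1 : ‖y.1.1 - strand nb w p y.1.2‖ < 1 / 16 := a1
        have b2 : ‖y.1.1 - strand nb w q y.1.2‖ < 1 / 16 := a2
        have b3 := norm_sub_le_norm_sub_add_norm_sub (strand nb w p y.1.2) y.1.1
          (strand nb w q y.1.2)
        rw [norm_sub_rev (strand nb w p y.1.2) y.1.1] at b3
        linarith)
  have hK : IsOpenEmbedding (Subtype.val : ↥(knot nb w)ᶜ → ℂ × ℝ) :=
    (isCompact_knot nb w).isClosed.isOpen_compl.isOpenEmbedding_subtypeVal
  have hi' : IsOpenEmbedding i := by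
    refine IsOpenEmbedding.of_comp _ hK ?_
    rw [show Subtype.val ∘ i = Subtype.val from funext hi]
    exact (isClosed_link nb o w).isOpen_compl.isOpenEmbedding_subtypeVal
  let T : Set ↥(knot nb w)ᶜ := ⋃ p : {p : ℕ // 2 * nb ≤ p ∧ p < 2 * nb + o},
    {y | ‖y.1.1 - strand nb w p y.1.2‖ < 1 / 16}
  have hT : IsOpen T := isOpen_iUnion fun p =>
    isOpen_lt (((continuous_fst.comp continuous_subtype_val).sub
      ((continuous_strand nb w p).comp (continuous_snd.comp continuous_subtype_val))).norm)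
      continuous_const
  obtain ⟨Φ, -, hΦ, -⟩ := glue (nice_XX nb o w)
    (((nice_normed (ℂ × ℝ)).of_isOpenEmbedding hK).of_isOpenEmbedding
      hT.isOpenEmbedding_subtypeVal) i ⟨Subtype.val, continuous_subtype_val⟩ hi'
    hT.isOpenEmbedding_subtypeVal (by
      intro z
      by_cases hz : z.1 ∈ link nb o w
      · obtain ⟨p, hp, ha, e⟩ := hz
        by_cases c : 2 * nb ≤ p
        · refine Or.inr ⟨⟨z, mem_iUnion.2 ⟨⟨p, c, hp⟩, ?_⟩⟩, rfl⟩
          change ‖z.1.1 - strand nb w p z.1.2‖ < 1 / 16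
          rw [e, sub_self, norm_zero]
          norm_num
        · have ha' := ha.resolve_left c
          exact absurd ⟨p, not_le.1 c, ha'.1, ha'.2, e⟩ z.2
      · exact Or.inl ⟨⟨z.1, hz⟩, Subtype.ext (hi _)⟩) φ (triv _ G) r (by
      intro x1 y1 p1 x2 y2 p2 hp
      refine hr x1 y1 p1 fun t => ?_
      obtain ⟨p, hq⟩ := mem_iUnion.1 (p2 t).2
      refine mem_iUnion.2 ⟨p, ?_⟩
      have e : (p1 t).1 = (p2 t).1.1 := (hi _).symm.trans (congrArg Subtype.val (hp t))
      change ‖(p1 t).1.1 - strand nb w p (p1 t).1.2‖ < 1 / 16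
      rw [e]
      exact hq)
  exact ⟨Φ, hΦ⟩

/-- the points in front of the diagram -/
def D5W (w : Word) : Set (ℂ × ℝ) :=
  {y | 0 < y.1.im ∧ (y.2 ≤ -1 ∨ (w.length : ℝ) + 1 ≤ y.2 ∨ 1 ≤ y.1.im)}

theorem D5W_sub (nb o : ℕ) (w : Word) : D5W w ⊆ geoB_U nb o w 1 := by
  rintro y ⟨h0, h | h | h⟩
  · intro p _ _ _
    rw [W4_im_zero p (Or.inl (by linarith))]
    linarith
  · intro p _ _ _
    rw [W4_im_zero p (Or.inr (by linarith))]
    linarith
  · exact geoB_half nb o w (Or.inl rfl) (by linarith)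

theorem D5W_joined (w : Word) {x y : ℂ × ℝ} (hx : 0 < x.1.im) (hx' : x.2 ≤ -1) (hy : 0 < y.1.im)
    (hy' : (w.length : ℝ) + 1 ≤ y.2) : JoinedIn (D5W w) x y := by
  have l1 : IsLinearMap ℝ fun y : ℂ × ℝ => y.1.im := ⟨fun _ _ => by simp, fun _ _ => by simp⟩
  have l2 : IsLinearMap ℝ fun y : ℂ × ℝ => y.2 := ⟨fun _ _ => by simp, fun _ _ => by simp⟩
  have j : ∀ {S : Set (ℂ × ℝ)}, Convex ℝ S → S ⊆ D5W w → ∀ a ∈ S, ∀ b ∈ S,
      JoinedIn (D5W w) a b := fun hS hs a ha b hb =>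
    ((hS.isPathConnected ⟨a, ha⟩).joinedIn a ha b hb).mono hs
  have i1 : (1 : ℝ) ≤ Complex.I.im := by simp
  have i0 : (0 : ℝ) < Complex.I.im := by simp
  refine (j ((convex_halfSpace_gt l1 0).inter (convex_halfSpace_le l2 (-1)))
    (fun z hz => ⟨hz.1, Or.inl hz.2⟩) x ⟨hx, hx'⟩ (Complex.I, -1) ⟨i0, le_refl (-1 : ℝ)⟩).trans
    ((j (convex_halfSpace_ge l1 1) (fun z hz => ⟨lt_of_lt_of_le one_pos hz, Or.inr (Or.inr hz)⟩)
      (Complex.I, -1) i1 (Complex.I, w.length + 1) i1).trans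
    (j ((convex_halfSpace_gt l1 0).inter (convex_halfSpace_ge l2 (w.length + 1)))
      (fun z hz => ⟨hz.1, Or.inr (Or.inl hz.2)⟩) _ ⟨i0, le_refl ((w.length : ℝ) + 1)⟩ y
      ⟨hy, hy'⟩))

/-- the strand and its push-off in the complement of the plat -/
theorem D5_strip (ok : Ok nb o w) {p : ℕ} (h1 : 2 * nb ≤ p) :
    ∃ (H : C(ℝ × ℝ, ↥(knot nb w)ᶜ)) (m : ℝ → ℝ), m 0 = 0 ∧ m 1 = 1 / 8 ∧ (∀ u, 0 ≤ m u) ∧
      ∀ x, (H x).1 = (strand nb w p x.1 + m x.2 * Complex.I, x.1) := by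
  let m : ℝ → ℝ := fun u => max 0 (min u 1) / 8
  have m0 : ∀ u, 0 ≤ m u := fun u => div_nonneg (le_max_left _ _) (by norm_num)
  have m1 : ∀ u, m u ≤ 1 / 8 := fun u =>
    div_le_div_of_nonneg_right (max_le zero_le_one (min_le_right _ _)) (by norm_num)
  have hm : Continuous m := by fun_prop
  have key : ∀ x : ℝ × ℝ, (strand nb w p x.1 + m x.2 * Complex.I, x.1) ∈ (knot nb w)ᶜ := by
    rintro x ⟨q, hq, -, -, e⟩
    change strand nb w p x.1 + m x.2 * Complex.I = strand nb w q x.1 at e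
    have h2 := strand_sep ok (show p ≠ q by omega) (t := x.1) (Or.inl h1)
    have h3 : strand nb w p x.1 - strand nb w q x.1 = -(m x.2 * Complex.I) := by rw [← e]; ring
    rw [h3, norm_neg, norm_mul, Complex.norm_I, Complex.norm_real, Real.norm_eq_abs,
      abs_of_nonneg (m0 _)] at h2
    linarith [m1 x.2]
  refine ⟨⟨fun x => ⟨_, key x⟩, ((((continuous_strand nb w p).comp continuous_fst).add
    ((Complex.continuous_ofReal.comp (hm.comp continuous_snd)).mul continuous_const)).prodMk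
      continuous_fst).subtype_mk _⟩, m, by simp [m], by simp [m], m0, fun _ => rfl⟩

theorem essential_of (ok : Ok nb o w) {P : ℕ → G} (hP : Capd nb w P) (hF : Flat nb o P) {p : ℕ}
    (h1 : 2 * nb ≤ p) (h2 : p < 2 * nb + o) (h : trP w P p w.length ≠ 1) : Essential nb w p := by
  obtain ⟨x0, -⟩ := exists_mem_up nb o w
  obtain ⟨φ, τp, τm, hR, -⟩ := exists_hasReg ok hP x0
  have hsub : (link nb o w)ᶜ ⊆ (knot nb w)ᶜ :=
    compl_subset_compl.2 (by rw [link_eq]; exact subset_union_left)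
  let i : C(XX nb o w, ↥(knot nb w)ᶜ) := ⟨inclusion hsub, continuous_inclusion hsub⟩
  obtain ⟨Φ, hΦ⟩ := ext_flat ok hR hF i fun _ => rfl
  obtain ⟨f, hf⟩ := exists_push ok h2 (δ := 1 / 8) (by norm_num) le_rfl
  obtain ⟨H, m, m0, m1, mp, hH⟩ := D5_strip ok h1
  have hl : (0 : ℝ) ≤ w.length := Nat.cast_nonneg _
  have hHf : ∀ t, H (t, 1) = i (f t) := fun t => Subtype.ext (by
    rw [hH]
    change _ = (f t).1
    rw [hf, m1])
  let q : Path (-1 : ℝ) (w.length + 1) :=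
    ⟨⟨fun t => t * (w.length + 2) - 1, by fun_prop⟩, by simp, by simp; ring⟩
  let q0 : Path ((-1 : ℝ), (0 : ℝ)) (w.length + 1, 0) :=
    ⟨⟨fun t => (q t, 0), q.continuous.prodMk continuous_const⟩, by simp, by simp⟩
  have ia : (strand nb w p (-1)).im = 0 := W4_im_zero p (Or.inl (by norm_num))
  have ib : (strand nb w p (w.length + 1)).im = 0 := W4_im_zero p (Or.inr (by linarith))
  obtain ⟨p0, hp0⟩ := D5W_joined w (x := (f (-1)).1) (y := (f (w.length + 1)).1)
    (by rw [hf]; simp [ia]) (by rw [hf]) (by rw [hf]; simp [ib]) (by rw [hf])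
  let κ : Path (f (-1)) (f (w.length + 1)) :=
    ⟨⟨fun t => ⟨p0 t, geoB_U_subset nb o w 1 (D5W_sub nb o w (hp0 t))⟩,
      p0.continuous.subtype_mk _⟩, Subtype.ext p0.source, Subtype.ext p0.target⟩
  let κ' : Path (H (-1, 1)) (H (w.length + 1, 1)) := (κ.map i.continuous).cast (hHf _) (hHf _)
  let va := (R1_vert 1 ((-1 : ℝ), (0 : ℝ))).map H.continuous
  let vb := (R1_vert 1 ((w.length + 1 : ℝ), (0 : ℝ))).map H.continuous
  refine ⟨_, _, q0.map H.continuous, va.trans (κ'.trans vb.symm), fun t => ?_, fun t => ?_,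
    fun hh => h ?_⟩
  · change (H (q t, 0)).1 = _
    rw [hH, m0]
    simp only [Complex.ofReal_zero, zero_mul, add_zero]
    rfl
  · have hr : range (va.trans (κ'.trans vb.symm)) ⊆ {z | 0 ≤ z.1.1.im ∧
        (z.1.2 ≤ -1 ∨ w.length + 1 ≤ z.1.2 ∨ 1 ≤ z.1.1.im)} := by
      rw [Path.trans_range, Path.trans_range, Path.symm_range]
      rintro _ (⟨u, rfl⟩ | ⟨u, rfl⟩ | ⟨u, rfl⟩)
      · change 0 ≤ (H (-1, _)).1.1.im ∧ ((H (-1, _)).1.2 ≤ -1 ∨ _)
        rw [hH]
        exact ⟨by simp [ia, mp], Or.inl le_rfl⟩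
      · exact ⟨(hp0 u).1.le, (hp0 u).2⟩
      · change 0 ≤ (H (w.length + 1, _)).1.1.im ∧ (_ ∨ _ ≤ (H (w.length + 1, _)).1.2 ∨ _)
        rw [hH]
        exact ⟨by simp [ib, mp], Or.inr (Or.inl le_rfl)⟩
    exact hr (mem_range_self t)
  · have e1 : Φ.v (q0.map H.continuous) = (Φ.v vb)⁻¹ * (Φ.comap H).v (R1_flat 1 q0) * Φ.v va :=
      R1_square (Φ.comap H) 1 q0
    have e2 : (Φ.comap H).v (R1_flat 1 q0) = (φ.comap f).v q :=
      (Φ.congr (q := (q.map f.continuous).map i.continuous) fun t => hHf (q t)).trans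
        (hΦ _ _ (q.map f.continuous))
    have e3 : Φ.v κ' = (τp (f (w.length + 1)))⁻¹ * τp (f (-1)) :=
      ((Φ.congr (p := κ') (q := κ.map i.continuous) fun _ => rfl).trans (hΦ _ _ κ)).trans
        (hR.up _ _ κ fun t => D5W_sub nb o w (hp0 t))
    have e4 := Φ.hom hh
    rw [e1, e2, arc ok hR h2 (δ := 1 / 8) (by norm_num) le_rfl f hf (by norm_num) (by linarith) q,
      Φ.trans, Φ.trans, Φ.symm, e3] at e4
    have e5 := mul_right_cancel (mul_left_cancel (mul_right_cancel e4))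
    exact inv_eq_one.1 (mul_eq_left.1 e5)

end Vale.Agent.N258B
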