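import Vale.Agent.N258B.Defs2
import Mathlib.Topology.Homotopy.Equiv

/-!
# Abbreviations for the statement
-/

namespace Vale.Agent.N258B

open Vale.Agent.P258.Braid

/-- `w` is a word on `m` strands whose braid is in the coset of the braid of `w0` modulo `S`. -/
def InCoset {m : ℕ} (S : Subgroup (BraidGroup m)) (w0 w : Word) : Prop :=
  (∀ x ∈ w, x.1 + 1 < m) ∧ (toBraid m w0)⁻¹ * toBraid m w ∈ S

/-- The number of homomorphisms of the fundamental group to `G`. -/
noncomputable def homs (G : Type) [Group G] {X : Type} [TopologicalSpace X] (x : X) : ℕ :=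
  Nat.card (FundamentalGroup X x →* G)

/-- The fundamental groups are not isomorphic, and the spaces are not homotopy equivalent. -/
def Distinct (X Y : Type) [TopologicalSpace X] [TopologicalSpace Y] : Prop :=
  (∀ (x : X) (y : Y), IsEmpty (FundamentalGroup X x ≃* FundamentalGroup Y y)) ∧
    IsEmpty (ContinuousMap.HomotopyEquiv X Y)

end Vale.Agent.N258B
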