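import Vale.Agent.N258B.Defs3

/-!
# Meridian and longitude in the group of a framed knot; the conditions of the parity obstruction
-/

namespace Vale.Agent.N258B

open Topology Vale.Agent.P258.Braid

/-- `m` and `l` are the classes of the meridian `t ↦ ν (1, exp (2 π i t))` and of the longitude
`t ↦ ν (exp (2 π i t), 1)` in the fundamental group of the complement of the core of `ν`. -/
def Periph {Z : Type} [TopologicalSpace Z] (ν : Circle × ℂ → Z) {x : ↥(core ν)ᶜ}
    (m l : FundamentalGroup (↥(core ν)ᶜ) x) : Prop :=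
  ∃ mu lam : Path x x, (∀ t, (mu t).1 = ν (1, ex t)) ∧ (∀ t, (lam t).1 = ν (ex t, 1)) ∧
    m = FundamentalGroup.fromPath (Path.Homotopic.Quotient.mk mu) ∧
    l = FundamentalGroup.fromPath (Path.Homotopic.Quotient.mk lam)

/-- The homomorphisms `ρ` to `Q` with `ρ m ∉ N`, `ρ l = ρ m ^ 2` such that `ρ m` lifts to an element
whose fourth power is `z`. -/
def Reps {Γ G Q : Type} [Group Γ] [Group G] [Group Q] (m l : Γ) (pr : G →* Q) (z : G)
    (N : Subgroup Q) : Set (Γ →* Q) :=
  {ρ | ρ m ∉ N ∧ ρ l = ρ m ^ 2 ∧ ∃ g, pr g = ρ m ∧ g ^ 4 = z}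

/-- `pr : G → Q` is onto with kernel `{1, z}` of order two, `N` is a normal subgroup of `Q`, and `A`
is a group of automorphisms of `Q` that preserve `N` and lift to `G`. -/
def Cover {G Q : Type} [Group G] [Group Q] (pr : G →* Q) (z : G) (N : Subgroup Q)
    (A : Subgroup (MulAut Q)) : Prop :=
  Function.Surjective pr ∧ z ≠ 1 ∧ (∀ g, pr g = 1 ↔ g = 1 ∨ g = z) ∧ N.Normal ∧
    (∀ a ∈ A, ∀ y ∈ N, a y ∈ N) ∧ ∀ a ∈ A, ∃ φ : G →* G, φ z = z ∧ ∀ g, pr (φ g) = a (pr g)

/-- The parity condition for the double cover `pr`: all `ρ` with `ρ m ∉ N`, `ρ l = ρ m ^ (±2)`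
have `ρ m ^ 4 = 1`; the group `A` acts freely on `Reps`, and the number of elements of `Reps` is
not divisible by `2 |A|` (an odd number of orbits). -/
def OddCover {Γ G Q : Type} [Group Γ] [Group G] [Group Q] (m l : Γ) (pr : G →* Q) (z : G)
    (N : Subgroup Q) (A : Subgroup (MulAut Q)) : Prop :=
  (∀ ρ : Γ →* Q, ρ m ∉ N → (ρ l = ρ m ^ 2 ∨ ρ l = (ρ m ^ 2)⁻¹) → ρ m ^ 4 = 1) ∧
    (∀ ρ ∈ Reps m l pr z N, ∀ a ∈ A, (∀ x, a (ρ x) = ρ x) → a = 1) ∧
    ¬ 2 * Nat.card A ∣ Nat.card (Reps m l pr z N)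

/-- For every number `o` of extra strands there is a normal subgroup `S` of finite index of the
braid group such that, for all words `w'` in the coset of `w` and all open embeddings `e` of the
complement of the extra strands in the three-sphere, the image of the plat has a tubular
neighbourhood with the preferred framing, and its surgeries of slopes `2` and `-2` are distinct. -/
def Stable (b : ℕ) (w : Word) : Prop :=
  ∀ o : ℕ, ∃ S : Subgroup (BraidGroup (2 * b + o)), S.Normal ∧ S.FiniteIndex ∧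
    ∀ w' : Word, InCoset S w w' → ∀ e, (IsOpenEmbedding e → ∃ ν, Framed b o w' e ν) ∧
      ∀ ν, Framed b o w' e ν → Distinct (Surgery ν 2) (Surgery ν (-2))

end Vale.Agent.N258B
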