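import Vale.Agent.N258B.T

/-! Block F: filling in a solid torus. -/

namespace Vale.Agent.N258B

open Set Filter Topology
open Vale.Agent.P258.Braid (Word)
open Vale.Agent.P002Z

variable {G : Type} [Group G] {A Z : Type} [TopologicalSpace A] [TopologicalSpace Z]

/-- `Z` is the union of `A` and a solid torus -/
structure Fill (h : C(A, Z)) (ν : Circle × ℂ → Z) : Prop where
  nice : Nice A
  hh : IsOpenEmbedding h
  hν : IsOpenEmbedding ν
  rng : range h = (core ν)ᶜ

variable {h : C(A, Z)} {ν : Circle × ℂ → Z}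

/-- the inclusion of the punctured solid torus -/
def F_val : C(TJ (Ioi 0), Circle × ℂ) := ⟨Subtype.val, continuous_subtype_val⟩

/-- the retraction to the longitude -/
def F_ret : C(Circle × ℂ, TJ (Ioi 0)) :=
  ⟨fun x => ⟨(x.1, 1), by simp⟩, by fun_prop⟩

/-- the base point -/
noncomputable def F_b : TJ (Ioi 0) := ⟨(1, 1), by simp⟩

theorem F_conn : PathConnectedSpace (TJ (Ioi 0)) :=
  pathConnected_TJ subset_rfl ordConnected_Ioi nonempty_Ioi

theorem Fill.F_ne (F : Fill h ν) {x : A} {y : Circle × ℂ} (e : h x = ν y) : ‖y.2‖ ∈ Ioi (0 : ℝ) := by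
  have h1 : h x ∈ (core ν)ᶜ := F.rng ▸ mem_range_self x
  refine norm_pos_iff.2 fun h0 => h1 ⟨y.1, ?_⟩
  rw [e, ← h0]

theorem Fill.F_cov (F : Fill h ν) (z : Z) : z ∈ range h ∨ z ∈ range ν := by
  by_cases hz : z ∈ core ν
  · obtain ⟨u, rfl⟩ := hz
    exact Or.inr ⟨_, rfl⟩
  · exact Or.inl (F.rng ▸ hz)

theorem Fill.F_tube (F : Fill h ν) : ∃ j : C(TJ (Ioi 0), A), ∀ x, h (j x) = ν x.1 := by
  have h1 : ∀ x : TJ (Ioi 0), ν x.1 ∈ range h := by
    intro x
    rw [F.rng]
    rintro ⟨u, hu⟩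
    have h2 := x.2
    rw [← F.hν.injective hu] at h2
    simp at h2
  choose j hj using h1
  exact ⟨⟨j, F.hh.isInducing.continuous_iff.2
    ((F.hν.continuous.comp continuous_subtype_val).congr fun x => (hj x).symm)⟩, hj⟩

theorem Fill.F_inj (F : Fill h ν) {j : C(TJ (Ioi 0), A)} (hj : ∀ x, h (j x) = ν x.1) :
    Function.Injective j := fun x y e =>
  Subtype.ext (F.hν.injective (by rw [← hj, ← hj, e]))

theorem Fill.ext (F : Fill h ν) {a : A} (mer : Path a a) (hmer : ∀ t, h (mer t) = ν (1, ex t))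
    (α : PF A G) (hα : α.v mer = 1) :
    ∃ γ : PF Z G, ∀ x y (p : Path x y), (γ.comap h).v p = α.v p := by
  obtain ⟨j, hj⟩ := F.F_tube
  have := F_conn
  obtain ⟨arg, harg⟩ := exists_argC (Ioi 0) subset_rfl
  obtain ⟨b, m, l, hm, hl⟩ := exists_torus_loops (J := Ioi 0) one_pos (mem_Ioi.2 one_pos)
  have hb : b = F_b := Subtype.ext (by
    have := hl 0
    rw [l.source] at this
    rw [this]
    simp [F_b, ex_zero])
  subst hb
  obtain ⟨-, hp⟩ := torus_pow subset_rfl ordConnected_Ioi arg harg (α.comap j) one_pos m l hm hl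
  obtain ⟨g, hg⟩ := hp F_b
  have hm1 : (α.comap j).v m = 1 := by
    rw [← hα]
    refine α.congr fun t => F.hh.injective ?_
    change h (j (m t)) = _
    rw [hj, hm, hmer]
    simp
  have key : (((α.comap j).comap F_ret).comap F_val).toHom F_b = (α.comap j).toHom F_b := by
    refine MonoidHom.ext fun c => ?_
    obtain ⟨p, rfl⟩ := Path.Homotopic.Quotient.mk_surjective c
    rw [PF.toHom_mk, PF.toHom_mk, hg p]
    let p' : Path F_b F_b := (p.map F_val.continuous).map F_ret.continuous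
    have h1 := hg p'
    have h2 : (dg.comap (fstC (Ioi 0))).v p' = (dg.comap (fstC (Ioi 0))).v p :=
      dg.congr fun _ => rfl
    rw [hm1, one_zpow, h2] at h1
    rw [hm1, one_zpow, ← h1]
    rfl
  obtain ⟨s, -, hs⟩ := par_of_toHom key
  obtain ⟨γ, -, hγ, -⟩ := glue F.nice nice_torus h ⟨ν, F.hν.continuous⟩ F.hh F.hν F.F_cov α
    ((α.comap j).comap F_ret) (Function.extend j s fun _ => 1) (by
      intro x1 y1 p1 x2 y2 p2 e
      have hc : Continuous fun t => (⟨p2 t, F.F_ne (e t)⟩ : TJ (Ioi 0)) :=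
        p2.continuous.subtype_mk _
      let q : Path (⟨p2 0, F.F_ne (e 0)⟩ : TJ (Ioi 0)) ⟨p2 1, F.F_ne (e 1)⟩ := ⟨⟨_, hc⟩, rfl, rfl⟩
      have e1 : ∀ t, p1 t = j (q t) := fun t => F.hh.injective (by rw [hj]; exact e t)
      have h1 := hs _ _ q fun _ => mem_univ _
      have h2 : α.v p1 = (α.comap j).v q := α.congr e1
      have h3 : ((α.comap j).comap F_ret).v p2 = (((α.comap j).comap F_ret).comap F_val).v q :=
        ((α.comap j).comap F_ret).congr fun _ => rfl
      have hE : ∀ x t, x = p1 t → Function.extend j s (fun _ => 1) x = s (q t) := fun x t hx =>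
        (congrArg _ (hx.trans (e1 t))).trans ((F.F_inj hj).extend_apply _ _ _)
      rw [h2, h3, h1, hE x1 0 p1.source.symm, hE y1 1 p1.target.symm]
      rfl)
  exact ⟨γ, hγ⟩

theorem Fill.mer (F : Fill h ν) {a : A} (mer : Path a a) (hmer : ∀ t, h (mer t) = ν (1, ex t))
    (γ : PF Z G) : (γ.comap h).v mer = 1 := by
  let f : C(ℂ, Z) := ⟨fun z => ν (1, z), F.hν.continuous.comp (by fun_prop)⟩
  obtain ⟨τ, hτ⟩ := exists_pot_univ (γ.comap f)
  let c : C(Circle, ℂ) := ⟨Subtype.val, continuous_subtype_val⟩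
  have h1 := hτ _ _ (exLoop.map c.continuous) fun _ => mem_univ _
  rw [inv_mul_cancel] at h1
  rw [← h1]
  exact γ.congr hmer

theorem Fill.par (F : Fill h ν) (γ γ' : PF Z G) (r : A → G)
    (hr : Par (γ.comap h) (γ'.comap h) univ r) :
    ∃ r' : Z → G, Par γ γ' univ r' ∧ ∀ a, r' (h a) = r a := by
  obtain ⟨j, hj⟩ := F.F_tube
  have := F_conn
  let n : C(Circle × ℂ, Z) := ⟨ν, F.hν.continuous⟩
  have h1 : Par ((γ.comap n).comap F_val) ((γ'.comap n).comap F_val) univ fun x => r (j x) := by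
    intro x y p _
    have h2 := hr _ _ (p.map j.continuous) fun _ => mem_univ _
    have h3 : ∀ δ : PF Z G, (δ.comap h).v (p.map j.continuous) = ((δ.comap n).comap F_val).v p :=
      fun δ => δ.congr fun t => hj (p t)
    rwa [h3, h3] at h2
  have key : (gauge (γ.comap n) fun _ => r (j F_b)).toHom (1, 1) = (γ'.comap n).toHom (1, 1) := by
    refine MonoidHom.ext fun c => ?_
    obtain ⟨p, rfl⟩ := Path.Homotopic.Quotient.mk_surjective c
    rw [PF.toHom_mk, PF.toHom_mk]
    let p' : Path F_b F_b := p.map F_ret.continuous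
    have h2 : p.Homotopic ((p.map continuous_fst).prod (Path.refl (1 : ℂ))) := by
      obtain ⟨H⟩ := SimplyConnectedSpace.paths_homotopic (p.map continuous_snd) (Path.refl (1 : ℂ))
      exact ⟨Path.Homotopic.prodHomotopy (Path.Homotopy.refl (p.map continuous_fst)) H⟩
    have h3 : ∀ δ : PF (Circle × ℂ) G, δ.v p = (δ.comap F_val).v p' := fun δ =>
      (δ.hom h2).trans (δ.congr fun _ => rfl)
    change (r (j F_b))⁻¹ * (γ.comap n).v p * r (j F_b) = _
    rw [h3, h3, h1 _ _ p' fun _ => mem_univ _]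
  obtain ⟨s, hs1, hs⟩ := par_of_toHom key
  have h2 := (par_gauge (γ.comap n) (fun _ => r (j F_b)) univ).trans hs
  obtain ⟨r', hr', h3, -⟩ := par_glue h n F.hh F.hν F.F_cov γ γ' r _ hr h2 (by
    intro x1 x2 e
    have h4 : x1 = j ⟨x2, F.F_ne e⟩ := F.hh.injective (by rw [hj]; exact e)
    rw [h4]
    refine h1.unique (h2.comap F_val) (x := F_b) (y := ⟨x2, F.F_ne e⟩)
      (joinedIn_univ.2 (PathConnectedSpace.joined _ _)) ?_
    change _ = _ * s (1, 1)
    rw [hs1, mul_one])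
  exact ⟨r', hr', h3⟩

theorem Fill.pathConnected (F : Fill h ν) [PathConnectedSpace A] : PathConnectedSpace Z := by
  obtain ⟨j, hj⟩ := F.F_tube
  rw [pathConnectedSpace_iff_univ, ← eq_univ_of_forall (s := range h ∪ range ν) F.F_cov]
  exact (isPathConnected_range h.continuous).union (isPathConnected_range F.hν.continuous)
    ⟨_, ⟨j F_b, rfl⟩, _, (hj F_b).symm⟩

theorem Fill.pathConnected' (F : Fill h ν) [PreconnectedSpace Z] : PathConnectedSpace A := by
  obtain ⟨j, hj⟩ := F.F_tube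
  have := F_conn
  have := F.nice.locPath
  have hC := IsClopen.pathComponent (j F_b)
  have hU : IsOpen (h '' pathComponent (j F_b) ∪ range ν) :=
    (F.hh.isOpenMap _ hC.isOpen).union F.hν.isOpen_range
  have hV : IsOpen (h '' (pathComponent (j F_b))ᶜ) := F.hh.isOpenMap _ hC.compl.isOpen
  have key : ∀ x, Joined (j F_b) x := by
    intro x
    by_contra hx
    obtain ⟨z, -, hz, y, hy, rfl⟩ := isPreconnected_univ (α := Z) _ _ hU hV (fun z _ => by
      rcases F.F_cov z with ⟨y, rfl⟩ | hz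
      · by_cases hy : y ∈ pathComponent (j F_b)
        · exact Or.inl (Or.inl ⟨y, hy, rfl⟩)
        · exact Or.inr ⟨y, hy, rfl⟩
      · exact Or.inl (Or.inr hz)) ⟨_, mem_univ _, Or.inr ⟨(1, 1), rfl⟩⟩
      ⟨_, mem_univ _, x, hx, rfl⟩
    rcases hz with ⟨y', hy', e⟩ | ⟨u, e⟩
    · exact hy (F.hh.injective e ▸ hy')
    · have h4 : y = j ⟨u, F.F_ne e.symm⟩ := F.hh.injective (by rw [hj]; exact e.symm)
      obtain ⟨p⟩ := PathConnectedSpace.joined F_b ⟨u, F.F_ne e.symm⟩
      exact hy (h4 ▸ ⟨p.map j.continuous⟩)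
  exact ⟨⟨j F_b⟩, fun x y => (key x).symm.trans (key y)⟩

theorem Fill.card (F : Fill h ν) [PathConnectedSpace A] {a : A} (mer : Path a a)
    (hmer : ∀ t, h (mer t) = ν (1, ex t)) (a0 : A) (σ : Path a0 a) (G : Type) [Group G] :
    Nat.card (FundamentalGroup Z (h a0) →* G) =
      Nat.card {f : FundamentalGroup A a0 →* G // f (conjLoop σ mer) = 1} := by
  have := F.pathConnected
  choose Γ hΓ using fun f : FundamentalGroup Z (h a0) →* G => exists_pf (h a0) f
  refine Nat.card_eq_of_bijective (fun f => ⟨((Γ f).comap h).toHom a0, by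
    rw [PF.toHom_conjLoop, F.mer mer hmer, mul_one, inv_mul_cancel]⟩) ⟨fun f f' e => ?_, ?_⟩
  · obtain ⟨s, hs1, hs⟩ := par_of_toHom (congrArg Subtype.val e)
    obtain ⟨r, hr, hr1⟩ := F.par _ _ s hs
    rw [← hΓ f, ← hΓ f']
    exact toHom_eq_of_par hr (by rw [hr1, hs1])
  · rintro ⟨f, hf⟩
    obtain ⟨α, rfl⟩ := exists_pf a0 f
    rw [PF.toHom_conjLoop, mul_assoc, inv_mul_eq_one, eq_comm, mul_eq_right] at hf
    obtain ⟨γ, hγ⟩ := F.ext mer hmer α hf
    refine ⟨γ.toHom (h a0), Subtype.ext (MonoidHom.ext fun c => ?_)⟩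
    obtain ⟨p, rfl⟩ := Path.Homotopic.Quotient.mk_surjective c
    change (Γ (γ.toHom (h a0))).v (p.map h.continuous) = α.v p
    rw [← hγ, ← PF.toHom_mk, hΓ]
    rfl

end Vale.Agent.N258B
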