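import Vale.Agent.N258B.Geo
import Vale.Agent.N258B.C
import Mathlib.Analysis.Normed.Module.Ball.Homeomorph

/-! Block N1: an explicit tubular neighbourhood of the plat. -/

namespace Vale.Agent.N258B

open Set Filter Topology
open Vale.Agent.P258.Braid (Word)
open Vale.Agent.P002Z

variable {nb o : ℕ} {w : Word}

/-! ### Descent to the circle, concatenation -/

theorem N1_ex_eq {t t' : ℝ} (ht : t ∈ Icc (0 : ℝ) 1) (ht' : t' ∈ Ico (0 : ℝ) 1)
    (h : ex t = ex t') : t = t' ∨ (t = 1 ∧ t' = 0) := by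
  obtain ⟨m, hm⟩ := Circle.exp_eq_exp.1 h
  have hpi : (0 : ℝ) < 2 * Real.pi := by positivity
  have e : t = t' + m := by
    refine mul_left_cancel₀ hpi.ne' ?_
    rw [hm]; ring
  have h1 : (-1 : ℝ) < m := by linarith [ht.1, ht'.2]
  have h2 : (m : ℝ) ≤ 1 := by linarith [ht.2, ht'.1]
  have h1' : -1 < m := by exact_mod_cast h1
  have h2' : m ≤ 1 := by exact_mod_cast h2
  have : m = 0 ∨ m = 1 := by omega
  rcases this with rfl | rfl
  · left; simpa using e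
  · right
    simp only [Int.cast_one] at e
    constructor <;> linarith [ht.2, ht'.1]

theorem N1_ex_surj (u : Circle) : ∃ t ∈ Ico (0 : ℝ) 1, ex t = u := by
  obtain ⟨s, rfl⟩ := Circle.exp_surjective u
  have hpi : (0 : ℝ) < 2 * Real.pi := by positivity
  refine ⟨Int.fract (s / (2 * Real.pi)), ⟨Int.fract_nonneg _, Int.fract_lt_one _⟩, ?_⟩
  refine Circle.exp_eq_exp.2 ⟨-⌊s / (2 * Real.pi)⌋, ?_⟩
  rw [Int.fract]
  push_cast
  field_simp
  ring

theorem N1_descend {Y Z : Type} [TopologicalSpace Y] [TopologicalSpace Z] (K : ℝ × Z → Y)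
    (hK : ContinuousOn K (Icc 0 1 ×ˢ univ)) (h01 : ∀ z, K (1, z) = K (0, z)) :
    ∃ Θ : Circle × Z → Y, Continuous Θ ∧ ∀ t ∈ Icc (0 : ℝ) 1, ∀ z, Θ (ex t, z) = K (t, z) := by
  choose φ hφ hφ' using N1_ex_surj
  have key : ∀ t ∈ Icc (0 : ℝ) 1, ∀ z, K (φ (ex t), z) = K (t, z) := by
    intro t ht z
    rcases N1_ex_eq ht (hφ (ex t)) (hφ' _).symm with h | ⟨h, h'⟩
    · rw [← h]
    · rw [h', h, h01]
  refine ⟨fun x => K (φ x.1, x.2), ?_, key⟩
  have hc : Continuous fun t : Icc (0 : ℝ) 1 => ex t := by unfold ex; fun_prop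
  have hp : IsProperMap (Prod.map (fun t : Icc (0 : ℝ) 1 => ex t) (id : Z → Z)) :=
    hc.isProperMap.prodMap isProperMap_id
  have hs : Function.Surjective (Prod.map (fun t : Icc (0 : ℝ) 1 => ex t) (id : Z → Z)) := by
    rintro ⟨u, z⟩
    exact ⟨(⟨φ u, Ico_subset_Icc_self (hφ u)⟩, z), Prod.ext (hφ' u) rfl⟩
  rw [(hp.isClosedMap.isQuotientMap hp.continuous hs).continuous_iff]
  have : ((fun x : Circle × Z => K (φ x.1, x.2)) ∘
      Prod.map (fun t : Icc (0 : ℝ) 1 => ex t) (id : Z → Z)) =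
      fun x : Icc (0 : ℝ) 1 × Z => K (x.1, x.2) := funext fun x => key _ x.1.2 _
  rw [this]
  exact hK.comp_continuous (by fun_prop) fun x => ⟨x.1.2, mem_univ _⟩

theorem N1_concat {Y Z : Type} [TopologicalSpace Y] [TopologicalSpace Z] (B : ℕ → ℝ × Z → Y)
    (hB : ∀ i, Continuous (B i)) (h : ∀ i z, B i (1, z) = B (i + 1) (0, z)) (m : ℕ) :
    ContinuousOn (fun x : ℝ × Z => B ⌊x.1⌋₊ (x.1 - ⌊x.1⌋₊, x.2)) (Icc 0 (m : ℝ) ×ˢ univ) := by
  have step : ∀ j : ℕ, ContinuousOn (fun x : ℝ × Z => B ⌊x.1⌋₊ (x.1 - ⌊x.1⌋₊, x.2))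
      (Icc (j : ℝ) (j + 1) ×ˢ univ) := by
    intro j
    have hc : Continuous fun x : ℝ × Z => B j (x.1 - j, x.2) := (hB j).comp (by fun_prop)
    refine hc.continuousOn.congr ?_
    rintro ⟨r, z⟩ ⟨⟨h1, h2⟩, -⟩
    rcases h2.lt_or_eq with h2 | h2
    · have : ⌊r⌋₊ = j := (Nat.floor_eq_iff (le_trans (Nat.cast_nonneg j) h1)).2 ⟨h1, h2⟩
      simp only [this]
    · simp only at h2
      have : ⌊r⌋₊ = j + 1 := by rw [h2]; exact_mod_cast Nat.floor_natCast (R := ℝ) (j + 1)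
      simp only [this]
      rw [h2]
      push_cast
      rw [sub_self, add_sub_cancel_left, h]
  induction m with
  | zero => exact (step 0).mono (prod_mono (Icc_subset_Icc (by simp) (by simp)) Subset.rfl)
  | succ m ih =>
    refine (ih.union_of_isClosed (step m) (isClosed_Icc.prod isClosed_univ)
      (isClosed_Icc.prod isClosed_univ)).mono ?_
    rintro ⟨r, z⟩ ⟨⟨h1, h2⟩, -⟩
    push_cast at h2
    rcases le_total r m with h3 | h3
    · exact Or.inl ⟨⟨h1, h3⟩, mem_univ _⟩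
    · exact Or.inr ⟨⟨h3, h2⟩, mem_univ _⟩

/-! ### The caps -/

/-- the sign of a position -/
def N1e (q : ℕ) : ℝ := (-1) ^ q

theorem N1e_cases (q : ℕ) : (q % 2 = 0 ∧ N1e q = 1) ∨ (q % 2 = 1 ∧ N1e q = -1) := by
  rcases Nat.even_or_odd q with h | h
  · exact Or.inl ⟨Nat.even_iff.1 h, h.neg_one_pow⟩
  · exact Or.inr ⟨Nat.odd_iff.1 h, h.neg_one_pow⟩

theorem N1e_mate (q : ℕ) : N1e (mate q) = -N1e q ∧ (mate q : ℝ) = q + N1e q := by
  unfold mate
  rcases N1e_cases q with ⟨h, e⟩ | ⟨h, e⟩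
  · rw [if_pos h, e]
    rcases N1e_cases (q + 1) with ⟨h', -⟩ | ⟨-, e'⟩
    · omega
    · exact ⟨e', by push_cast; ring⟩
  · rw [if_neg (by omega), e]
    rcases N1e_cases (q - 1) with ⟨-, e'⟩ | ⟨h', -⟩
    · refine ⟨by rw [e']; ring, ?_⟩
      rw [Nat.cast_sub (by omega)]; push_cast; ring
    · omega

theorem N1_cap {q : ℕ} (hq : q < 2 * nb) {s : ℝ} (hs : s ≤ 1) :
    cap nb q s = ((q + N1e q * s / 2 : ℝ) : ℂ) := by
  unfold cap N1e
  rw [if_pos hq, min_eq_left hs]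

/-- the parallel curves in a cap are disjoint -/
theorem N1_capinj {q q' : ℕ} {A A' s s' : ℝ} (hA : |A| < 1 / 8) (hA' : |A'| < 1 / 8)
    (hs : s ∈ Icc (0 : ℝ) 1) (hs' : s' ∈ Icc (0 : ℝ) 1)
    (hx : q + N1e q * s / 2 + A * (1 - s) = q' + N1e q' * s' / 2 + A' * (1 - s'))
    (ht : s - 2 * N1e q * A * s = s' - 2 * N1e q' * A' * s') :
    s = s' ∧ ((q' = q ∧ A' = A) ∨ (s = 1 ∧ q' = mate q ∧ A' = -A)) := by
  obtain ⟨a1, a2⟩ := abs_lt.1 hA
  obtain ⟨a3, a4⟩ := abs_lt.1 hA'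
  obtain ⟨s0, s1⟩ := hs
  obtain ⟨s0', s1'⟩ := hs'
  have b1 : -(1 / 8) < A * (1 - s) := by nlinarith
  have b2 : A * (1 - s) < 1 / 8 := by nlinarith
  have b3 : -(1 / 8) < A' * (1 - s') := by nlinarith
  have b4 : A' * (1 - s') < 1 / 8 := by nlinarith
  unfold mate
  rcases N1e_cases q with ⟨h, e⟩ | ⟨h, e⟩ <;> rcases N1e_cases q' with ⟨h', e'⟩ | ⟨h', e'⟩ <;>
    rw [e, e'] at hx ht
  · have h1 : (q : ℝ) < q' + 1 := by linarith
    have h2 : (q' : ℝ) < q + 1 := by linarith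
    have h1' : q < q' + 1 := by exact_mod_cast h1
    have h2' : q' < q + 1 := by exact_mod_cast h2
    obtain rfl : q' = q := by omega
    obtain rfl : A' = A := by linarith
    refine ⟨?_, Or.inl ⟨rfl, rfl⟩⟩
    have : (1 - 2 * A') * (s - s') = 0 := by linarith
    rcases mul_eq_zero.1 this with h3 | h3 <;> linarith
  · have h1 : (q : ℝ) < q' + 1 := by linarith
    have h2 : (q' : ℝ) < q + 2 := by linarith
    have h1' : q < q' + 1 := by exact_mod_cast h1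
    have h2' : q' < q + 2 := by exact_mod_cast h2
    obtain rfl : q' = q + 1 := by omega
    push_cast at hx
    have c1 : 0 ≤ (1 / 2 - A) * (1 - s) := mul_nonneg (by linarith) (by linarith)
    have c2 : 0 ≤ (1 / 2 + A') * (1 - s') := mul_nonneg (by linarith) (by linarith)
    have d1 : (1 / 2 - A) * (1 - s) = 0 := by linarith
    have d2 : (1 / 2 + A') * (1 - s') = 0 := by linarith
    obtain rfl : s = 1 := by rcases mul_eq_zero.1 d1 with h3 | h3 <;> linarith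
    obtain rfl : s' = 1 := by rcases mul_eq_zero.1 d2 with h3 | h3 <;> linarith
    exact ⟨rfl, Or.inr ⟨rfl, by rw [if_pos h], by linarith⟩⟩
  · have h1 : (q' : ℝ) < q + 1 := by linarith
    have h2 : (q : ℝ) < q' + 2 := by linarith
    have h1' : q' < q + 1 := by exact_mod_cast h1
    have h2' : q < q' + 2 := by exact_mod_cast h2
    obtain rfl : q = q' + 1 := by omega
    push_cast at hx
    have c1 : 0 ≤ (1 / 2 + A) * (1 - s) := mul_nonneg (by linarith) (by linarith)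
    have c2 : 0 ≤ (1 / 2 - A') * (1 - s') := mul_nonneg (by linarith) (by linarith)
    have d1 : (1 / 2 + A) * (1 - s) = 0 := by linarith
    have d2 : (1 / 2 - A') * (1 - s') = 0 := by linarith
    obtain rfl : s = 1 := by rcases mul_eq_zero.1 d1 with h3 | h3 <;> linarith
    obtain rfl : s' = 1 := by rcases mul_eq_zero.1 d2 with h3 | h3 <;> linarith
    exact ⟨rfl, Or.inr ⟨rfl, by rw [if_neg (by omega)]; omega, by linarith⟩⟩
  · have h1 : (q : ℝ) < q' + 1 := by linarith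
    have h2 : (q' : ℝ) < q + 1 := by linarith
    have h1' : q < q' + 1 := by exact_mod_cast h1
    have h2' : q' < q + 1 := by exact_mod_cast h2
    obtain rfl : q' = q := by omega
    obtain rfl : A' = A := by linarith
    refine ⟨?_, Or.inl ⟨rfl, rfl⟩⟩
    have : (1 + 2 * A') * (s - s') = 0 := by linarith
    rcases mul_eq_zero.1 this with h3 | h3 <;> linarith

theorem N1_cap_lt {q : ℕ} (hq : q < 2 * nb) {A s : ℝ} (hA : |A| < 1 / 8)
    (hs : s ∈ Icc (0 : ℝ) 1) : q + N1e q * s / 2 + A * (1 - s) < 2 * nb := by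
  obtain ⟨a1, a2⟩ := abs_lt.1 hA
  obtain ⟨s0, s1⟩ := hs
  have b2 : A * (1 - s) < 1 / 8 := by nlinarith
  have h1 : (q : ℝ) + 1 ≤ 2 * nb := by exact_mod_cast hq
  rcases N1e_cases q with ⟨-, e⟩ | ⟨-, e⟩ <;> rw [e] <;> linarith

/-! ### One leg -/

/-- the thickened strand -/
noncomputable def N1leg (nb : ℕ) (w : Word) (p : ℕ) (A b τ : ℝ) : ℂ × ℝ :=
  (strand nb w p τ + ⟨A * (1 + min τ 0 - max (τ - w.length) 0), b⟩,
    τ - 2 * N1e p * A * min τ 0 - 2 * N1e (pos w w.length p) * A * max (τ - w.length) 0)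

theorem N1leg_cont {X : Type} [TopologicalSpace X] (p : ℕ) {A b τ : X → ℝ} (hA : Continuous A)
    (hb : Continuous b) (hτ : Continuous τ) :
    Continuous fun x => N1leg nb w p (A x) (b x) (τ x) := by
  unfold N1leg
  refine Continuous.prodMk (((continuous_strand nb w p).comp hτ).add ?_) (by fun_prop)
  simp only [Complex.mk_eq_add_mul_I]
  fun_prop

theorem N1leg_bot {p : ℕ} (hp : p < 2 * nb) (A b : ℝ) {s : ℝ} (hs : s ∈ Icc (0 : ℝ) 1) :
    N1leg nb w p A b (-s) =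
      (⟨p + N1e p * s / 2 + A * (1 - s), b⟩, -(s - 2 * N1e p * A * s)) := by
  have hL : (0 : ℝ) ≤ w.length := Nat.cast_nonneg _
  unfold N1leg
  rw [strand_bot nb w p (by linarith [hs.1]), neg_neg, N1_cap hp hs.2,
    min_eq_left (by linarith [hs.1]), max_eq_right (by linarith [hs.1])]
  refine Prod.ext (Complex.ext ?_ ?_) ?_
  · simp only [Complex.add_re, Complex.ofReal_re]; ring
  · simp only [Complex.add_im, Complex.ofReal_im]; ring
  · simp only; ring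

theorem N1leg_top (ok : Ok nb o w) {p : ℕ} (hp : p < 2 * nb) (A b : ℝ) {s : ℝ}
    (hs : s ∈ Icc (0 : ℝ) 1) :
    N1leg nb w p A b (w.length + s) =
      (⟨(pos w w.length p : ℕ) + N1e (pos w w.length p) * s / 2 + A * (1 - s), b⟩,
        w.length + (s - 2 * N1e (pos w w.length p) * A * s)) := by
  have hL : (0 : ℝ) ≤ w.length := Nat.cast_nonneg _
  unfold N1leg
  rw [strand_top p (by linarith [hs.1]), add_sub_cancel_left, N1_cap ((ok.top_lt p).2 hp) hs.2,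
    min_eq_right (by linarith [hs.1]), max_eq_left hs.1]
  refine Prod.ext (Complex.ext ?_ ?_) ?_
  · simp only [Complex.add_re, Complex.ofReal_re]; ring
  · simp only [Complex.add_im, Complex.ofReal_im]; ring
  · simp only; ring

theorem N1leg_mid (p : ℕ) (A b : ℝ) {τ : ℝ} (h0 : 0 ≤ τ) (h1 : τ ≤ w.length) :
    N1leg nb w p A b τ = (strand nb w p τ + ⟨A, b⟩, τ) := by
  unfold N1leg
  rw [min_eq_right h0, max_eq_right (by linarith)]
  simp

theorem N1_pos {q : ℕ} {A s : ℝ} (hA : |A| < 1 / 8) (hs : 0 < s) :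
    0 < s - 2 * N1e q * A * s := by
  obtain ⟨a1, a2⟩ := abs_lt.1 hA
  rcases N1e_cases q with ⟨-, e⟩ | ⟨-, e⟩ <;> rw [e] <;> nlinarith

theorem N1_tri {τ : ℝ} (h : τ ∈ Icc (-1 : ℝ) (w.length + 1)) :
    (∃ s, 0 < s ∧ s ≤ 1 ∧ τ = -s) ∨ (0 ≤ τ ∧ τ ≤ w.length) ∨
      ∃ s, 0 < s ∧ s ≤ 1 ∧ τ = w.length + s := by
  rcases lt_or_ge τ 0 with h0 | h0
  · exact Or.inl ⟨-τ, by linarith, by linarith [h.1], by ring⟩
  rcases le_or_gt τ w.length with h1 | h1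
  · exact Or.inr (Or.inl ⟨h0, h1⟩)
  · exact Or.inr (Or.inr ⟨τ - w.length, by linarith, by linarith [h.2], by ring⟩)

theorem N1_abs {A b : ℝ} (h : ‖(⟨A, b⟩ : ℂ)‖ < 1 / 8) : |A| < 1 / 8 :=
  lt_of_le_of_lt (Complex.abs_re_le_norm ⟨A, b⟩) h

theorem N1leg_inj (ok : Ok nb o w) {p p' : ℕ} (hp : p < 2 * nb) (hp' : p' < 2 * nb)
    {A b τ A' b' τ' : ℝ} (hz : ‖(⟨A, b⟩ : ℂ)‖ < 1 / 8) (hz' : ‖(⟨A', b'⟩ : ℂ)‖ < 1 / 8)
    (hτ : τ ∈ Icc (-1 : ℝ) (w.length + 1)) (hτ' : τ' ∈ Icc (-1 : ℝ) (w.length + 1))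
    (h : N1leg nb w p A b τ = N1leg nb w p' A' b' τ') :
    τ = τ' ∧ b = b' ∧ ((p' = p ∧ A' = A) ∨ (τ = -1 ∧ p' = mate p) ∨
      (τ = w.length + 1 ∧ p' = down w p)) := by
  have hL : (0 : ℝ) ≤ w.length := Nat.cast_nonneg _
  have hA := N1_abs hz
  have hA' := N1_abs hz'
  rcases N1_tri hτ with ⟨s, s0, s1, rfl⟩ | ⟨t0, t1⟩ | ⟨s, s0, s1, rfl⟩ <;>
    rcases N1_tri hτ' with ⟨s', s0', s1', rfl⟩ | ⟨t0', t1'⟩ | ⟨s', s0', s1', rfl⟩
  · rw [N1leg_bot hp _ _ ⟨s0.le, s1⟩, N1leg_bot hp' _ _ ⟨s0'.le, s1'⟩, Prod.mk.injEq,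
      Complex.mk.injEq] at h
    obtain ⟨rfl, h1⟩ := N1_capinj hA hA' ⟨s0.le, s1⟩ ⟨s0'.le, s1'⟩ h.1.1 (neg_injective h.2)
    refine ⟨rfl, h.1.2, ?_⟩
    rcases h1 with h1 | ⟨rfl, h1, -⟩
    · exact Or.inl h1
    · exact Or.inr (Or.inl ⟨rfl, h1⟩)
  · rw [N1leg_bot hp _ _ ⟨s0.le, s1⟩, N1leg_mid _ _ _ t0' t1', Prod.mk.injEq] at h
    linarith [N1_pos (q := p) hA s0, h.2]
  · rw [N1leg_bot hp _ _ ⟨s0.le, s1⟩, N1leg_top ok hp' _ _ ⟨s0'.le, s1'⟩, Prod.mk.injEq] at h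
    linarith [N1_pos (q := p) hA s0, N1_pos (q := pos w w.length p') hA' s0', h.2]
  · rw [N1leg_bot hp' _ _ ⟨s0'.le, s1'⟩, N1leg_mid _ _ _ t0 t1, Prod.mk.injEq] at h
    linarith [N1_pos (q := p') hA' s0', h.2]
  · rw [N1leg_mid _ _ _ t0 t1, N1leg_mid _ _ _ t0' t1', Prod.mk.injEq] at h
    obtain ⟨h1, rfl⟩ := h
    obtain rfl : p' = p := by
      by_contra hne
      have h2 := strand_sep ok hne (t := τ) (Or.inr ⟨by linarith, by linarith⟩)
      have h3 : strand nb w p' τ - strand nb w p τ = (⟨A, b⟩ : ℂ) - ⟨A', b'⟩ := by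
        linear_combination -h1
      rw [h3] at h2
      linarith [norm_sub_le (⟨A, b⟩ : ℂ) ⟨A', b'⟩]
    have h2 := add_left_cancel h1
    rw [Complex.mk.injEq] at h2
    exact ⟨rfl, h2.2, Or.inl ⟨rfl, h2.1.symm⟩⟩
  · rw [N1leg_mid _ _ _ t0 t1, N1leg_top ok hp' _ _ ⟨s0'.le, s1'⟩, Prod.mk.injEq] at h
    linarith [N1_pos (q := pos w w.length p') hA' s0', h.2]
  · rw [N1leg_bot hp' _ _ ⟨s0'.le, s1'⟩, N1leg_top ok hp _ _ ⟨s0.le, s1⟩, Prod.mk.injEq] at h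
    linarith [N1_pos (q := p') hA' s0', N1_pos (q := pos w w.length p) hA s0, h.2]
  · rw [N1leg_mid _ _ _ t0' t1', N1leg_top ok hp _ _ ⟨s0.le, s1⟩, Prod.mk.injEq] at h
    linarith [N1_pos (q := pos w w.length p) hA s0, h.2]
  · rw [N1leg_top ok hp _ _ ⟨s0.le, s1⟩, N1leg_top ok hp' _ _ ⟨s0'.le, s1'⟩, Prod.mk.injEq,
      Complex.mk.injEq] at h
    obtain ⟨rfl, h1⟩ := N1_capinj hA hA' ⟨s0.le, s1⟩ ⟨s0'.le, s1'⟩ h.1.1 (add_left_cancel h.2)
    refine ⟨rfl, h.1.2, ?_⟩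
    rcases h1 with h1 | ⟨rfl, h1, -⟩
    · exact Or.inl ⟨pos_inj w _ h1.1, h1.2⟩
    · refine Or.inr (Or.inr ⟨rfl, ?_⟩)
      rw [down, ← h1, lab_pos]

theorem N1leg_mem (ok : Ok nb o w) {p : ℕ} (hp : p < 2 * nb) {A b τ : ℝ}
    (hz : ‖(⟨A, b⟩ : ℂ)‖ < 1 / 8) (hτ : τ ∈ Icc (-1 : ℝ) (w.length + 1)) :
    N1leg nb w p A b τ ∈ pattern nb o w := by
  intro q hq _ h
  have hA := N1_abs hz
  have hq' : 2 * (nb : ℝ) ≤ q := by exact_mod_cast hq
  rcases N1_tri hτ with ⟨s, s0, s1, rfl⟩ | ⟨t0, t1⟩ | ⟨s, s0, s1, rfl⟩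
  · rw [N1leg_bot hp _ _ ⟨s0.le, s1⟩] at h
    simp only at h
    rw [strand_bot nb w q (by linarith [N1_pos (q := p) hA s0]), cap, if_neg (by omega)] at h
    have h1 := congrArg Complex.re h
    simp only [Complex.natCast_re] at h1
    linarith [N1_cap_lt hp hA ⟨s0.le, s1⟩]
  · rw [N1leg_mid _ _ _ t0 t1] at h
    simp only at h
    have h2 := strand_sep ok (p := q) (q := p) (by omega) (t := τ) (Or.inl hq)
    rw [← h, add_sub_cancel_left] at h2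
    linarith
  · rw [N1leg_top ok hp _ _ ⟨s0.le, s1⟩] at h
    simp only at h
    rw [strand_top q (by linarith [N1_pos (q := pos w w.length p) hA s0]), ok.top q hq, cap,
      if_neg (by omega)] at h
    have h1 := congrArg Complex.re h
    simp only [Complex.natCast_re] at h1
    linarith [N1_cap_lt ((ok.top_lt p).2 hp) hA ⟨s0.le, s1⟩]

theorem N1leg_zero (p : ℕ) (τ : ℝ) : N1leg nb w p 0 0 τ = (strand nb w p τ, τ) := by
  unfold N1leg
  refine Prod.ext (Complex.ext ?_ ?_) ?_ <;> simp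

theorem N1leg_tip_bot {p : ℕ} (hp : p < 2 * nb) (A b : ℝ) :
    N1leg nb w p (-A) b (-1) = N1leg nb w (mate p) A b (-1) := by
  rw [N1leg_bot hp _ _ ⟨zero_le_one, le_rfl⟩,
    N1leg_bot ((mate_lt nb p).2 hp) _ _ ⟨zero_le_one, le_rfl⟩, (N1e_mate p).1, (N1e_mate p).2]
  refine Prod.ext (Complex.ext ?_ rfl) ?_ <;> simp only <;> ring

theorem N1leg_tip_top (ok : Ok nb o w) {p : ℕ} (hp : p < 2 * nb) (A b : ℝ) :
    N1leg nb w (down w p) (-A) b (w.length + 1) = N1leg nb w p A b (w.length + 1) := by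
  rw [N1leg_top ok hp _ _ ⟨zero_le_one, le_rfl⟩,
    N1leg_top ok ((down_lt ok p).2 hp) _ _ ⟨zero_le_one, le_rfl⟩, down, pos_lab,
    (N1e_mate _).1, (N1e_mate _).2]
  refine Prod.ext (Complex.ext ?_ rfl) ?_ <;> simp only <;> ring

/-! ### One bridge -/

/-- up the strand `walk w i`, then down -/
noncomputable def N1br (nb : ℕ) (w : Word) (i : ℕ) (x : ℝ × ℂ) : ℂ × ℝ :=
  if 1 / 2 ≤ x.1 then
    N1leg nb w (down w (walk w i)) (-x.2.re) x.2.im (-1 + (2 - 2 * x.1) * (w.length + 2))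
  else N1leg nb w (walk w i) x.2.re x.2.im (-1 + 2 * x.1 * (w.length + 2))

theorem N1br_cont (ok : Ok nb o w) (i : ℕ) : Continuous (N1br nb w i) := by
  unfold N1br
  refine Continuous.if_le (N1leg_cont _ (by fun_prop) (by fun_prop) (by fun_prop))
    (N1leg_cont _ (by fun_prop) (by fun_prop) (by fun_prop)) continuous_const continuous_fst ?_
  intro x hx
  rw [← hx]
  have e1 : (-1 + (2 - 2 * (1 / 2)) * (w.length + 2) : ℝ) = w.length + 1 := by ring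
  have e2 : (-1 + 2 * (1 / 2) * (w.length + 2) : ℝ) = w.length + 1 := by ring
  rw [e1, e2, N1leg_tip_top ok (walk_lt ok i)]

theorem N1br_zero (i : ℕ) (z : ℂ) :
    N1br nb w i (0, z) = N1leg nb w (walk w i) z.re z.im (-1) := by
  unfold N1br
  rw [if_neg (by norm_num)]
  simp

theorem N1br_one (ok : Ok nb o w) (i : ℕ) (z : ℂ) :
    N1br nb w i (1, z) = N1br nb w (i + 1) (0, z) := by
  rw [N1br_zero, walk_succ, ← N1leg_tip_bot ((down_lt ok _).2 (walk_lt ok i))]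
  unfold N1br
  rw [if_pos (by norm_num)]
  simp

theorem N1_neg {z : ℂ} (hz : ‖z‖ < 1 / 8) : ‖(⟨-z.re, z.im⟩ : ℂ)‖ < 1 / 8 := by
  have : (⟨-z.re, z.im⟩ : ℂ) = -(starRingEnd ℂ z) := Complex.ext (by simp) (by simp)
  rwa [this, norm_neg, Complex.norm_conj]

theorem N1_up {f : ℝ} (h0 : 0 ≤ f) (h : ¬ 1 / 2 ≤ f) :
    (-1 : ℝ) ≤ -1 + 2 * f * (w.length + 2) ∧ -1 + 2 * f * (w.length + 2) < w.length + 1 := by
  have hL : (0 : ℝ) ≤ w.length := Nat.cast_nonneg _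
  have := not_le.1 h
  constructor <;> nlinarith

theorem N1_dn {f : ℝ} (h1 : f < 1) (h : 1 / 2 ≤ f) :
    (-1 : ℝ) < -1 + (2 - 2 * f) * (w.length + 2) ∧
      -1 + (2 - 2 * f) * (w.length + 2) ≤ w.length + 1 := by
  have hL : (0 : ℝ) ≤ w.length := Nat.cast_nonneg _
  constructor <;> nlinarith

theorem N1br_inj (ok : Ok nb o w) {i j : ℕ} (hi : i < per w) (hj : j < per w) {f g : ℝ}
    (hf : f ∈ Ico (0 : ℝ) 1) (hg : g ∈ Ico (0 : ℝ) 1) {z z' : ℂ} (hz : ‖z‖ < 1 / 8)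
    (hz' : ‖z'‖ < 1 / 8) (h : N1br nb w i (f, z) = N1br nb w j (g, z')) :
    i = j ∧ f = g ∧ z = z' := by
  have hL : (0 : ℝ) < w.length + 2 := by positivity
  have wi := walk_lt ok i
  have wj := walk_lt ok j
  have di := (down_lt ok _).2 wi
  have dj := (down_lt ok _).2 wj
  unfold N1br at h
  simp only at h
  split_ifs at h with h1 h2 h2
  · obtain ⟨a1, a2⟩ := N1_dn (w := w) hf.2 h1
    obtain ⟨a3, a4⟩ := N1_dn (w := w) hg.2 h2
    obtain ⟨e1, e2, e3⟩ := N1leg_inj ok di dj (N1_neg hz) (N1_neg hz') ⟨a1.le, a2⟩ ⟨a3.le, a4⟩ h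
    rcases e3 with ⟨e3, e4⟩ | ⟨e3, -⟩ | ⟨-, e3⟩
    · have e5 := congrArg (down w) e3
      rw [down_down, down_down] at e5
      refine ⟨(walk_inj hj hi e5).symm, ?_, Complex.ext (by linarith) e2⟩
      have := mul_right_cancel₀ hL.ne' (add_left_cancel e1)
      linarith
    · linarith
    · rw [down_down] at e3
      exact absurd e3 (down_ne_walk w j i)
  · obtain ⟨a1, a2⟩ := N1_dn (w := w) hf.2 h1
    obtain ⟨a3, a4⟩ := N1_up (w := w) hg.1 h2
    obtain ⟨e1, -, e3⟩ := N1leg_inj ok di wj (N1_neg hz) hz' ⟨a1.le, a2⟩ ⟨a3, a4.le⟩ h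
    rcases e3 with ⟨e3, -⟩ | ⟨e3, -⟩ | ⟨e3, -⟩
    · exact absurd e3.symm (down_ne_walk w i j)
    · linarith
    · linarith
  · obtain ⟨a1, a2⟩ := N1_up (w := w) hf.1 h1
    obtain ⟨a3, a4⟩ := N1_dn (w := w) hg.2 h2
    obtain ⟨e1, -, e3⟩ := N1leg_inj ok wi dj hz (N1_neg hz') ⟨a1, a2.le⟩ ⟨a3.le, a4⟩ h
    rcases e3 with ⟨e3, -⟩ | ⟨e3, -⟩ | ⟨e3, -⟩
    · exact absurd e3 (down_ne_walk w j i)
    · linarith
    · linarith
  · obtain ⟨a1, a2⟩ := N1_up (w := w) hf.1 h1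
    obtain ⟨a3, a4⟩ := N1_up (w := w) hg.1 h2
    obtain ⟨e1, e2, e3⟩ := N1leg_inj ok wi wj hz hz' ⟨a1, a2.le⟩ ⟨a3, a4.le⟩ h
    rcases e3 with ⟨e3, e4⟩ | ⟨-, e3⟩ | ⟨e3, -⟩
    · refine ⟨(walk_inj hj hi e3).symm, ?_, Complex.ext e4.symm e2⟩
      have := mul_right_cancel₀ hL.ne' (add_left_cancel e1)
      linarith
    · have e4 : walk w i = walk w (i + per w - 1 + 1) := by
        rw [Nat.sub_add_cancel (by omega), ← walk_mod w (i + per w), Nat.add_mod_right, walk_mod]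
      rw [e4, walk_succ, mate_mate] at e3
      exact absurd e3.symm (down_ne_walk w _ j)
    · linarith

theorem N1br_mem (ok : Ok nb o w) (i : ℕ) {f : ℝ} (hf : f ∈ Ico (0 : ℝ) 1) {z : ℂ}
    (hz : ‖z‖ < 1 / 8) : N1br nb w i (f, z) ∈ pattern nb o w := by
  unfold N1br
  simp only
  split_ifs with h1
  · obtain ⟨a1, a2⟩ := N1_dn (w := w) hf.2 h1
    exact N1leg_mem ok ((down_lt ok _).2 (walk_lt ok i)) (N1_neg hz) ⟨a1.le, a2⟩
  · obtain ⟨a1, a2⟩ := N1_up (w := w) hf.1 h1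
    exact N1leg_mem ok (walk_lt ok i) hz ⟨a1, a2.le⟩

theorem N1br_knot (ok : Ok nb o w) (i : ℕ) {f : ℝ} (hf : f ∈ Ico (0 : ℝ) 1) :
    N1br nb w i (f, 0) ∈ knot nb w := by
  unfold N1br
  simp only [Complex.zero_re, Complex.zero_im, neg_zero, N1leg_zero]
  split_ifs with h1
  · obtain ⟨a1, a2⟩ := N1_dn (w := w) hf.2 h1
    exact ⟨_, (down_lt ok _).2 (walk_lt ok i), a1.le, a2, rfl⟩
  · obtain ⟨a1, a2⟩ := N1_up (w := w) hf.1 h1
    exact ⟨_, walk_lt ok i, a1, a2.le, rfl⟩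

theorem N1br_onto (ok : Ok nb o w) (i : ℕ) {p : ℕ} (hp : p = walk w i ∨ p = down w (walk w i))
    {t : ℝ} (h0 : -1 ≤ t) (h1 : t ≤ w.length + 1) :
    ∃ f ∈ Icc (0 : ℝ) 1, N1br nb w i (f, 0) = (strand nb w p t, t) := by
  have hL : (0 : ℝ) < w.length + 2 := by positivity
  have a0 : 0 ≤ (t + 1) / (w.length + 2) := div_nonneg (by linarith) hL.le
  have a1 : (t + 1) / (w.length + 2) ≤ 1 := (div_le_one hL).2 (by linarith)
  have a2 : (t + 1) / (w.length + 2) * (w.length + 2) = t + 1 := div_mul_cancel₀ _ hL.ne'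
  have dn : N1br nb w i (1 - (t + 1) / (w.length + 2) / 2, 0) =
      (strand nb w (down w (walk w i)) t, t) := by
    unfold N1br
    simp only [Complex.zero_re, Complex.zero_im, neg_zero, N1leg_zero]
    have e : -1 + (2 - 2 * (1 - (t + 1) / (w.length + 2) / 2)) * (w.length + 2 : ℝ) = t := by
      linarith
    rw [if_pos (by linarith), e]
  rcases hp with rfl | rfl
  · rcases h1.lt_or_eq with h2 | h2
    · have a3 : (t + 1) / (w.length + 2) < 1 := (div_lt_one hL).2 (by linarith)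
      refine ⟨(t + 1) / (w.length + 2) / 2, ⟨by linarith, by linarith⟩, ?_⟩
      unfold N1br
      simp only [Complex.zero_re, Complex.zero_im, neg_zero, N1leg_zero]
      have e : -1 + 2 * ((t + 1) / (w.length + 2) / 2) * (w.length + 2 : ℝ) = t := by linarith
      rw [if_neg (by linarith), e]
    · refine ⟨_, ⟨by linarith, by linarith⟩, dn.trans ?_⟩
      rw [h2, ← tip_top ok (walk_lt ok i)]
  · exact ⟨_, ⟨by linarith, by linarith⟩, dn⟩

/-! ### The tube -/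

theorem N1_floor {n : ℕ} (hn : 0 < n) {t : ℝ} (ht : t ∈ Ico (0 : ℝ) 1) :
    ⌊n * t⌋₊ < n ∧ n * t - ⌊n * t⌋₊ ∈ Ico (0 : ℝ) 1 := by
  have h0 : (0 : ℝ) < n := Nat.cast_pos.2 hn
  have h1 : 0 ≤ n * t := mul_nonneg h0.le ht.1
  have h2 : n * t < n := by nlinarith [ht.2]
  exact ⟨(Nat.floor_lt h1).2 h2, by linarith [Nat.floor_le h1], by
    linarith [Nat.lt_floor_add_one (n * t)]⟩

theorem exists_thick (ok : Ok nb o w) (h : per w = nb) :
    ∃ Θ : Circle × ℂ → ℂ × ℝ, Continuous Θ ∧ Function.Injective Θ ∧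
      (∀ x, Θ x ∈ pattern nb o w) ∧ core Θ = knot nb w := by
  have hn : (0 : ℝ) < nb := Nat.cast_pos.2 ok.pos0
  let ρ : ℂ → ℂ := fun z => (1 / 8 : ℝ) • (Homeomorph.unitBall z : ℂ)
  have ρc : Continuous ρ :=
    Continuous.const_smul (g := fun z : ℂ => (Homeomorph.unitBall z : ℂ))
      (continuous_subtype_val.comp Homeomorph.unitBall.continuous) (1 / 8 : ℝ)
  have ρi : Function.Injective ρ := fun z z' e =>
    Homeomorph.unitBall.injective (Subtype.ext (smul_right_injective ℂ (by norm_num) e))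
  have ρn : ∀ z, ‖ρ z‖ < 1 / 8 := fun z => by
    have := mem_ball_zero_iff.1 (Homeomorph.unitBall z).2
    simp only [ρ, norm_smul, Real.norm_eq_abs]
    rw [abs_of_pos (by norm_num)]
    linarith
  have ρ0 : ρ 0 = 0 := by simp only [ρ, Homeomorph.coe_unitBall_apply_zero, smul_zero]
  have hc := N1_concat (N1br nb w) (N1br_cont ok) (N1br_one ok) nb
  obtain ⟨Θ, hΘ, e⟩ := N1_descend
    (fun x : ℝ × ℂ => N1br nb w ⌊nb * x.1⌋₊ (nb * x.1 - ⌊nb * x.1⌋₊, ρ x.2))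
    (hc.comp (f := fun x : ℝ × ℂ => (nb * x.1, ρ x.2))
      ((continuous_const.mul continuous_fst).prodMk (ρc.comp continuous_snd)).continuousOn
      fun x hx =>
      ⟨⟨mul_nonneg hn.le hx.1.1, by nlinarith [hx.1.2]⟩, mem_univ _⟩)
    (fun z => by
      simp only [mul_one, mul_zero, Nat.floor_natCast, sub_self, Nat.floor_zero, Nat.cast_zero]
      rw [N1br_zero, N1br_zero, ← h, walk_per, walk_zero])
  refine ⟨Θ, hΘ, ?_, ?_, ?_⟩
  · rintro ⟨u, z⟩ ⟨u', z'⟩ hx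
    obtain ⟨t, ht, rfl⟩ := N1_ex_surj u
    obtain ⟨t', ht', rfl⟩ := N1_ex_surj u'
    rw [e t (Ico_subset_Icc_self ht), e t' (Ico_subset_Icc_self ht')] at hx
    obtain ⟨a1, a2⟩ := N1_floor ok.pos0 ht
    obtain ⟨a3, a4⟩ := N1_floor ok.pos0 ht'
    obtain ⟨e1, e2, e3⟩ := N1br_inj ok (h ▸ a1) (h ▸ a3) a2 a4 (ρn z) (ρn z') hx
    rw [e1] at e2
    rw [ρi e3, mul_left_cancel₀ hn.ne' (sub_left_injective e2)]
  · rintro ⟨u, z⟩
    obtain ⟨t, ht, rfl⟩ := N1_ex_surj u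
    rw [e t (Ico_subset_Icc_self ht)]
    exact N1br_mem ok _ (N1_floor ok.pos0 ht).2 (ρn z)
  · refine Subset.antisymm ?_ ?_
    · rintro _ ⟨u, rfl⟩
      obtain ⟨t, ht, rfl⟩ := N1_ex_surj u
      simp only
      rw [e t (Ico_subset_Icc_self ht)]
      simp only [ρ0]
      exact N1br_knot ok _ (N1_floor ok.pos0 ht).2
    · rintro ⟨x, t⟩ ⟨p, hp, h0, h1, hx⟩
      simp only at h0 h1 hx
      obtain ⟨i, hi, hp'⟩ := walk_cover ok h hp
      obtain ⟨f, hf, ef⟩ := N1br_onto ok i hp' h0 h1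
      have hi' : (i : ℝ) + 1 ≤ nb := by exact_mod_cast hi
      have hi0 : (0 : ℝ) ≤ i := Nat.cast_nonneg _
      refine ⟨ex ((i + f) / nb), ?_⟩
      simp only
      rw [e _ ⟨div_nonneg (by linarith [hf.1]) hn.le, (div_le_one hn).2 (by linarith [hf.2])⟩]
      simp only [ρ0]
      rw [mul_div_cancel₀ _ hn.ne', hx, ← ef]
      rcases hf.2.lt_or_eq with h2 | h2
      · have : ⌊(i : ℝ) + f⌋₊ = i :=
          (Nat.floor_eq_iff (by linarith [hf.1])).2 ⟨by linarith [hf.1], by linarith⟩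
        rw [this, add_sub_cancel_left]
      · have : ⌊(i : ℝ) + f⌋₊ = i + 1 := by
          rw [h2]; exact_mod_cast Nat.floor_natCast (R := ℝ) (i + 1)
        rw [this, h2, N1br_one ok]
        push_cast
        rw [sub_self]

end Vale.Agent.N258B
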