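import Vale.Agent.N258B.S
import Vale.Agent.P275NT.Iod

/-! Block N2: open embeddings and the preferred framing. -/

namespace Vale.Agent.N258B

open Set Filter Topology
open Vale.Agent.P258.Braid (Word)
open Vale.Agent.P002Z

/-- invariance of domain -/
theorem isOpenEmbedding_of_inj {Θ : Circle × ℂ → ℂ × ℝ} (hc : Continuous Θ)
    (hi : Function.Injective Θ) : IsOpenEmbedding Θ := by
  refine IsOpenEmbedding.of_continuous_injective_isOpenMap hc hi
    (Vale.Agent.P275NT.isOpenMap_of_charts hc hi fun x => ?_)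
  let L : (EuclideanSpace ℝ (Fin 1) × ℂ) ≃L[ℝ] (Fin 3 → ℝ) :=
    ContinuousLinearEquiv.ofFinrankEq (by simp)
  let L' : (ℂ × ℝ) ≃L[ℝ] (Fin 3 → ℝ) := ContinuousLinearEquiv.ofFinrankEq (by simp)
  refine ⟨3, ((chartAt (EuclideanSpace ℝ (Fin 1)) x.1).prod
    (OpenPartialHomeomorph.refl ℂ)).transHomeomorph L.toHomeomorph,
    L'.toHomeomorph.toOpenPartialHomeomorph, ?_, mem_univ _⟩
  exact ⟨mem_chart_source _ x.1, mem_univ _⟩

theorem N2_cont (p : ℤ) : Continuous fun u : Circle => ((u ^ p : Circle) : ℂ) :=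
  have h : Continuous fun u : Circle => u ^ p := continuous_zpow p
  continuous_subtype_val.comp h

/-- the twist of the solid torus -/
noncomputable def N2_tw (p : ℤ) : Circle × ℂ ≃ₜ Circle × ℂ where
  toFun x := (x.1, ((x.1 ^ p : Circle) : ℂ) * x.2)
  invFun x := (x.1, ((x.1 ^ (-p) : Circle) : ℂ) * x.2)
  left_inv x := by
    refine Prod.ext rfl ?_
    change ((x.1 ^ (-p) : Circle) : ℂ) * (((x.1 ^ p : Circle) : ℂ) * x.2) = x.2
    rw [← mul_assoc, ← Circle.coe_mul, ← zpow_add, neg_add_cancel, zpow_zero, Circle.coe_one,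
      one_mul]
  right_inv x := by
    refine Prod.ext rfl ?_
    change ((x.1 ^ p : Circle) : ℂ) * (((x.1 ^ (-p) : Circle) : ℂ) * x.2) = x.2
    rw [← mul_assoc, ← Circle.coe_mul, ← zpow_add, add_neg_cancel, zpow_zero, Circle.coe_one,
      one_mul]
  continuous_toFun := continuous_fst.prodMk
    (((N2_cont p).comp continuous_fst).mul continuous_snd)
  continuous_invFun := continuous_fst.prodMk
    (((N2_cont (-p)).comp continuous_fst).mul continuous_snd)

theorem N2_slope {ν : Circle × ℂ → S3} (hν : IsOpenEmbedding ν) :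
    ∃ p : ℤ, ∀ K : Set S3, K = core ν → ∀ (x : ↥Kᶜ) (l : Path x x),
      (∀ t, (l t).1 = ν (ex t, (ex t : ℂ) ^ p)) →
      FundamentalGroup.fromPath (Path.Homotopic.Quotient.mk l) ∈
        commutator (FundamentalGroup (↥Kᶜ) x) := by
  have := pathConnected_compl hν
  have := simplyConnected_S3
  obtain ⟨a, mu, lam, -, hmu, hlam, -, -⟩ := exists_loops hν 0
  obtain ⟨β, hβ⟩ := exists_pf a (Abelianization.of (G := FundamentalGroup (↥(core ν)ᶜ) a))
  obtain ⟨γ, hγ⟩ := (fill_S3 hν).ext mu hmu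
    (β.post (QuotientGroup.mk' (Subgroup.zpowers (β.v mu))))
    ((QuotientGroup.eq_one_iff _).2 (Subgroup.mem_zpowers _))
  obtain ⟨τ, hτ⟩ := exists_pot_univ γ
  have h1 : β.v lam ∈ Subgroup.zpowers (β.v mu) := by
    refine (QuotientGroup.eq_one_iff _).1 ((hγ _ _ lam).symm.trans ?_)
    exact (hτ _ _ _ fun _ => mem_univ _).trans (inv_mul_cancel _)
  obtain ⟨j, hj⟩ := Subgroup.mem_zpowers_iff.1 h1
  refine ⟨-j, ?_⟩
  rintro K rfl x l hl
  obtain ⟨a', mu', lam', sl, hmu', hlam', hsl, H⟩ := exists_loops hν (-j)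
  have e1 : β.v mu' = β.v mu := β.congr fun t => Subtype.ext ((hmu' t).trans (hmu t).symm)
  have e2 : β.v lam' = β.v lam := β.congr fun t => Subtype.ext ((hlam' t).trans (hlam t).symm)
  have e3 : β.v l = β.v sl := β.congr fun t => Subtype.ext ((hl t).trans (hsl t).symm)
  have e4 : β.v l = 1 := by
    rw [e3, (H _ β).2, e1, e2, ← hj, ← zpow_add, neg_add_cancel, zpow_zero]
  obtain rfl : x = a := by
    have h2 := hl 0
    have h3 := hlam 0
    rw [l.source] at h2
    rw [lam.source] at h3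
    refine Subtype.ext (h2.trans (Eq.trans ?_ h3.symm))
    simp [ex_zero]
  rw [← Abelianization.ker_of, MonoidHom.mem_ker, ← hβ]
  exact e4

/-- every framing can be twisted to the preferred one -/
theorem exists_preferred {ν : Circle × ℂ → S3} (hν : IsOpenEmbedding ν) :
    ∃ ν' : Circle × ℂ → S3, IsOpenEmbedding ν' ∧ core ν' = core ν ∧ Preferred ν' := by
  obtain ⟨p, hp⟩ := N2_slope hν
  have hcore : core (ν ∘ N2_tw p) = core ν := by
    unfold core
    congr 1
    funext u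
    change ν (u, ((u ^ p : Circle) : ℂ) * 0) = _
    rw [mul_zero]
  refine ⟨ν ∘ N2_tw p, hν.comp (N2_tw p).isOpenEmbedding, hcore, fun x l hl => ?_⟩
  refine hp _ hcore x l fun t => (hl t).trans ?_
  change ν (ex t, ((ex t ^ p : Circle) : ℂ) * 1) = _
  rw [mul_one, Circle.coe_zpow]

theorem exists_chart : ∃ e : ℂ × ℝ → S3, IsOpenEmbedding e := by
  have : Fact (Module.finrank ℝ (EuclideanSpace ℝ (Fin 4)) = 3 + 1) := ⟨by simp⟩
  let L : (ℂ × ℝ) ≃L[ℝ] EuclideanSpace ℝ (Fin 3) := ContinuousLinearEquiv.ofFinrankEq (by simp)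
  have := simplyConnected_S3
  obtain ⟨v⟩ : Nonempty S3 := inferInstance
  exact ⟨(stereographic' 3 v).symm ∘ L,
    ((stereographic' 3 v).symm.isOpenEmbedding (stereographic'_target v)).comp
      L.toHomeomorph.isOpenEmbedding⟩

end Vale.Agent.N258B
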