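import Vale.Agent.N258B.Main
import Vale.Agent.N258B.N1
import Vale.Agent.N258B.N2

/-! The slopes `2` and `-2`. -/

namespace Vale.Agent.N258B

open Set Filter Topology
open Vale.Agent.P258.Braid
open Vale.Agent.P258.Seven (G7 pow84)
open Vale.Agent.P002Z

variable {nb o : ℕ} {w : Word} {ν : Circle × ℂ → S3}

/-- tubular neighbourhoods with the preferred framing exist -/
theorem exists_framed (ok : Ok nb o w) (h : per w = nb) {e : ↥(pattern nb o w) → S3}
    (he : IsOpenEmbedding e) : ∃ ν, Framed nb o w e ν := by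
  obtain ⟨Θ, h1, h2, h3, h4⟩ := exists_thick ok h
  have h5 : IsOpenEmbedding fun x => (⟨Θ x, h3 x⟩ : ↥(pattern nb o w)) :=
    IsOpenEmbedding.of_comp _ (isOpen_pattern nb o w).isOpenEmbedding_subtypeVal
      (isOpenEmbedding_of_inj h1 h2)
  obtain ⟨ν, g1, g2, g3⟩ := exists_preferred (he.comp h5)
  refine ⟨ν, he, g1, g2.trans ?_, g3⟩
  rw [← h4]
  ext z
  constructor
  · rintro ⟨u, rfl⟩
    exact ⟨⟨Θ (u, 0), h3 _⟩, ⟨u, rfl⟩, rfl⟩
  · rintro ⟨y, ⟨u, hu⟩, rfl⟩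
    exact ⟨u, congrArg e (Subtype.ext hu)⟩

theorem card_sol {G : Type} [Group G] {a : ℤ} (ha : Odd a) (p : ℤ) :
    Nat.card (Sol 3 (fam a ++ turn) G (caps6.expo (fam a)) p) = caps6.homCount G (fam a) p 1 := by
  rw [homCount_eq]
  refine Nat.card_congr (Equiv.subtypeEquivRight fun c : Fin 6 → G => ?_)
  rw [capd_iff ha, raw_eq ha, Pc_one]
  exact ⟨fun h => ⟨h.1.1, h.1.2, h.2⟩, fun h => ⟨⟨h.bot, h.top⟩, h.slope⟩⟩

theorem separated {e : ↥(pattern 3 o w) → S3} {G : Type} [Group G] {N : ℕ}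
    (hN : ∀ g : G, g ^ N = 1) {a : ℤ} (ha : Odd a)
    (hw : ∀ x ∈ w, x.1 + 1 < 2 * 3 + o) (hE : Equiv (2 * 3 + o) G N (fam a ++ turn) w)
    (hne : caps6.homCount G (fam a) 2 1 ≠ caps6.homCount G (fam a) (-2) 1)
    (hF : Framed 3 o w e ν) {p r : ℤ}
    (hp : (N : ℤ) ∣ p - 2) (hr : (N : ℤ) ∣ r + 2) (x : Surgery ν p) (y : Surgery ν r) :
    IsEmpty (FundamentalGroup (Surgery ν p) x ≃* FundamentalGroup (Surgery ν r) y) := by
  obtain ⟨c, c1, c2, c3⟩ := col_ori ha (Multiplicative.ofAdd (1 : ZMod N))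
  obtain ⟨ε, hε, h⟩ := count_same (x := caps6.expo (fam a)) (fam_small a) hw hN hE hF
    (by norm_num) ((capd_iff ha c).2 c1) ((Pc_one c).trans c2) (by
      refine (raw_eq ha c).trans (c3.trans ?_)
      rw [← ofAdd_zsmul, zsmul_eq_mul, mul_one])
  apply isEmpty_of_card (G := G)
  have hrefl : Equiv 6 G N (fam a) (fam a) := ⟨Same.refl' _, Same.refl' _⟩
  rw [h p x, h r y, card_sol ha, card_sol ha]
  rcases hε with rfl | rfl
  · rw [homCount_congr caps6 hN hrefl (p' := 2) (q' := 1) (by rwa [one_mul]) (by simp),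
      homCount_congr caps6 hN hrefl (p := 1 * r) (p' := -2) (q' := 1)
        (by rwa [one_mul, sub_neg_eq_add]) (by simp)]
    exact hne
  · rw [homCount_congr caps6 hN hrefl (p' := -2) (q' := 1)
        (by rw [show -1 * p - -2 = -(p - 2) by ring]; exact hp.neg_right) (by simp),
      homCount_congr caps6 hN hrefl (p := -1 * r) (p' := 2) (q' := 1)
        (by rw [show -1 * r - 2 = -(r + 2) by ring]; exact hr.neg_right) (by simp)]
    exact hne.symm

theorem per_of_same {G : Type} [Group G] {a : ℤ} (ha : Odd a)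
    (hw : ∀ x ∈ w, x.1 + 1 < 2 * 3 + o) (h : Same (2 * 3 + o) G (fam a ++ turn) w) :
    per w = 3 :=
  (walk_perm fun p => (same_pos (fun x hx => by have := fam_small a x hx; omega) hw h p).trans
    (fam_perm ha p)).1

/-- the explicit family -/
theorem family (o : ℕ) (n : ℤ) (hn : 24 ∣ n - 7 ∨ 24 ∣ n + 7 ∨ 168 ∣ n - 9 ∨ 168 ∣ n + 9 ∨
      168 ∣ n - 33 ∨ 168 ∣ n + 33 ∨ 168 ∣ n - 73 ∨ 168 ∣ n + 73 ∨ 252 ∣ n - 5) (w : Word)
    (hw : ∀ x ∈ w, x.1 + 1 < 2 * 3 + o)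
    (h8 : Equiv (2 * 3 + o) S8 126 (fam n ++ turn) w)
    (h7 : Equiv (2 * 3 + o) G7 84 (fam n ++ turn) w)
    (e : ↥(pattern 3 o w) → S3) :
    (IsOpenEmbedding e → ∃ ν, Framed 3 o w e ν) ∧ ∀ ν, Framed 3 o w e ν →
      ∀ p r : ℤ, 252 ∣ p - 2 → 252 ∣ r + 2 →
        (∀ x y, IsEmpty (FundamentalGroup (Surgery ν p) x ≃* FundamentalGroup (Surgery ν r) y)) ∧
          IsEmpty (ContinuousMap.HomotopyEquiv (Surgery ν p) (Surgery ν r)) := by
  have hodd : Odd n := by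
    rw [Int.odd_iff]
    omega
  refine ⟨exists_framed (ok_of_same (by norm_num) (fam_small n) hw h8.1)
    (per_of_same hodd hw h8.1), ?_⟩
  intro ν hF p r hp hr
  have := nonempty_surgery ν p
  suffices h : ∀ x y, IsEmpty (FundamentalGroup (Surgery ν p) x ≃*
      FundamentalGroup (Surgery ν r) y) from ⟨h, isEmpty_homotopyEquiv h⟩
  have happ : ∀ {G : Type} [Group G] {N : ℕ} {u v : Word}, Equiv (2 * 3 + o) G N u v →
      Equiv (2 * 3 + o) G N (u ++ turn) (v ++ turn) := fun h =>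
    ⟨h.1.append (Same.refl' _), h.2.append (Same.refl' _)⟩
  have hn' : (24 ∣ n - 7 ∨ 24 ∣ n + 7 ∨ 168 ∣ n - 9 ∨ 168 ∣ n + 9 ∨ 168 ∣ n - 33 ∨
      168 ∣ n + 33 ∨ 168 ∣ n - 73 ∨ 168 ∣ n + 73) ∨ 252 ∣ n - 5 := by tauto
  rcases hn' with hn | hn
  · obtain ⟨a, ha, hd⟩ := rep_of_class n hn
    have hG : Equiv (2 * 3 + o) G7 84 (fam (2 * (a : ℤ) + 1)) (fam n) := by
      refine fam_equiv pow84 ?_
      have : (2 * (84 : ℕ) : ℤ) = 168 := by norm_num
      rw [this]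
      omega
    exact separated pow84 ⟨a, rfl⟩ hw (equiv_trans (happ hG) h7) (sep_all a ha) hF
      (by push_cast; omega) (by push_cast; omega)
  · have hG : Equiv (2 * 3 + o) S8 126 (fam 5) (fam n) := by
      refine fam_equiv pow126 ?_
      have : (2 * (126 : ℕ) : ℤ) = 252 := by norm_num
      rw [this]
      omega
    exact separated pow126 ⟨2, rfl⟩ hw (equiv_trans (happ hG) h8) count_lt.ne' hF
      (by push_cast; omega) (by push_cast; omega)

end Vale.Agent.N258B
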