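import Vale.Agent.N258B.G1

/-! Block G: local simple connectivity, convex sets, gluing. -/

namespace Vale.Agent.N258B

open Set Filter Topology
open Vale.Agent.P258.Braid (Word)
open Vale.Agent.P002Z

variable {X Y : Type} [TopologicalSpace X] [TopologicalSpace Y] {G : Type} [Group G]

/-- a continuous map with values in the image of an embedding lifts to a path -/
theorem G2_lift {e : X → Y} (he : IsEmbedding e) (f : I → Y) (hf : Continuous f) {V : Set X}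
    (h : ∀ t, f t ∈ e '' V) :
    ∃ (x y : X) (p : Path x y), (∀ t, p t ∈ V) ∧ ∀ t, e (p t) = f t := by
  choose g hgV hg using h
  have hc : Continuous g := he.isInducing.continuous_iff.2 (hf.congr fun t => (hg t).symm)
  exact ⟨g 0, g 1, ⟨⟨g, hc⟩, rfl, rfl⟩, hgV, hg⟩

/-- `A` is a potential on `U` for both functions -/
structure G2Chart {X1 X2 Z : Type} [TopologicalSpace X1] [TopologicalSpace X2]
    [TopologicalSpace Z] (e1 : C(X1, Z)) (e2 : C(X2, Z)) (α1 : PF X1 G) (α2 : PF X2 G)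
    (U : Set Z) (A : Z → G) : Prop where
  op : IsOpen U
  p1 : α1.Pot (e1 ⁻¹' U) fun x => A (e1 x)
  p2 : α2.Pot (e2 ⁻¹' U) fun x => A (e2 x)

theorem G2_chart {X1 X2 Z : Type} [TopologicalSpace X1] [TopologicalSpace X2]
    [TopologicalSpace Z] (n1 : Nice X1) (e1 : C(X1, Z)) (e2 : C(X2, Z)) (h1 : IsOpenEmbedding e1)
    (α1 : PF X1 G) (α2 : PF X2 G)
    (hs : ∀ x1 y1 (p1 : Path x1 y1) x2 y2 (p2 : Path x2 y2), (∀ t, e1 (p1 t) = e2 (p2 t)) →
      α1.v p1 = α2.v p2) (x : X1) : ∃ U A, G2Chart e1 e2 α1 α2 U A ∧ e1 x ∈ U := by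
  obtain ⟨V, hV, hx, -, hsc⟩ := n1 x univ univ_mem
  obtain ⟨τ, hτ⟩ := (null_of_isSimplyConnected hsc).exists_pot α1
  have hA : ∀ y, Function.extend e1 τ (fun _ => 1) (e1 y) = τ y := fun y =>
    h1.injective.extend_apply _ _ _
  refine ⟨e1 '' V, Function.extend e1 τ fun _ => 1, ⟨h1.isOpenMap _ hV, ?_, ?_⟩, x, hx, rfl⟩
  · rw [h1.injective.preimage_image]
    exact pot_congr hτ fun y _ => hA y
  · intro x2 y2 p2 hp
    obtain ⟨x1, y1, p1, hp1, hp2⟩ := G2_lift h1.isEmbedding (fun t => e2 (p2 t))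
      (e2.continuous.comp p2.continuous) hp
    have a0 : e1 x1 = e2 x2 := by rw [← p1.source, ← p2.source]; exact hp2 0
    have a1 : e1 y1 = e2 y2 := by rw [← p1.target, ← p2.target]; exact hp2 1
    rw [← hs _ _ p1 _ _ p2 hp2, hτ _ _ p1 hp1]
    simp only [← a0, ← a1, hA]

theorem G2_lc {X1 Z : Type} [TopologicalSpace X1] [TopologicalSpace Z] (n1 : Nice X1)
    (e1 : C(X1, Z)) (h1 : IsOpenEmbedding e1) (α1 : PF X1 G) {U U' : Set Z} {A A' : Z → G}
    (hU : IsOpen U) (hU' : IsOpen U') (p : α1.Pot (e1 ⁻¹' U) fun x => A (e1 x))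
    (p' : α1.Pot (e1 ⁻¹' U') fun x => A' (e1 x)) (x : X1) (hx : e1 x ∈ U ∩ U') :
    ∀ᶠ y in 𝓝 (e1 x), A' y * (A y)⁻¹ = A' (e1 x) * (A (e1 x))⁻¹ := by
  obtain ⟨V, hV, hxV, hsub, hsc⟩ := n1 x (e1 ⁻¹' U ∩ e1 ⁻¹' U')
    (((hU.inter hU').preimage e1.continuous).mem_nhds hx)
  filter_upwards [(h1.isOpenMap _ hV).mem_nhds ⟨x, hxV, rfl⟩]
  rintro _ ⟨y, hy, rfl⟩
  exact pot_ratio p p' ((hsc.isPathConnected.joinedIn x hxV y hy).mono hsub)

/-- gluing of two functions that agree on the common part -/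
theorem G2_glue {X1 X2 Z : Type} [TopologicalSpace X1] [TopologicalSpace X2] [TopologicalSpace Z]
    (n1 : Nice X1) (n2 : Nice X2) (e1 : C(X1, Z)) (e2 : C(X2, Z)) (h1 : IsOpenEmbedding e1)
    (h2 : IsOpenEmbedding e2) (hcov : ∀ z, z ∈ range e1 ∨ z ∈ range e2)
    (α1 : PF X1 G) (α2 : PF X2 G)
    (hs : ∀ x1 y1 (p1 : Path x1 y1) x2 y2 (p2 : Path x2 y2), (∀ t, e1 (p1 t) = e2 (p2 t)) →
      α1.v p1 = α2.v p2) :
    ∃ γ : PF Z G, (∀ x y (p : Path x y), (γ.comap e1).v p = α1.v p) ∧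
      ∀ x y (p : Path x y), (γ.comap e2).v p = α2.v p := by
  let ι : Type := {c : Set Z × (Z → G) // G2Chart e1 e2 α1 α2 c.1 c.2}
  have hc : ∀ z, ∃ i : ι, z ∈ i.1.1 := by
    intro z
    rcases hcov z with ⟨x, rfl⟩ | ⟨x, rfl⟩
    · obtain ⟨U, A, h, hx⟩ := G2_chart n1 e1 e2 h1 α1 α2 hs x
      exact ⟨⟨(U, A), h⟩, hx⟩
    · obtain ⟨U, A, h, hx⟩ := G2_chart n2 e2 e1 h2 α2 α1
        (fun _ _ p2 _ _ p1 hp => (hs _ _ p1 _ _ p2 fun t => (hp t).symm).symm) x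
      exact ⟨⟨(U, A), ⟨h.op, h.p2, h.p1⟩⟩, hx⟩
  obtain ⟨φ, t, ht, htt⟩ := exists_holonomy (fun i : ι => i.1.1) (fun i => i.2.op) hc
    (fun i j z => j.1.2 z * (i.1.2 z)⁻¹)
    (by
      intro i j z hz
      rcases hcov z with ⟨x, rfl⟩ | ⟨x, rfl⟩
      · exact G2_lc n1 e1 h1 α1 i.2.op j.2.op i.2.p1 j.2.p1 x hz
      · exact G2_lc n2 e2 h2 α2 i.2.op j.2.op i.2.p2 j.2.p2 x hz)
    (fun i j k z _ => by group)
  choose idx hidx using hc
  let w : Z → G := fun z => (t (idx z) z)⁻¹ * (idx z).1.2 z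
  have hγ : ∀ i : ι, (gauge φ w).Pot i.1.1 i.1.2 := by
    intro i
    refine pot_congr (pot_of_par (ht i) (par_gauge φ w _)) fun z hz => ?_
    simp only [w]
    rw [htt (idx z) i z ⟨hidx z, hz⟩]
    group
  have fin : ∀ {X' : Type} [TopologicalSpace X'] (e : C(X', Z)) (α : PF X' G),
      (∀ i : ι, α.Pot (e ⁻¹' i.1.1) fun x => i.1.2 (e x)) →
      ∀ x y (p : Path x y), ((gauge φ w).comap e).v p = α.v p := by
    intro X' _ e α hα x y p
    have h : Par α ((gauge φ w).comap e) univ fun _ => 1 := by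
      refine Par.glue (fun i : ι => e ⁻¹' i.1.1) (fun i => i.2.op.preimage e.continuous)
        (fun x _ => mem_iUnion.2 ⟨idx (e x), hidx _⟩) fun i => ?_
      exact ((par_of_pot (hα i) (pot_comap (hγ i) e)).congr fun x _ =>
        (inv_mul_cancel _).symm).mono inter_subset_right
    rw [h x y p fun _ => mem_univ _]
    simp
  exact ⟨gauge φ w, fin e1 α1 fun i => i.2.p1, fin e2 α2 fun i => i.2.p2⟩

/-- van Kampen: gluing along two open embeddings -/
theorem glue {X1 X2 Z : Type} [TopologicalSpace X1] [TopologicalSpace X2] [TopologicalSpace Z]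
    (n1 : Nice X1) (n2 : Nice X2) (e1 : C(X1, Z)) (e2 : C(X2, Z)) (h1 : IsOpenEmbedding e1)
    (h2 : IsOpenEmbedding e2) (hcov : ∀ z, z ∈ range e1 ∨ z ∈ range e2)
    (α1 : PF X1 G) (α2 : PF X2 G) (s : X1 → G)
    (hs : ∀ x1 y1 (p1 : Path x1 y1) x2 y2 (p2 : Path x2 y2), (∀ t, e1 (p1 t) = e2 (p2 t)) →
      α1.v p1 = (s y1)⁻¹ * α2.v p2 * s x1) :
    ∃ (γ : PF Z G) (u : X2 → G), (∀ x y (p : Path x y), (γ.comap e1).v p = α1.v p) ∧
      Par (γ.comap e2) α2 univ u ∧ ∀ x1 x2, e1 x1 = e2 x2 → u x2 * s x1 = 1 := by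
  let s' : X2 → G := fun x => Function.extend e1 s (fun _ => 1) (e2 x)
  have hs' : ∀ x1 x2, e1 x1 = e2 x2 → s' x2 = s x1 := by
    intro x1 x2 h
    simp only [s', ← h]
    exact h1.injective.extend_apply _ _ _
  obtain ⟨γ, g1, g2⟩ := G2_glue n1 n2 e1 e2 h1 h2 hcov α1 (gauge α2 s') (by
    intro x1 y1 p1 x2 y2 p2 hp
    have a0 : e1 x1 = e2 x2 := by rw [← p1.source, ← p2.source]; exact hp 0
    have a1 : e1 y1 = e2 y2 := by rw [← p1.target, ← p2.target]; exact hp 1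
    rw [hs _ _ p1 _ _ p2 hp, ← hs' _ _ a0, ← hs' _ _ a1]
    rfl)
  refine ⟨γ, fun x => (s' x)⁻¹, g1, Par.symm fun x y p _ => g2 x y p, fun x1 x2 h => ?_⟩
  change (s' x2)⁻¹ * s x1 = 1
  rw [hs' _ _ h, inv_mul_cancel]

/-- gauge transformations given on the two pieces -/
theorem par_glue {X1 X2 Z : Type} [TopologicalSpace X1] [TopologicalSpace X2]
    [TopologicalSpace Z] (e1 : C(X1, Z)) (e2 : C(X2, Z)) (h1 : IsOpenEmbedding e1)
    (h2 : IsOpenEmbedding e2) (hcov : ∀ z, z ∈ range e1 ∨ z ∈ range e2) (γ γ' : PF Z G)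
    (r1 : X1 → G) (r2 : X2 → G) (p1 : Par (γ.comap e1) (γ'.comap e1) univ r1)
    (p2 : Par (γ.comap e2) (γ'.comap e2) univ r2)
    (h : ∀ x1 x2, e1 x1 = e2 x2 → r1 x1 = r2 x2) :
    ∃ r : Z → G, Par γ γ' univ r ∧ (∀ x, r (e1 x) = r1 x) ∧ ∀ x, r (e2 x) = r2 x := by
  let r : Z → G := Function.extend e1 r1 (Function.extend e2 r2 fun _ => 1)
  have a1 : ∀ x, r (e1 x) = r1 x := fun x => h1.injective.extend_apply _ _ _
  have a2 : ∀ x, r (e2 x) = r2 x := by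
    intro x
    by_cases hx : ∃ y, e1 y = e2 x
    · obtain ⟨y, hy⟩ := hx
      rw [← hy, a1, h _ _ hy]
    · simp only [r]
      rw [Function.extend_apply' _ _ _ hx]
      exact h2.injective.extend_apply _ _ _
  have key : ∀ {X' : Type} [TopologicalSpace X'] (e : C(X', Z)) (r' : X' → G), IsEmbedding e →
      Par (γ.comap e) (γ'.comap e) univ r' → (∀ x, r (e x) = r' x) →
      Par γ γ' (univ ∩ range e) r := by
    intro X' _ e r' he hp hr x y p hq
    obtain ⟨x1, y1, q, -, hq2⟩ := G2_lift he p p.continuous (V := univ)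
      fun t => by rw [image_univ]; exact (hq t).2
    have b0 : e x1 = x := by rw [← q.source, ← p.source]; exact hq2 0
    have b1 : e y1 = y := by rw [← q.target, ← p.target]; exact hq2 1
    have c := hp _ _ q fun _ => mem_univ _
    have c1 : (γ.comap e).v q = γ.v p := γ.congr hq2
    have c2 : (γ'.comap e).v q = γ'.v p := γ'.congr hq2
    rw [c1, c2, ← hr, ← hr, b0, b1] at c
    exact c
  refine ⟨r, Par.glue (fun b : Bool => if b then range e1 else range e2) ?_ ?_ ?_, a1, a2⟩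
  · rintro (_ | _)
    · exact h2.isOpen_range
    · exact h1.isOpen_range
  · intro z _
    rcases hcov z with hz | hz
    · exact mem_iUnion.2 ⟨true, hz⟩
    · exact mem_iUnion.2 ⟨false, hz⟩
  · rintro (_ | _)
    · exact key e2 r2 h2.isEmbedding p2 a2
    · exact key e1 r1 h1.isEmbedding p1 a1

end Vale.Agent.N258B
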