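import Mathlib.GroupTheory.Abelianization.Defs
import Mathlib.GroupTheory.Subgroup.Center
import Mathlib.SetTheory.Cardinal.Finite
import Mathlib.GroupTheory.Perm.Sign
import Mathlib.Tactic

/-! Block K0: the properties of a knot group with its meridian and longitude that are used. -/

namespace Vale.Agent.N258B

/-- a group with a meridian and a longitude -/
structure KG {Γ : Type} [Group Γ] (m l : Γ) : Prop where
  comm : Commute m l
  ab : l ∈ commutator Γ
  gen : Subgroup.normalClosure {m} = ⊤
  deg : ∃ f : Γ →* Multiplicative ℤ, f m = Multiplicative.ofAdd 1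
  lift : ∀ (G Q : Type) [Group G] [Group Q] (pr : G →* Q), Function.Surjective pr →
    pr.ker ≤ Subgroup.center G → ∀ ρ : Γ →* Q, ∃ σ : Γ →* G, pr.comp σ = ρ
  fin : ∀ (H : Type) [Group H] [Finite H], Finite (Γ →* H)

end Vale.Agent.N258B
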