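import Vale.Agent.N258B.K0

/-! Block K1: the parity obstruction for an abstract knot group. -/

namespace Vale.Agent.N258B

variable {Γ : Type} [Group Γ] {m l : Γ}

namespace K1

theorem card_split {α : Type} [Finite α] (p q : α → Prop) :
    Nat.card {x // p x} = Nat.card {x // p x ∧ q x} + Nat.card {x // p x ∧ ¬ q x} := by
  classical
  rw [← Nat.card_congr (Equiv.sumCompl (fun x : {x // p x} => q x.1)), Nat.card_sum,
    Nat.card_congr (Equiv.subtypeSubtypeEquivSubtypeInter p q),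
    Nat.card_congr (Equiv.subtypeSubtypeEquivSubtypeInter p (fun x => ¬ q x))]

theorem card_iff {α : Type} {p q : α → Prop} (h : ∀ x, p x ↔ q x) :
    Nat.card {x // p x} = Nat.card {x // q x} :=
  Nat.card_congr (Equiv.subtypeEquivRight h)

/-- a homomorphism which sends the meridian into a normal subgroup has its image in it -/
theorem mem_of (hK : KG m l) {G : Type} [Group G] (N : Subgroup G) [N.Normal] (f : Γ →* G)
    (h : f m ∈ N) (x : Γ) : f x ∈ N := by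
  have h1 : Subgroup.normalClosure {m} ≤ N.comap f :=
    Subgroup.normalClosure_le_normal (Set.singleton_subset_iff.2 h)
  rw [hK.gen] at h1
  exact h1 (Subgroup.mem_top x)

theorem card_in (hK : KG m l) {G : Type} [Group G] (N : Subgroup G) [N.Normal] (p : ℤ) :
    Nat.card {f : Γ →* G // f m ^ p * f l = 1 ∧ f m ∈ N} =
      Nat.card {f : Γ →* N // f m ^ p * f l = 1} := by
  refine Nat.card_congr
    { toFun := fun f => ⟨f.1.codRestrict N (mem_of hK N f.1 f.2.2), Subtype.ext (by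
        simpa using f.2.1)⟩
      invFun := fun g => ⟨N.subtype.comp g.1, by
        have h := congrArg Subtype.val g.2
        simpa using h, (g.1 m).2⟩
      left_inv := fun f => ?_
      right_inv := fun g => ?_ }
  · ext x
    rfl
  · ext x
    rfl

section

variable {G Q : Type} [Group G] [Group Q] {pr : G →* Q} {z : G} (hz : z ≠ 1)
  (hker : ∀ g, pr g = 1 ↔ g = 1 ∨ g = z)
include hz hker

theorem z_comm (g : G) : g * z = z * g := by
  have h1 : pr (g * z * g⁻¹) = 1 := by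
    rw [map_mul, map_mul, (hker z).2 (Or.inr rfl), mul_one, map_inv, mul_inv_cancel]
  rcases (hker _).1 h1 with h | h
  · exact absurd (by simpa using h) hz
  · exact mul_inv_eq_iff_eq_mul.1 h

theorem z_sq : z * z = 1 := by
  have h1 : pr (z * z) = 1 := by rw [map_mul, (hker z).2 (Or.inr rfl), mul_one]
  rcases (hker _).1 h1 with h | h
  · exact h
  · exact absurd (by simpa using h) hz

omit hz in
theorem fib {a b : G} (h : pr a = pr b) : a = b ∨ a = b * z := by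
  have h1 : pr (b⁻¹ * a) = 1 := by rw [map_mul, map_inv, h, inv_mul_cancel]
  rcases (hker _).1 h1 with h2 | h2
  · exact Or.inl (inv_mul_eq_one.1 h2).symm
  · exact Or.inr (inv_mul_eq_iff_eq_mul.1 h2)

theorem sq_z (a : G) : (a * z) ^ 2 = a ^ 2 := by
  rw [Commute.mul_pow (z_comm hz hker a), sq z, z_sq hz hker, mul_one]

theorem four_z (a : G) : (a * z) ^ 4 = a ^ 4 := by
  rw [show 4 = 2 * 2 from rfl, pow_mul, pow_mul, sq_z hz hker]

/-- two lifts which agree on the meridian are equal -/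
theorem lift_ext (hK : KG m l) {σ τ : Γ →* G} (h : pr.comp σ = pr.comp τ) (hm : σ m = τ m) :
    σ = τ := by
  have hn : (σ.eqLocus τ).Normal := ⟨fun x hx y => by
    have h1 : σ x = τ x := hx
    change σ (y * x * y⁻¹) = τ (y * x * y⁻¹)
    simp only [map_mul, map_inv, h1]
    rcases fib hker (DFunLike.congr_fun h y : pr (σ y) = pr (τ y)) with h2 | h2
    · rw [h2]
    · rw [h2, mul_assoc (τ y) z, ← z_comm hz hker, mul_inv_rev]
      group⟩
  have h1 : Subgroup.normalClosure {m} ≤ σ.eqLocus τ :=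
    Subgroup.normalClosure_le_normal (Set.singleton_subset_iff.2 hm)
  rw [hK.gen] at h1
  ext x
  exact h1 (Subgroup.mem_top x)

/-- the other lift -/
theorem exists_tw (hK : KG m l) (σ : Γ →* G) :
    ∃ τ : Γ →* G, pr.comp τ = pr.comp σ ∧ τ m = σ m * z ∧ τ l = σ l := by
  obtain ⟨d, hd⟩ := hK.deg
  have hc : ∀ (g : G) (n : ℤ), Commute g (z ^ n) := fun g n =>
    Commute.zpow_right (z_comm hz hker g) n
  have hl : d l = 1 := Abelianization.commutator_subset_ker d hK.ab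
  refine ⟨MonoidHom.mk' (fun x => σ x * z ^ (d x).toAdd) fun x y => ?_, ?_, ?_, ?_⟩
  · rw [map_mul, map_mul, toAdd_mul, zpow_add, mul_assoc, mul_assoc, ← mul_assoc (σ y),
      (hc (σ y) _).eq, mul_assoc]
  · ext x
    simp [(hker z).2 (Or.inr rfl)]
  · simp [hd]
  · simp [hl]

/-- a set of homomorphisms which is closed under the change of the lift covers its image twice -/
theorem card_two (hK : KG m l) (P : G → G → Prop) (hP : ∀ a b, P a b → P (a * z) b) :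
    Nat.card {σ : Γ →* G // P (σ m) (σ l)} =
      2 * Nat.card {ρ : Γ →* Q // ∃ σ : Γ →* G, P (σ m) (σ l) ∧ pr.comp σ = ρ} := by
  choose tw h1 h2 h3 using exists_tw hz hker hK
  have hs : ∀ ρ : {ρ : Γ →* Q // ∃ σ : Γ →* G, P (σ m) (σ l) ∧ pr.comp σ = ρ},
      ∃ σ : Γ →* G, P (σ m) (σ l) ∧ pr.comp σ = ρ.1 := fun ρ => ρ.2
  choose s hs1 hs2 using hs
  let F : Bool × {ρ : Γ →* Q // ∃ σ : Γ →* G, P (σ m) (σ l) ∧ pr.comp σ = ρ} →
      {σ : Γ →* G // P (σ m) (σ l)} := fun x =>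
    if x.1 then ⟨s x.2, hs1 _⟩ else ⟨tw (s x.2), by rw [h2, h3]; exact hP _ _ (hs1 _)⟩
  have hF : ∀ x, pr.comp (F x).1 = x.2.1 := by
    rintro ⟨_ | _, ρ⟩
    · exact (h1 _).trans (hs2 ρ)
    · exact hs2 ρ
  have hne : ∀ σ, tw σ ≠ σ := fun σ h => hz (by simpa [h] using h2 σ)
  have hb : Function.Bijective F := by
    constructor
    · rintro ⟨b, ρ⟩ ⟨b', ρ'⟩ h
      obtain rfl : ρ = ρ' := Subtype.ext (by rw [← hF (b, ρ), ← hF (b', ρ'), h])
      have h4 := congrArg Subtype.val h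
      rcases b with _ | _ <;> rcases b' with _ | _
      · rfl
      · exact absurd h4 (hne _)
      · exact absurd h4.symm (hne _)
      · rfl
    · rintro ⟨σ, hσ⟩
      let ρ : {ρ : Γ →* Q // ∃ σ : Γ →* G, P (σ m) (σ l) ∧ pr.comp σ = ρ} := ⟨_, σ, hσ, rfl⟩
      have h4 : pr.comp σ = pr.comp (s ρ) := (hs2 ρ).symm
      rcases fib hker (DFunLike.congr_fun h4 m : pr (σ m) = pr (s ρ m)) with h | h
      · exact ⟨(true, ρ), Subtype.ext (lift_ext hz hker hK h4 h).symm⟩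
      · exact ⟨(false, ρ), Subtype.ext
          (lift_ext hz hker hK (h4.trans (h1 _).symm) (h.trans (h2 _).symm)).symm⟩
  rw [← Nat.card_eq_of_bijective F hb, Nat.card_prod, Nat.card_eq_fintype_card, Fintype.card_bool]

end

theorem free_dvd {Q : Type} [Group Q] (P : (Γ →* Q) → Prop)
    (hP : ∀ y ρ, P ρ → P ((MulAut.conj y).toMonoidHom.comp ρ))
    (hf : ∀ ρ, P ρ → ∀ y, (∀ x, Commute y (ρ x)) → y = 1) :
    Nat.card Q ∣ Nat.card {ρ // P ρ} := by
  let _ : MulAction Q {ρ // P ρ} :=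
    { smul := fun y ρ => ⟨_, hP y ρ.1 ρ.2⟩
      one_smul := fun ρ => Subtype.ext (by
        ext x
        change (1 : Q) * ρ.1 x * 1⁻¹ = ρ.1 x
        simp)
      mul_smul := fun y y' ρ => Subtype.ext (by
        ext x
        change y * y' * ρ.1 x * (y * y')⁻¹ = y * (y' * ρ.1 x * y'⁻¹) * y⁻¹
        group) }
  have hst : ∀ ρ : {ρ // P ρ}, MulAction.stabilizer Q ρ = ⊥ := by
    intro ρ
    rw [Subgroup.eq_bot_iff_forall]
    intro y hy
    refine hf ρ.1 ρ.2 y fun x => ?_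
    have h : y * ρ.1 x * y⁻¹ = ρ.1 x := DFunLike.congr_fun (congrArg Subtype.val hy) x
    exact mul_inv_eq_iff_eq_mul.1 h
  rw [Nat.card_congr (MulAction.selfEquivOrbitsQuotientProd hst), Nat.card_prod]
  exact Dvd.intro_left _ rfl

end K1

open K1 in
/-- `pr : G → Q` is a double cover with kernel `{1, z}`, `N` a normal subgroup of `Q`. -/
theorem parity_abs (hK : KG m l) {G Q : Type} [Group G] [Group Q] [Finite G] (pr : G →* Q)
    (hs : Function.Surjective pr) {z : G} (hz : z ≠ 1) (hker : ∀ g, pr g = 1 ↔ g = 1 ∨ g = z)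
    (N : Subgroup Q) [N.Normal]
    (hcount : ∀ (H : Type) [Group H] [Finite H],
      Nat.card {f : Γ →* H // f m ^ (2 : ℤ) * f l = 1} =
        Nat.card {f : Γ →* H // f m ^ (-2 : ℤ) * f l = 1})
    (hfour : ∀ ρ : Γ →* Q, ρ m ∉ N → (ρ l = ρ m ^ 2 ∨ ρ l = (ρ m ^ 2)⁻¹) → ρ m ^ 4 = 1)
    (hfree : ∀ ρ : Γ →* Q, ρ m ∉ N → ρ l = ρ m ^ 2 → (∃ g, pr g = ρ m ∧ g ^ 4 = z) →
      ∀ y, (∀ x, Commute y (ρ x)) → y = 1) :
    2 * Nat.card Q ∣
      Nat.card {ρ : Γ →* Q // ρ m ∉ N ∧ ρ l = ρ m ^ 2 ∧ ∃ g, pr g = ρ m ∧ g ^ 4 = z} := by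
  have hfG := hK.fin G
  have : Finite Q := Finite.of_surjective pr hs
  have hfQ := hK.fin Q
  have hz1 : pr z = 1 := (hker z).2 (Or.inr rfl)
  have hzz := z_sq hz hker
  have e2 : ∀ a b : G, a ^ (2 : ℤ) * b = 1 ↔ b = (a ^ 2)⁻¹ := fun a b => by
    rw [zpow_ofNat, eq_inv_iff_mul_eq_one, mul_eq_one_comm]
  have e2' : ∀ a b : G, a ^ (-2 : ℤ) * b = 1 ↔ b = a ^ 2 := fun a b => by
    rw [zpow_neg, zpow_ofNat, inv_mul_eq_one, eq_comm]
  have e4 : ∀ a : G, a ^ 4 = a ^ 2 * a ^ 2 := fun a => by rw [← pow_add]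
  have h4 : ∀ σ : Γ →* G, pr (σ m) ∉ N → (σ l = σ m ^ 2 ∨ σ l = (σ m ^ 2)⁻¹) →
      (¬ σ m ^ 4 = 1 ↔ σ m ^ 4 = z) := by
    intro σ h1 h2
    have h3 := hfour (pr.comp σ) h1 (by
      rcases h2 with h | h
      · exact Or.inl (by simp [h])
      · exact Or.inr (by simp [h]))
    have h5 := (hker (σ m ^ 4)).1 (by rw [map_pow]; exact h3)
    exact ⟨fun h => h5.resolve_left h, fun h h' => hz (h.symm.trans h')⟩
  -- the homomorphisms which do not send the meridian into `N`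
  have hT : Nat.card {f : Γ →* G // f m ^ (2 : ℤ) * f l = 1 ∧ ¬ f m ∈ N.comap pr} =
      Nat.card {f : Γ →* G // f m ^ (-2 : ℤ) * f l = 1 ∧ ¬ f m ∈ N.comap pr} := by
    have h1 := hcount G
    rw [card_split _ (fun f : Γ →* G => f m ∈ N.comap pr),
      card_split (fun f : Γ →* G => f m ^ (-2 : ℤ) * f l = 1) (fun f => f m ∈ N.comap pr),
      card_in hK, card_in hK, hcount] at h1
    exact Nat.add_left_cancel h1
  let P : G → G → G → Prop := fun e a b => pr a ∉ N ∧ a ^ 4 = z ∧ b = a ^ 2 * e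
  have hP : ∀ e a b, P e a b → P e (a * z) b := fun e a b h =>
    ⟨by rw [map_mul, hz1, mul_one]; exact h.1, by rw [four_z hz hker]; exact h.2.1,
      by rw [sq_z hz hker]; exact h.2.2⟩
  have hU : Nat.card {σ : Γ →* G // P z (σ m) (σ l)} =
      Nat.card {σ : Γ →* G // P 1 (σ m) (σ l)} := by
    rw [card_split _ (fun f : Γ →* G => f m ^ 4 = 1),
      card_split (fun f : Γ →* G => f m ^ (-2 : ℤ) * f l = 1 ∧ ¬ f m ∈ N.comap pr)
        (fun f => f m ^ 4 = 1)] at hT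
    have h1 : Nat.card {f : Γ →* G // (f m ^ (2 : ℤ) * f l = 1 ∧ ¬ f m ∈ N.comap pr) ∧
        f m ^ 4 = 1} = Nat.card {f : Γ →* G // (f m ^ (-2 : ℤ) * f l = 1 ∧
          ¬ f m ∈ N.comap pr) ∧ f m ^ 4 = 1} := by
      refine card_iff fun f => and_congr_left fun h => and_congr_left fun _ => ?_
      rw [e2, e2', inv_eq_of_mul_eq_one_right ((e4 _).symm.trans h)]
    rw [h1] at hT
    refine Eq.trans (card_iff fun f => ?_) ((Nat.add_left_cancel hT).trans (card_iff fun f => ?_))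
    · have h2 : f m ^ 4 = z → (f m ^ 2)⁻¹ = f m ^ 2 * z := fun h =>
        inv_eq_of_mul_eq_one_right (by rw [← mul_assoc, ← e4, h, hzz])
      rw [e2]
      refine ⟨fun h => ?_, fun h => ?_⟩
      · have h3 : f l = (f m ^ 2)⁻¹ := h.2.2.trans (h2 h.2.1).symm
        exact ⟨⟨h3, h.1⟩, (h4 f h.1 (Or.inr h3)).2 h.2.1⟩
      · have h3 := (h4 f h.1.2 (Or.inr h.1.1)).1 h.2
        exact ⟨h.1.2, h3, h.1.1.trans (h2 h3)⟩
    · rw [e2']
      refine ⟨fun h => ⟨h.1.2, (h4 f h.1.2 (Or.inl h.1.1)).1 h.2, by rw [mul_one]; exact h.1.1⟩,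
        fun h => ?_⟩
      have h3 : f l = f m ^ 2 := h.2.2.trans (mul_one _)
      exact ⟨⟨h3, h.1⟩, (h4 f h.1 (Or.inl h3)).2 h.2.1⟩
  rw [card_two hz hker hK _ (hP z), card_two hz hker hK _ (hP 1)] at hU
  have hA := Nat.eq_of_mul_eq_mul_left two_pos hU
  have hin : ∀ e, pr e = 1 → ∀ ρ : Γ →* Q, (∃ σ : Γ →* G, P e (σ m) (σ l) ∧ pr.comp σ = ρ) →
      ρ m ∉ N ∧ ρ l = ρ m ^ 2 ∧ ∃ g, pr g = ρ m ∧ g ^ 4 = z := by
    rintro e he _ ⟨σ, h, rfl⟩
    exact ⟨h.1, by simp [h.2.2, he], σ m, rfl, h.2.1⟩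
  have hcen : pr.ker ≤ Subgroup.center G := fun g hg => Subgroup.mem_center_iff.2 fun a => by
    rcases (hker g).1 hg with rfl | rfl
    · simp
    · exact z_comm hz hker a
  rw [card_split _ (fun ρ : Γ →* Q => ∃ σ : Γ →* G, P 1 (σ m) (σ l) ∧ pr.comp σ = ρ),
    card_iff fun ρ => and_iff_right_of_imp (hin 1 (map_one pr) ρ),
    card_iff (p := fun ρ : Γ →* Q => (ρ m ∉ N ∧ ρ l = ρ m ^ 2 ∧ ∃ g, pr g = ρ m ∧ g ^ 4 = z) ∧
      ¬ ∃ σ : Γ →* G, P 1 (σ m) (σ l) ∧ pr.comp σ = ρ)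
      (q := fun ρ : Γ →* Q => ∃ σ : Γ →* G, P z (σ m) (σ l) ∧ pr.comp σ = ρ) ?_, hA,
    ← two_mul]
  · refine mul_dvd_mul_left 2 (free_dvd _ ?_ fun ρ h => ?_)
    · rintro y _ ⟨σ, h, rfl⟩
      obtain ⟨g, rfl⟩ := hs y
      refine ⟨(MulAut.conj g).toMonoidHom.comp σ, ⟨fun h1 => h.1 ?_, ?_, ?_⟩, ?_⟩
      · have h2 : pr g * pr (σ m) * (pr g)⁻¹ ∈ N := by simpa using h1
        simpa [mul_assoc] using Subgroup.Normal.conj_mem ‹_› _ h2 (pr g)⁻¹
      · change (g * σ m * g⁻¹) ^ 4 = z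
        rw [conj_pow, h.2.1, z_comm hz hker, mul_inv_cancel_right]
      · change g * σ l * g⁻¹ = (g * σ m * g⁻¹) ^ 2 * 1
        rw [conj_pow, h.2.2, mul_one, mul_one]
      · ext x
        simp
    · obtain ⟨h1, h2, h3⟩ := hin 1 (map_one pr) ρ h
      exact hfree ρ h1 h2 h3
  · intro ρ
    refine ⟨fun ⟨⟨h1, h2, g, h3, h5⟩, h6⟩ => ?_, fun h => ⟨hin z hz1 ρ h, ?_⟩⟩
    · obtain ⟨σ, rfl⟩ := hK.lift G Q pr hs hcen ρ
      have h7 : σ m ^ 4 = z := by
        rcases fib hker (h3.symm : pr (σ m) = pr g) with h | h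
        · rw [h, h5]
        · rw [h, four_z hz hker, h5]
      rcases fib hker (show pr (σ l) = pr (σ m ^ 2) by rw [map_pow]; exact h2) with h | h
      · exact absurd ⟨σ, ⟨h1, h7, by rw [mul_one]; exact h⟩, rfl⟩ h6
      · exact ⟨σ, ⟨h1, h7, h⟩, rfl⟩
    · rintro ⟨τ, h1, h2⟩
      obtain ⟨σ, h3, rfl⟩ := h
      obtain ⟨σ', h5, h6, h7⟩ := exists_tw hz hker hK σ
      have h8 : τ l = τ m ^ 2 * z := by
        rcases fib hker (DFunLike.congr_fun h2 m : pr (τ m) = pr (σ m)) with h | h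
        · rw [lift_ext hz hker hK h2 h]
          exact h3.2.2
        · rw [lift_ext hz hker hK (h2.trans h5.symm) (h.trans h6.symm), h7, h6, sq_z hz hker]
          exact h3.2.2
      exact hz (mul_left_cancel (h8.symm.trans h1.2.2))

end Vale.Agent.N258B
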