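import Vale.Agent.N258B.K1

/-! The parity obstruction, with a group of automorphisms. -/

namespace Vale.Agent.N258B

variable {Γ : Type} [Group Γ] {m l : Γ}

theorem K1.aut_dvd {Q : Type} [Group Q] (A : Subgroup (MulAut Q)) (P : (Γ →* Q) → Prop)
    (hP : ∀ a ∈ A, ∀ ρ, P ρ → P (a.toMonoidHom.comp ρ))
    (hf : ∀ ρ, P ρ → ∀ a ∈ A, (∀ x, a (ρ x) = ρ x) → a = 1) :
    Nat.card A ∣ Nat.card {ρ // P ρ} := by
  let _ : MulAction A {ρ // P ρ} :=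
    { smul := fun a ρ => ⟨_, hP a.1 a.2 ρ.1 ρ.2⟩
      one_smul := fun ρ => rfl
      mul_smul := fun a a' ρ => rfl }
  have hst : ∀ ρ : {ρ // P ρ}, MulAction.stabilizer A ρ = ⊥ := by
    intro ρ
    rw [Subgroup.eq_bot_iff_forall]
    intro a ha
    exact Subtype.ext (hf ρ.1 ρ.2 a.1 a.2 fun x => DFunLike.congr_fun (congrArg Subtype.val ha) x)
  rw [Nat.card_congr (MulAction.selfEquivOrbitsQuotientProd hst), Nat.card_prod]
  exact Dvd.intro_left _ rfl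

open K1 in
/-- `pr : G → Q` is a double cover with kernel `{1, z}`, `N` a normal subgroup of `Q`. -/
theorem parity_aut (hK : KG m l) {G Q : Type} [Group G] [Group Q] [Finite G] (pr : G →* Q)
    (hs : Function.Surjective pr) {z : G} (hz : z ≠ 1) (hker : ∀ g, pr g = 1 ↔ g = 1 ∨ g = z)
    (N : Subgroup Q) [N.Normal] (A : Subgroup (MulAut Q))
    (hA1 : ∀ a ∈ A, ∃ φ : G →* G, φ z = z ∧ ∀ g, pr (φ g) = a (pr g))
    (hA2 : ∀ a ∈ A, ∀ y ∈ N, a y ∈ N)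
    (hcount : ∀ (H : Type) [Group H] [Finite H],
      Nat.card {f : Γ →* H // f m ^ (2 : ℤ) * f l = 1} =
        Nat.card {f : Γ →* H // f m ^ (-2 : ℤ) * f l = 1})
    (hfour : ∀ ρ : Γ →* Q, ρ m ∉ N → (ρ l = ρ m ^ 2 ∨ ρ l = (ρ m ^ 2)⁻¹) → ρ m ^ 4 = 1)
    (hfree : ∀ ρ : Γ →* Q, ρ m ∉ N → ρ l = ρ m ^ 2 → (∃ g, pr g = ρ m ∧ g ^ 4 = z) →
      ∀ a ∈ A, (∀ x, a (ρ x) = ρ x) → a = 1) :
    2 * Nat.card A ∣
      Nat.card {ρ : Γ →* Q // ρ m ∉ N ∧ ρ l = ρ m ^ 2 ∧ ∃ g, pr g = ρ m ∧ g ^ 4 = z} := by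
  have hfG := hK.fin G
  have : Finite Q := Finite.of_surjective pr hs
  have hfQ := hK.fin Q
  have hz1 : pr z = 1 := (hker z).2 (Or.inr rfl)
  have hzz := z_sq hz hker
  have e2 : ∀ a b : G, a ^ (2 : ℤ) * b = 1 ↔ b = (a ^ 2)⁻¹ := fun a b => by
    rw [zpow_ofNat, eq_inv_iff_mul_eq_one, mul_eq_one_comm]
  have e2' : ∀ a b : G, a ^ (-2 : ℤ) * b = 1 ↔ b = a ^ 2 := fun a b => by
    rw [zpow_neg, zpow_ofNat, inv_mul_eq_one, eq_comm]
  have e4 : ∀ a : G, a ^ 4 = a ^ 2 * a ^ 2 := fun a => by rw [← pow_add]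
  have h4 : ∀ σ : Γ →* G, pr (σ m) ∉ N → (σ l = σ m ^ 2 ∨ σ l = (σ m ^ 2)⁻¹) →
      (¬ σ m ^ 4 = 1 ↔ σ m ^ 4 = z) := by
    intro σ h1 h2
    have h3 := hfour (pr.comp σ) h1 (by
      rcases h2 with h | h
      · exact Or.inl (by simp [h])
      · exact Or.inr (by simp [h]))
    have h5 := (hker (σ m ^ 4)).1 (by rw [map_pow]; exact h3)
    exact ⟨fun h => h5.resolve_left h, fun h h' => hz (h.symm.trans h')⟩
  -- the homomorphisms which do not send the meridian into `N`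
  have hT : Nat.card {f : Γ →* G // f m ^ (2 : ℤ) * f l = 1 ∧ ¬ f m ∈ N.comap pr} =
      Nat.card {f : Γ →* G // f m ^ (-2 : ℤ) * f l = 1 ∧ ¬ f m ∈ N.comap pr} := by
    have h1 := hcount G
    rw [card_split _ (fun f : Γ →* G => f m ∈ N.comap pr),
      card_split (fun f : Γ →* G => f m ^ (-2 : ℤ) * f l = 1) (fun f => f m ∈ N.comap pr),
      card_in hK, card_in hK, hcount] at h1
    exact Nat.add_left_cancel h1
  let P : G → G → G → Prop := fun e a b => pr a ∉ N ∧ a ^ 4 = z ∧ b = a ^ 2 * e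
  have hP : ∀ e a b, P e a b → P e (a * z) b := fun e a b h =>
    ⟨by rw [map_mul, hz1, mul_one]; exact h.1, by rw [four_z hz hker]; exact h.2.1,
      by rw [sq_z hz hker]; exact h.2.2⟩
  have hU : Nat.card {σ : Γ →* G // P z (σ m) (σ l)} =
      Nat.card {σ : Γ →* G // P 1 (σ m) (σ l)} := by
    rw [card_split _ (fun f : Γ →* G => f m ^ 4 = 1),
      card_split (fun f : Γ →* G => f m ^ (-2 : ℤ) * f l = 1 ∧ ¬ f m ∈ N.comap pr)
        (fun f => f m ^ 4 = 1)] at hT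
    have h1 : Nat.card {f : Γ →* G // (f m ^ (2 : ℤ) * f l = 1 ∧ ¬ f m ∈ N.comap pr) ∧
        f m ^ 4 = 1} = Nat.card {f : Γ →* G // (f m ^ (-2 : ℤ) * f l = 1 ∧
          ¬ f m ∈ N.comap pr) ∧ f m ^ 4 = 1} := by
      refine card_iff fun f => and_congr_left fun h => and_congr_left fun _ => ?_
      rw [e2, e2', inv_eq_of_mul_eq_one_right ((e4 _).symm.trans h)]
    rw [h1] at hT
    refine Eq.trans (card_iff fun f => ?_) ((Nat.add_left_cancel hT).trans (card_iff fun f => ?_))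
    · have h2 : f m ^ 4 = z → (f m ^ 2)⁻¹ = f m ^ 2 * z := fun h =>
        inv_eq_of_mul_eq_one_right (by rw [← mul_assoc, ← e4, h, hzz])
      rw [e2]
      refine ⟨fun h => ?_, fun h => ?_⟩
      · have h3 : f l = (f m ^ 2)⁻¹ := h.2.2.trans (h2 h.2.1).symm
        exact ⟨⟨h3, h.1⟩, (h4 f h.1 (Or.inr h3)).2 h.2.1⟩
      · have h3 := (h4 f h.1.2 (Or.inr h.1.1)).1 h.2
        exact ⟨h.1.2, h3, h.1.1.trans (h2 h3)⟩
    · rw [e2']
      refine ⟨fun h => ⟨h.1.2, (h4 f h.1.2 (Or.inl h.1.1)).1 h.2, by rw [mul_one]; exact h.1.1⟩,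
        fun h => ?_⟩
      have h3 : f l = f m ^ 2 := h.2.2.trans (mul_one _)
      exact ⟨⟨h3, h.1⟩, (h4 f h.1 (Or.inl h3)).2 h.2.1⟩
  rw [card_two hz hker hK _ (hP z), card_two hz hker hK _ (hP 1)] at hU
  have hA := Nat.eq_of_mul_eq_mul_left two_pos hU
  have hin : ∀ e, pr e = 1 → ∀ ρ : Γ →* Q, (∃ σ : Γ →* G, P e (σ m) (σ l) ∧ pr.comp σ = ρ) →
      ρ m ∉ N ∧ ρ l = ρ m ^ 2 ∧ ∃ g, pr g = ρ m ∧ g ^ 4 = z := by
    rintro e he _ ⟨σ, h, rfl⟩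
    exact ⟨h.1, by simp [h.2.2, he], σ m, rfl, h.2.1⟩
  have hcen : pr.ker ≤ Subgroup.center G := fun g hg => Subgroup.mem_center_iff.2 fun a => by
    rcases (hker g).1 hg with rfl | rfl
    · simp
    · exact z_comm hz hker a
  rw [card_split _ (fun ρ : Γ →* Q => ∃ σ : Γ →* G, P 1 (σ m) (σ l) ∧ pr.comp σ = ρ),
    card_iff fun ρ => and_iff_right_of_imp (hin 1 (map_one pr) ρ),
    card_iff (p := fun ρ : Γ →* Q => (ρ m ∉ N ∧ ρ l = ρ m ^ 2 ∧ ∃ g, pr g = ρ m ∧ g ^ 4 = z) ∧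
      ¬ ∃ σ : Γ →* G, P 1 (σ m) (σ l) ∧ pr.comp σ = ρ)
      (q := fun ρ : Γ →* Q => ∃ σ : Γ →* G, P z (σ m) (σ l) ∧ pr.comp σ = ρ) ?_, hA,
    ← two_mul]
  · refine mul_dvd_mul_left 2 (aut_dvd A _ ?_ fun ρ h => ?_)
    · rintro a ha _ ⟨σ, h, rfl⟩
      obtain ⟨φ, h1, h2⟩ := hA1 a ha
      refine ⟨φ.comp σ, ⟨fun h3 => h.1 ?_, ?_, ?_⟩, ?_⟩
      · have h4 := hA2 _ (A.inv_mem ha) _ h3
        rwa [MonoidHom.comp_apply, h2, MulAut.inv_apply_self] at h4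
      · rw [MonoidHom.comp_apply, ← map_pow, h.2.1, h1]
      · rw [MonoidHom.comp_apply, MonoidHom.comp_apply, h.2.2, mul_one, mul_one, map_pow]
      · ext x
        exact h2 _
    · obtain ⟨h1, h2, h3⟩ := hin 1 (map_one pr) ρ h
      exact hfree ρ h1 h2 h3
  · intro ρ
    refine ⟨fun ⟨⟨h1, h2, g, h3, h5⟩, h6⟩ => ?_, fun h => ⟨hin z hz1 ρ h, ?_⟩⟩
    · obtain ⟨σ, rfl⟩ := hK.lift G Q pr hs hcen ρ
      have h7 : σ m ^ 4 = z := by
        rcases fib hker (h3.symm : pr (σ m) = pr g) with h | h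
        · rw [h, h5]
        · rw [h, four_z hz hker, h5]
      rcases fib hker (show pr (σ l) = pr (σ m ^ 2) by rw [map_pow]; exact h2) with h | h
      · exact absurd ⟨σ, ⟨h1, h7, by rw [mul_one]; exact h⟩, rfl⟩ h6
      · exact ⟨σ, ⟨h1, h7, h⟩, rfl⟩
    · rintro ⟨τ, h1, h2⟩
      obtain ⟨σ, h3, rfl⟩ := h
      obtain ⟨σ', h5, h6, h7⟩ := exists_tw hz hker hK σ
      have h8 : τ l = τ m ^ 2 * z := by
        rcases fib hker (DFunLike.congr_fun h2 m : pr (τ m) = pr (σ m)) with h | h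
        · rw [lift_ext hz hker hK h2 h]
          exact h3.2.2
        · rw [lift_ext hz hker hK (h2.trans h5.symm) (h.trans h6.symm), h7, h6, sq_z hz hker]
          exact h3.2.2
      exact hz (mul_left_cancel (h8.symm.trans h1.2.2))

end Vale.Agent.N258B
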