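import Vale.Agent.N258B.K1
import Vale.Agent.P258.R2.H49.Cover5
import Vale.Agent.P258.R2.H315.Cent5

/-! Block K2: the symmetric group on five letters. -/

namespace Vale.Agent.N258B

open Set Filter Topology
open Vale.Agent.P258.R2.H863

variable {Γ : Type} [Group Γ] {m l : Γ}

theorem odd_five : ∀ x : Equiv.Perm (Fin 5), Equiv.Perm.sign x ≠ 1 →
    x ^ 4 = 1 ∨ (x ^ 6 = 1 ∧ ∀ k : Fin 6, 0 < k.1 → x ^ k.1 ≠ 1) := by
  decide +kernel

theorem is45_iff (x : Equiv.Perm (Fin 5)) : Is45 x ↔ orderOf x = 4 := by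
  constructor
  · rintro ⟨h4, h2⟩
    have : Fact (Nat.Prime 2) := ⟨Nat.prime_two⟩
    exact orderOf_eq_prime_pow (p := 2) (n := 1) (by simpa using h2) (by simpa using h4)
  · intro h
    refine ⟨by rw [← h]; exact pow_orderOf_eq_one x, ?_⟩
    exact pow_ne_one_of_lt_orderOf (by norm_num) (by rw [h]; norm_num)

/-- If all conjugates of the meridian go to its image or the inverse, the longitude is killed. -/
theorem lon_one_of_conj {Q : Type} [Group Q] (hK : KG m l) (ρ : Γ →* Q)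
    (h : ∀ x, ρ x * ρ m * (ρ x)⁻¹ = ρ m ∨ ρ x * ρ m * (ρ x)⁻¹ = (ρ m)⁻¹) : ρ l = 1 := by
  have hn : ((Subgroup.zpowers (ρ m)).comap ρ).Normal := by
    refine ⟨fun g hg x => ?_⟩
    obtain ⟨k, hk⟩ := Subgroup.mem_zpowers_iff.1 (Subgroup.mem_comap.1 hg)
    rw [Subgroup.mem_comap, map_mul, map_mul, map_inv, ← hk, ← conj_zpow]
    refine Subgroup.zpow_mem _ ?_ k
    rcases h x with e | e <;> rw [e]
    · exact Subgroup.mem_zpowers _
    · exact Subgroup.inv_mem _ (Subgroup.mem_zpowers _)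
  have hle : Subgroup.normalClosure {m} ≤ (Subgroup.zpowers (ρ m)).comap ρ := by
    refine Subgroup.normalClosure_le_normal ?_
    rintro _ rfl
    exact Subgroup.mem_comap.2 (Subgroup.mem_zpowers _)
  rw [hK.gen] at hle
  have hc : commutator Γ ≤ ρ.ker := by
    rw [commutator_def, Subgroup.commutator_le]
    intro a _ b _
    obtain ⟨i, hi⟩ := Subgroup.mem_zpowers_iff.1 (Subgroup.mem_comap.1 (hle (Subgroup.mem_top a)))
    obtain ⟨j, hj⟩ := Subgroup.mem_zpowers_iff.1 (Subgroup.mem_comap.1 (hle (Subgroup.mem_top b)))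
    rw [MonoidHom.mem_ker, map_commutatorElement, commutatorElement_eq_one_iff_commute, ← hi, ← hj]
    exact Commute.zpow_zpow_self _ i j
  exact hc hK.ab

theorem parity_five (hK : KG m l)
    (hcount : ∀ (H : Type) [Group H] [Finite H],
      Nat.card {f : Γ →* H // f m ^ (2 : ℤ) * f l = 1} =
        Nat.card {f : Γ →* H // f m ^ (-2 : ℤ) * f l = 1})
    (hsix : ∀ ρ : Γ →* Equiv.Perm (Fin 5), orderOf (ρ m) = 6 →
      ρ l ≠ ρ m ^ 2 ∧ ρ l ≠ (ρ m ^ 2)⁻¹) :
    240 ∣ Nat.card {ρ : Γ →* Equiv.Perm (Fin 5) // orderOf (ρ m) = 4 ∧ ρ l = ρ m ^ 2} := by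
  obtain ⟨G, _, _, ⟨c⟩⟩ := Vale.Agent.P258.R2.H49.S5.exists_cover5
  have hker : ∀ g, c.pr g = 1 ↔ g = 1 ∨ g = c.z := by
    intro g
    constructor
    · intro hg
      have := c.pr_inj 1 g (by rw [map_one, hg])
      rwa [one_mul] at this
    · rintro (rfl | rfl)
      · exact map_one _
      · exact c.pr_z
  have hlift : ∀ x : Equiv.Perm (Fin 5), (∃ g, c.pr g = x ∧ g ^ 4 = c.z) ↔ Is45 x := by
    intro x
    constructor
    · rintro ⟨g, rfl, hg⟩
      exact (c.four g).1 hg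
    · intro hx
      obtain ⟨g, rfl⟩ := c.pr_surj x
      exact ⟨g, rfl, (c.four g).2 hx⟩
  have hodd : ∀ x : Equiv.Perm (Fin 5), Is45 x → Equiv.Perm.sign x ≠ 1 := by
    intro x hx
    obtain ⟨g, rfl, hg⟩ := (hlift x).2 hx
    rw [c.det_pr]
    exact c.det_of_four g hg
  have h := parity_abs hK c.pr c.pr_surj c.z_ne hker
    (Equiv.Perm.sign : Equiv.Perm (Fin 5) →* ℤˣ).ker hcount ?_ ?_
  · have e : Nat.card (Equiv.Perm (Fin 5)) = 120 := by
      rw [Nat.card_eq_fintype_card, Fintype.card_perm, Fintype.card_fin]; rfl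
    rw [e] at h
    have e2 : Nat.card {ρ : Γ →* Equiv.Perm (Fin 5) // orderOf (ρ m) = 4 ∧ ρ l = ρ m ^ 2} =
        Nat.card {ρ : Γ →* Equiv.Perm (Fin 5) //
          ρ m ∉ (Equiv.Perm.sign : Equiv.Perm (Fin 5) →* ℤˣ).ker ∧ ρ l = ρ m ^ 2 ∧
            ∃ g, c.pr g = ρ m ∧ g ^ 4 = c.z} := by
      refine Nat.card_congr (Equiv.subtypeEquivRight fun ρ => ?_)
      rw [hlift, ← is45_iff, MonoidHom.mem_ker]
      exact ⟨fun h => ⟨hodd _ h.1, h.2, h.1⟩, fun h => ⟨h.2.2, h.2.1⟩⟩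
    rw [e2]
    exact h
  · intro ρ hρ hl
    rcases odd_five (ρ m) hρ with h4 | ⟨h6, hk⟩
    · exact h4
    · have ho : orderOf (ρ m) = 6 :=
        (orderOf_eq_iff (by norm_num)).2 ⟨h6, fun k hk6 hk0 => hk ⟨k, hk6⟩ hk0⟩
      rcases hl with hl | hl
      · exact absurd hl (hsix ρ ho).1
      · exact absurd hl (hsix ρ ho).2
  · intro ρ _ hl hg y hy
    have h4 : Is45 (ρ m) := (hlift _).1 hg
    by_contra hy1
    refine h4.2 ?_
    rw [← hl]
    refine lon_one_of_conj hK ρ fun x => ?_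
    by_contra hx
    rw [not_or] at hx
    have hd : Is45 (ρ x * ρ m * (ρ x)⁻¹) := by
      rw [is45_iff] at h4 ⊢
      rw [← h4]
      exact (MulAut.conj (ρ x)).injective |> fun hi =>
        orderOf_injective (MulAut.conj (ρ x)).toMonoidHom hi (ρ m)
    refine hy1 (Vale.Agent.P258.R2.H315.cent5 (ρ m) _ y h4 hd hx.1 hx.2 (hy m).eq ?_)
    have := (hy (x * m * x⁻¹)).eq
    rwa [map_mul, map_mul, map_inv] at this

end Vale.Agent.N258B
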