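import Vale.Agent.N258B.A1
import Vale.Agent.N258B.Geo

/-! Block K3b: lifting of labellings to central extensions. -/

namespace Vale.Agent.N258B

open Set Filter Topology
open Vale.Agent.P258.Braid (Word)
open Vale.Agent.P002Z

variable {nb o : ℕ} {w : Word}

theorem K3b_half (q : ℕ) : mate q / 2 = q / 2 := by
  unfold mate; split_ifs <;> omega

theorem K3b_prod (ok : Ok nb o w) (h : per w = nb) {Z : Type} [CommGroup Z] (d : ℕ → Z) :
    ∏ k ∈ Finset.range nb, d (pos w w.length (walk w k) / 2) = ∏ j ∈ Finset.range nb, d j := by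
  refine Finset.prod_nbij (fun k => pos w w.length (walk w k) / 2) (fun k _ => ?_)
    (fun k hk l hl e => ?_) (fun j hj => ?_) fun _ _ => rfl
  · have := (ok.top_lt _).2 (walk_lt ok k)
    rw [Finset.mem_range]
    omega
  · have e' : pos w w.length (walk w l) = pos w w.length (walk w k) ∨
        pos w w.length (walk w l) = mate (pos w w.length (walk w k)) := by
      simp only at e
      unfold mate
      split_ifs <;> omega
    rcases e' with e' | e'
    · exact walk_inj (by rw [h]; simpa using hk) (by rw [h]; simpa using hl) (pos_inj w _ e').symm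
    · exact absurd (pos_inj w _ ((C_pos_down w _).trans e'.symm)) (down_ne_walk w k l)
  · have hj' : j < nb := by simpa using hj
    obtain ⟨i, hi, e⟩ := walk_cover ok h (p := lab w (2 * j))
      ((ok.top_lt _).1 (by rw [pos_lab]; omega))
    refine ⟨i, by simpa using hi, ?_⟩
    rcases e with e | e
    · simp only
      rw [← e, pos_lab]
      omega
    · simp only
      rw [← K3b_half, ← C_pos_down, ← e, pos_lab]
      omega

theorem K3b_col (ok : Ok nb o w) (h : per w = nb) {Z : Type} [CommGroup Z] (d : ℕ → Z)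
    (hd : ∏ j ∈ Finset.range nb, d j = 1) : ∃ col : ℕ → Z, ∀ p < 2 * nb,
      col p * col (mate p) = 1 ∧ col p * col (down w p) = d (pos w w.length p / 2) := by
  obtain ⟨u, u0, u1, u2⟩ : ∃ u : ℕ → Z, u 0 = 1 ∧ u nb = 1 ∧
      ∀ i, u i * (u (i + 1))⁻¹ = d (pos w w.length (walk w i) / 2) :=
    ⟨fun i => (∏ k ∈ Finset.range i, d (pos w w.length (walk w k) / 2))⁻¹, by simp,
      by simp only [K3b_prod ok h d, hd, inv_one],
      fun i => by simp only [Finset.prod_range_succ, inv_inv, inv_mul_cancel_left]⟩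
  have i1 : Function.Injective fun i : Fin nb => walk w i := fun i j e =>
    Fin.ext (walk_inj (h ▸ i.2) (h ▸ j.2) e)
  have i2 : Function.Injective fun i : Fin nb => down w (walk w i) := fun i j e =>
    i1 (by simpa only [down_down] using congrArg (down w) e)
  obtain ⟨col, c1, c2⟩ : ∃ col : ℕ → Z, (∀ i < nb, col (walk w i) = u i) ∧
      ∀ i < nb, col (down w (walk w i)) = (u (i + 1))⁻¹ := by
    refine ⟨fun p => Function.extend (fun i : Fin nb => walk w i) (fun i => u i) (fun _ => 1) p *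
      Function.extend (fun i : Fin nb => down w (walk w i)) (fun i => (u (i + 1))⁻¹)
        (fun _ => 1) p, fun i hi => ?_, fun i hi => ?_⟩
    · simp only
      rw [i1.extend_apply _ _ ⟨i, hi⟩, Function.extend_apply' _ _ _ (by
        rintro ⟨j, e⟩; exact down_ne_walk w j i e), mul_one]
    · simp only
      rw [i2.extend_apply _ _ ⟨i, hi⟩, Function.extend_apply' _ _ _ (by
        rintro ⟨j, e⟩; exact down_ne_walk w i j e.symm), one_mul]
  have c3 : ∀ i < nb, col (down w (walk w i)) * col (mate (down w (walk w i))) = 1 := by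
    intro i hi
    rw [c2 i hi, ← walk_succ]
    rcases (Nat.succ_le_of_lt hi).lt_or_eq with h1 | h1
    · rw [c1 _ h1, inv_mul_cancel]
    · have h2 : i + 1 = nb := h1
      have h3 : walk w nb = walk w 0 := by rw [← h, walk_per, walk_zero]
      rw [h2, h3, c1 0 ok.pos0, u0, u1, inv_one, mul_one]
  refine ⟨col, fun p hp => ?_⟩
  obtain ⟨i, hi, rfl | rfl⟩ := walk_cover ok h hp
  · refine ⟨?_, by rw [c1 i hi, c2 i hi, u2]⟩
    have h1 := walk_succ w (i + per w - 1)
    have h2 := per_pos ok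
    rw [show i + per w - 1 + 1 = i + per w by omega, ← walk_mod, Nat.add_mod_right,
      walk_mod, ← walk_mod w (i + per w - 1)] at h1
    rw [h1, mate_mate, mul_comm]
    exact c3 _ (h ▸ Nat.mod_lt _ h2)
  · exact ⟨c3 i hi, by rw [down_down, c1 i hi, c2 i hi, mul_comm, u2, C_pos_down, K3b_half]⟩

theorem K3b_solve (ok : Ok nb o w) (h : per w = nb) {Z : Type} [CommGroup Z] (T : ℕ → Z)
    (h0 : T 0 = 1) (h1 : T nb = 1) :
    ∃ a : ℕ → Z, ∀ j ≤ nb, a (2 * j) = 1 ∧ reg w a w.length (2 * j) = T j := by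
  obtain ⟨col, hcol⟩ := K3b_col ok h (fun j => T j / T (j + 1))
    (by rw [Finset.prod_range_div', h0, h1, div_one])
  have hm : ∀ j, mate (2 * j) = 2 * j + 1 := fun j => if_pos (by omega)
  obtain ⟨a, a0, hc⟩ : ∃ a : ℕ → Z, a 0 = 1 ∧ ∀ p < 2 * nb, (a (p + 1))⁻¹ * a p = col p :=
    ⟨Pc fun i : Fin (2 * nb) => col i, Pc_zero _,
      fun p hp => (A_Pc_col (fun i : Fin (2 * nb) => col i) ⟨p, hp⟩).symm⟩
  have hl : ∀ q < 2 * nb, lab w q < 2 * nb := fun q hq =>
    (ok.top_lt _).1 (by rw [pos_lab]; exact hq)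
  have hr : ∀ q < 2 * nb, (reg w a w.length (q + 1))⁻¹ * reg w a w.length q = col (lab w q) :=
    fun q hq => by
      have := A_comm w a (lab w q) w.length le_rfl
      rw [pos_lab] at this
      rw [this, hc _ (hl q hq)]
  refine ⟨a, fun j hj => ⟨A_even _ a0 nb (fun j hj => ?_) j hj, ?_⟩⟩
  · rw [hc _ (by omega), hc _ (by omega), ← hm]
    exact (hcol _ (by omega)).1
  · induction j with
    | zero => rw [h0, ← a0]; exact reg_left _ _ _
    | succ j ih =>
      have h2 := (hcol _ (hl (2 * j) (by omega))).2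
      rw [down, pos_lab, hm, ← hr _ (by omega), ← hr _ (by omega), ih (by omega),
        show 2 * j / 2 = j by omega, mul_comm, mul_assoc, mul_inv_cancel_left, div_eq_mul_inv,
        mul_comm] at h2
      exact inv_injective (mul_left_cancel h2)

theorem K3b_mul {G Z : Type} [Group G] [Group Z] (f : Z →* G)
    (hf : ∀ z, f z ∈ Subgroup.center G) (P : ℕ → G) (a : ℕ → Z) (k j : ℕ) :
    reg w (fun j => P j * f (a j)) k j = reg w P k j * f (reg w a k j) := by
  have h1 := reg_map (MonoidHom.mk' (fun x : G × Z => x.1 * f x.2) fun x y => by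
    simp only [Prod.fst_mul, Prod.snd_mul, map_mul, mul_assoc]
    rw [← mul_assoc y.1, Subgroup.mem_center_iff.1 (hf x.2) y.1, mul_assoc])
    w (fun j => (P j, a j)) k j
  have h2 := reg_map (MonoidHom.fst G Z) w (fun j => (P j, a j)) k j
  have h3 := reg_map (MonoidHom.snd G Z) w (fun j => (P j, a j)) k j
  exact h1.trans (congrArg₂ (fun g z => g * f z) h2.symm h3.symm)

theorem lift_lab (ok : Ok nb 0 w) (h : per w = nb) {G Q : Type} [Group G] [Group Q]
    (pr : G →* Q) (hs : Function.Surjective pr) (hk : pr.ker ≤ Subgroup.center G) {P : ℕ → Q}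
    (hP : Capd nb w P) : ∃ P' : ℕ → G, Capd nb w P' ∧ ∀ j ≤ 2 * nb, pr (P' j) = P j := by
  classical
  have hl : ∀ j, ∃ g, pr g = P j ∧ (P j = 1 → g = 1) := fun j => by
    by_cases e : P j = 1
    · exact ⟨1, by rw [map_one, e], fun _ => rfl⟩
    · exact (hs (P j)).imp fun g hg => ⟨hg, fun e' => absurd e' e⟩
  choose P₀ p1 p2 using hl
  have hR : ∀ j ≤ nb, reg w P₀ w.length (2 * j) ∈ pr.ker := fun j hj => by
    rw [MonoidHom.mem_ker, ← reg_map, funext p1]
    exact (hP j hj).2
  let _ : CommGroup pr.ker :=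
    CommGroup.mk fun a b => Subtype.ext (Subgroup.mem_center_iff.1 (hk b.2) a.1)
  obtain ⟨a, ha⟩ := K3b_solve ok h (Z := pr.ker)
    (fun j => if hj : j ≤ nb then (⟨_, hR j hj⟩ : pr.ker)⁻¹ else 1)
    (by
      rw [dif_pos (Nat.zero_le _), inv_eq_one]
      exact Subtype.ext ((reg_left _ _ _).trans (p2 _ (hP 0 (Nat.zero_le _)).1)))
    (by
      rw [dif_pos le_rfl, inv_eq_one]
      exact Subtype.ext ((reg_right ok.rng _ _).trans (p2 _ (hP nb le_rfl).1)))
  refine ⟨fun j => P₀ j * pr.ker.subtype (a j), fun j hj => ⟨?_, ?_⟩, fun j _ => ?_⟩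
  · simp only
    rw [(ha j hj).1, p2 _ (hP j hj).1, map_one, mul_one]
  · refine (K3b_mul pr.ker.subtype (fun z => hk z.2) P₀ a _ _).trans ?_
    have := (ha j hj).2
    rw [dif_pos hj] at this
    exact (congrArg (fun z : pr.ker => reg w P₀ w.length (2 * j) * z.1) this).trans
      (mul_inv_cancel _)
  · rw [map_mul, p1]
    exact (congrArg (P j * ·) (a j).2).trans (mul_one _)

end Vale.Agent.N258B
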