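import Vale.Agent.N258B.A1
import Vale.Agent.N258B.Geo

/-! Block K3a: a connected plat has one component. -/

namespace Vale.Agent.N258B

open Set Filter Topology
open Vale.Agent.P258.Braid (Word)
open Vale.Agent.P002Z

variable {nb o : ℕ} {w : Word}

theorem K3a_cap {q q' : ℕ} (hq : q < 2 * nb) (hq' : q' < 2 * nb) {s : ℝ} (hs : 0 ≤ s)
    (h : cap nb q s = cap nb q' s) : q' = q ∨ q' = mate q := by
  have h1 := congrArg Complex.re h
  rw [GeoA_cap_re_lt hq, GeoA_cap_re_lt hq'] at h1
  have h2 : 0 ≤ min s 1 := le_min hs zero_le_one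
  have h3 : min s 1 ≤ 1 := min_le_right _ _
  unfold mate
  rcases Nat.even_or_odd q with e | e <;> rcases Nat.even_or_odd q' with e' | e' <;>
    rw [e.neg_one_pow, e'.neg_one_pow] at h1
  · exact Or.inl (Nat.cast_injective (R := ℝ) (by linarith))
  · have a1 : q ≤ q' := Nat.cast_le (α := ℝ).1 (by linarith)
    have a2 : q' ≤ q + 1 := Nat.cast_le (α := ℝ).1 (by push_cast; linarith)
    rw [if_pos (Nat.even_iff.1 e)]
    omega
  · have a1 : q' ≤ q := Nat.cast_le (α := ℝ).1 (by linarith)
    have a2 : q ≤ q' + 1 := Nat.cast_le (α := ℝ).1 (by push_cast; linarith)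
    have := Nat.odd_iff.1 e
    rw [if_neg (by omega)]
    omega
  · exact Or.inl (Nat.cast_injective (R := ℝ) (by linarith))

theorem K3a_meet (ok : Ok nb o w) {p q : ℕ} (hp : p < 2 * nb) (hq : q < 2 * nb) {t : ℝ}
    (h : strand nb w p t = strand nb w q t) : q = p ∨ q = mate p ∨ q = down w p := by
  rcases le_total t 0 with h0 | h0
  · rw [strand_bot nb w p h0, strand_bot nb w q h0] at h
    exact (K3a_cap hp hq (by linarith) h).imp_right Or.inl
  rcases le_total (w.length : ℝ) t with h1 | h1
  · rw [strand_top p h1, strand_top q h1] at h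
    rcases K3a_cap ((ok.top_lt p).2 hp) ((ok.top_lt q).2 hq) (by linarith) h with e | e
    · exact Or.inl (pos_inj w _ e)
    · exact Or.inr (Or.inr (pos_inj w _ (e.trans (C_pos_down w p).symm)))
  by_contra hne
  have := strand_sep ok (p := p) (q := q) (fun e => hne (Or.inl e.symm)) (t := t)
    (Or.inr ⟨by linarith, by linarith⟩)
  rw [h, sub_self, norm_zero] at this
  linarith

theorem K3a_closed (nb : ℕ) (w : Word) (T : ℕ → Prop) :
    IsClosed {y : ℂ × ℝ | ∃ p < 2 * nb, T p ∧ y.1 = strand nb w p y.2} := by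
  have : {y : ℂ × ℝ | ∃ p < 2 * nb, T p ∧ y.1 = strand nb w p y.2} =
      ⋃ p ∈ {p | p < 2 * nb ∧ T p}, {y : ℂ × ℝ | y.1 = strand nb w p y.2} := by
    ext y
    simp only [mem_iUnion, mem_ofPred_eq, exists_prop, and_assoc]
  rw [this]
  exact ((finite_Iio (2 * nb)).subset fun p hp => hp.1).isClosed_biUnion fun p _ =>
    isClosed_eq continuous_fst ((continuous_strand nb w p).comp continuous_snd)

theorem K3a_step (ok : Ok nb o w) {p q : ℕ} (hp : ∃ i, p = walk w i ∨ p = down w (walk w i))
    (h : q = p ∨ q = mate p ∨ q = down w p) : ∃ i, q = walk w i ∨ q = down w (walk w i) := by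
  obtain ⟨i, hp⟩ := hp
  rcases h with rfl | rfl | rfl
  · exact ⟨i, hp⟩
  · rcases hp with rfl | rfl
    · refine ⟨i + per w - 1, Or.inr ?_⟩
      have h1 := walk_succ w (i + per w - 1)
      have h2 := per_pos ok
      rw [show i + per w - 1 + 1 = i + per w by omega, ← walk_mod, Nat.add_mod_right,
        walk_mod] at h1
      rw [h1, mate_mate]
    · exact ⟨i + 1, Or.inl (walk_succ w i).symm⟩
  · rcases hp with rfl | rfl
    · exact ⟨i, Or.inr rfl⟩
    · exact ⟨i, Or.inl (down_down w _)⟩

theorem K3a_all (ok : Ok nb o w) (h : IsPreconnected (knot nb w)) {p : ℕ} (hp : p < 2 * nb) :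
    ∃ i, p = walk w i ∨ p = down w (walk w i) := by
  have hk : ∀ q < 2 * nb, (strand nb w q 0, (0 : ℝ)) ∈ knot nb w := fun q hq =>
    ⟨q, hq, by norm_num, by positivity, rfl⟩
  rcases isPreconnected_iff_subset_of_disjoint_closed.1 h _ _
    (K3a_closed nb w fun p => ∃ i, p = walk w i ∨ p = down w (walk w i))
    (K3a_closed nb w fun p => ¬ ∃ i, p = walk w i ∨ p = down w (walk w i))
    (by
      rintro y ⟨q, hq, -, -, e⟩
      by_cases hS : ∃ i, q = walk w i ∨ q = down w (walk w i)
      · exact Or.inl ⟨q, hq, hS, e⟩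
      · exact Or.inr ⟨q, hq, hS, e⟩)
    (eq_empty_of_forall_notMem (by
      rintro y ⟨-, ⟨q, hq, hS, e⟩, q', hq', hS', e'⟩
      exact hS' (K3a_step ok hS (K3a_meet ok hq hq' (e.symm.trans e'))))) with h1 | h1
  · obtain ⟨q, hq, hS, e⟩ := h1 (hk p hp)
    exact K3a_step ok hS (K3a_meet ok hq hp e.symm)
  · have h0 : 0 < 2 * nb := by have := ok.pos0; omega
    obtain ⟨q, hq, hS, e⟩ := h1 (hk 0 h0)
    exact absurd (K3a_step ok ⟨0, Or.inl rfl⟩ (K3a_meet ok h0 hq e)) hS

theorem per_eq (ok : Ok nb o w) (h : IsPreconnected (knot nb w)) : per w = nb := by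
  have i1 : Set.InjOn (walk w) (Finset.range (per w) : Set ℕ) := fun i hi j hj e =>
    walk_inj (by simpa using hi) (by simpa using hj) e
  have i2 : Set.InjOn (fun i => down w (walk w i)) (Finset.range (per w) : Set ℕ) :=
    fun i hi j hj e => i1 hi hj (by simpa only [down_down] using congrArg (down w) e)
  have hd : Disjoint ((Finset.range (per w)).image (walk w))
      ((Finset.range (per w)).image fun i => down w (walk w i)) := by
    rw [Finset.disjoint_left]
    intro a ha hb
    obtain ⟨i, -, rfl⟩ := Finset.mem_image.1 ha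
    obtain ⟨j, -, e⟩ := Finset.mem_image.1 hb
    exact down_ne_walk w j i e
  have he : (Finset.range (per w)).image (walk w) ∪
      ((Finset.range (per w)).image fun i => down w (walk w i)) = Finset.range (2 * nb) := by
    ext a
    simp only [Finset.mem_union, Finset.mem_image, Finset.mem_range]
    constructor
    · rintro (⟨i, -, rfl⟩ | ⟨i, -, rfl⟩)
      · exact walk_lt ok i
      · exact (down_lt ok _).2 (walk_lt ok i)
    · intro ha
      obtain ⟨i, hi⟩ := K3a_all ok h ha
      rw [← walk_mod] at hi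
      have := Nat.mod_lt i (per_pos ok)
      exact hi.imp (fun e => ⟨_, this, e.symm⟩) fun e => ⟨_, this, e.symm⟩
  have := congrArg Finset.card he
  rw [Finset.card_union_of_disjoint hd, Finset.card_image_of_injOn i1,
    Finset.card_image_of_injOn i2, Finset.card_range, Finset.card_range] at this
  omega

end Vale.Agent.N258B
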