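import Vale.Agent.N258B.Sat
import Vale.Agent.N258B.K1b
import Vale.Agent.N258B.K3
import Vale.Agent.N258B.Defs3

/-! The group of a plat with its meridian and longitude; the parity obstruction. -/

namespace Vale.Agent.N258B

open Set Filter Topology
open Vale.Agent.P258.Braid
open Vale.Agent.P002Z

variable {nb : ℕ} {w : Word} {ν : Circle × ℂ → S3} {e : ↥(pattern nb 0 w) → S3}
  {eX : C(XX nb 0 w, ↥(core ν)ᶜ)}

theorem Emb.preconnected {o : ℕ} {e : ↥(pattern nb o w) → S3} {eX : C(XX nb o w, ↥(core ν)ᶜ)}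
    (E : Emb nb o w ν e eX) : IsPreconnected (knot nb w) := by
  have h1 : IsPreconnected (core ν) :=
    isPreconnected_range (E.hν.continuous.comp (continuous_id.prodMk continuous_const))
  rw [E.hcore, E.he.isInducing.isPreconnected_image] at h1
  have h2 := h1.image _ continuous_subtype_val.continuousOn
  rwa [Subtype.image_preimage_coe, inter_eq_right.2 (knot_subset E.ok)] at h2

/-- a function of paths with prescribed values at another base point -/
theorem regauge {X G : Type} [TopologicalSpace X] [Group G] (β : PF X G) (s : X → G) (x : X)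
    (p : Path x x) : (gauge β s).toHom x (Path.Homotopic.Quotient.mk p) =
      (s x)⁻¹ * β.v p * s x := rfl

theorem kg (hw : ∀ x ∈ w, x.1 + 1 < 2 * nb) (E : Emb nb 0 w ν e eX) (hpref : Preferred ν)
    {x : ↥(core ν)ᶜ} (mu lam : Path x x) (hmu : ∀ t, (mu t).1 = ν (1, ex t))
    (hlam : ∀ t, (lam t).1 = ν (ex t, 1)) :
    KG (FundamentalGroup.fromPath (Path.Homotopic.Quotient.mk mu))
      (FundamentalGroup.fromPath (Path.Homotopic.Quotient.mk lam)) := by
  have := pathConnected_compl E.hν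
  have hZ := exists_int E.ok
  have hS := split_of_small hw 0
  obtain ⟨x0, hx⟩ := exists_mem_up nb 0 w
  obtain ⟨κ, hκ, -⟩ := exists_univ x
  have hκ' : ∀ p : Path x x, κ.v p = FundamentalGroup.fromPath (Path.Homotopic.Quotient.mk p) :=
    fun p => by rw [← PF.toHom_mk, hκ]
  refine ⟨?_, hpref x lam hlam, ?_, ?_, ?_, ?_⟩
  · obtain ⟨b, mu', lam', sl, hmu', hlam', -, hv⟩ := exists_loops E.hν 0
    rw [← hκ', ← hκ', κ.congr (p := mu) (q := mu') fun t => Subtype.ext ((hmu t).trans (hmu' t).symm),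
      κ.congr (p := lam) (q := lam') fun t => Subtype.ext ((hlam t).trans (hlam' t).symm)]
    exact (hv _ κ).1
  · generalize hD : Subgroup.normalClosure
      {FundamentalGroup.fromPath (Path.Homotopic.Quotient.mk mu)} = D
    have hDn : D.Normal := hD ▸ inferInstance
    obtain ⟨Γ, hΓ⟩ := (fill_S3 E.hν).ext mu hmu (κ.post (QuotientGroup.mk' D)) (by
      change QuotientGroup.mk' D (κ.v mu) = 1
      rw [← MonoidHom.mem_ker, QuotientGroup.ker_mk', hκ', ← hD]
      exact Subgroup.subset_normalClosure rfl)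
    have := simplyConnected_S3
    obtain ⟨Ω, hΩ⟩ := exists_pot_univ Γ
    refine eq_top_iff.2 fun a _ => ?_
    obtain ⟨p, rfl⟩ := Path.Homotopic.Quotient.mk_surjective a
    have h1 := (hΓ _ _ p).symm.trans (hΩ _ _ _ fun _ => mem_univ _)
    rw [inv_mul_cancel] at h1
    change QuotientGroup.mk' D (κ.v p) = 1 at h1
    rwa [← MonoidHom.mem_ker, QuotientGroup.ker_mk', hκ'] at h1
  · obtain ⟨i, d, k, hi, -, hper⟩ := peripheral E hZ mu lam hmu hlam
    obtain ⟨c, c1, c2⟩ := exists_col E.ok (Multiplicative.ofAdd i)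
    obtain ⟨β, hβ⟩ := exists_ext E x0 (hS _ _ (Pc_zero c)).1 c1 (Pc_flat c1)
    obtain ⟨g, g1, -⟩ := hper _ β _ x0 c1 hβ
    rw [c2, mul_comm g⁻¹, mul_assoc, inv_mul_cancel, mul_one] at g1
    refine ⟨β.toHom x, ?_⟩
    change β.v mu = _
    have g2 := congrArg Multiplicative.toAdd g1
    rw [toAdd_ofAdd, toAdd_zpow, smul_eq_mul] at g2
    apply Multiplicative.toAdd.injective
    rw [toAdd_ofAdd]
    rcases hi with rfl | rfl <;> omega
  · intro G Q _ _ pr hs hk ρ
    obtain ⟨β, rfl⟩ := exists_pf x ρ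
    obtain ⟨P, p1, p2, p3⟩ := exists_flat E hZ (hS Q) hx β
    obtain ⟨P', q1, q2⟩ := lift_lab E.ok (per_eq E.ok E.preconnected) pr hs hk p1
    have q3 : Flat nb 0 P' := fun j h1 h2 => by
      obtain rfl : j = 2 * nb := by omega
      exact (q1 nb le_rfl).1
    obtain ⟨β', hβ'⟩ := exists_ext E x0 (hS _ _ (capd_zero q1)).1 q1 q3
    have h2 : HasReg ((β'.post pr).comap eX) x0 P := hasReg_congr E.ok (hasReg_post hβ' pr) q2
    obtain ⟨s, -, hs'⟩ := par_of_toHom
      (toHom_eq_of_flat E hZ hx (hS _ _ (capd_zero p1)).1 p1 p2 h2 p3)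
    obtain ⟨g, hg⟩ := hs (s x)
    refine ⟨(gauge β' fun _ => g).toHom x, MonoidHom.ext fun a => ?_⟩
    obtain ⟨p, rfl⟩ := Path.Homotopic.Quotient.mk_surjective a
    rw [MonoidHom.comp_apply, regauge, PF.toHom_mk, hs' _ _ p fun _ => mem_univ _, map_mul,
      map_mul, map_inv, hg]
    rfl
  · intro H _ _
    have h1 : ∀ f : FundamentalGroup (↥(core ν)ᶜ) (eX x0) →* H, ∃ c : Fin (2 * nb) → H,
        Capd nb w (Pc c) ∧ ∃ β : PF (↥(core ν)ᶜ) H, β.toHom (eX x0) = f ∧
          HasReg (β.comap eX) x0 (Pc c) := by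
      intro f
      obtain ⟨β, rfl⟩ := exists_pf (eX x0) f
      obtain ⟨P, p1, p2, p3⟩ := exists_flat E hZ (hS H) hx β
      obtain ⟨c, hc⟩ := Pc_surj (capd_zero p1) p2
      exact ⟨c, capd_congr E.ok p1 hc, β, rfl, hasReg_congr E.ok p3 hc⟩
    choose c hc β hβ hβ' using h1
    have h2 : Finite (FundamentalGroup (↥(core ν)ᶜ) (eX x0) →* H) :=
      Finite.of_injective c fun f f' h => by
        rw [← hβ f, ← hβ f']
        exact toHom_eq_of_flat E hZ hx (hS _ _ (Pc_zero _)).1 (hc f) (Pc_flat (hc f)) (hβ' f)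
          (h ▸ hβ' f')
    exact Finite.of_equiv _ (MulEquiv.monoidHomCongrLeftEquiv
      (FundamentalGroup.fundamentalGroupMulEquivOfPathConnected (eX x0) x))

/-- the numbers of homomorphisms of the groups of the surgeries, in terms of the knot group -/
theorem card_slope (hν : IsOpenEmbedding ν) {x : ↥(core ν)ᶜ} (mu lam : Path x x)
    (hmu : ∀ t, (mu t).1 = ν (1, ex t)) (hlam : ∀ t, (lam t).1 = ν (ex t, 1)) (p : ℤ)
    (z : Surgery ν p) (H : Type) [Group H] :
    Nat.card (FundamentalGroup (Surgery ν p) z →* H) =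
      Nat.card {f : FundamentalGroup (↥(core ν)ᶜ) x →* H //
        f (FundamentalGroup.fromPath (Path.Homotopic.Quotient.mk mu)) ^ p *
          f (FundamentalGroup.fromPath (Path.Homotopic.Quotient.mk lam)) = 1} := by
  have := pathConnected_compl hν
  obtain ⟨b, mu', lam', sl, hmu', hlam', hsl, hv⟩ := exists_loops hν p
  obtain rfl : x = b := by
    rw [← mu.source, ← mu'.source]
    exact Subtype.ext ((hmu 0).trans (hmu' 0).symm)
  rw [card_surgery hν p sl hsl x (Path.refl x) z H]
  refine Nat.card_congr (Equiv.subtypeEquivRight fun f => ?_)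
  obtain ⟨β, rfl⟩ := exists_pf x f
  rw [PF.toHom_conjLoop, β.refl, inv_one, one_mul, mul_one, (hv H β).2]
  change _ ↔ β.v mu ^ p * β.v lam = 1
  rw [β.congr (p := mu) (q := mu') fun t => Subtype.ext ((hmu t).trans (hmu' t).symm),
    β.congr (p := lam) (q := lam') fun t => Subtype.ext ((hlam t).trans (hlam' t).symm)]

theorem distinct_of {ν : Circle × ℂ → S3} {p r : ℤ}
    (h : (∀ (H : Type) [Group H] [Finite H] (y : Surgery ν p) (y' : Surgery ν r),
      Nat.card (FundamentalGroup (Surgery ν p) y →* H) =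
        Nat.card (FundamentalGroup (Surgery ν r) y' →* H)) → False)
    (hp : PathConnectedSpace (Surgery ν p)) (hr : PathConnectedSpace (Surgery ν r)) :
    Distinct (Surgery ν p) (Surgery ν r) := by
  have key : ∀ y y', IsEmpty (FundamentalGroup (Surgery ν p) y ≃*
      FundamentalGroup (Surgery ν r) y') := fun y y' => ⟨fun θ => h fun H _ _ a b =>
    Nat.card_congr (MulEquiv.monoidHomCongrLeftEquiv
      ((FundamentalGroup.fundamentalGroupMulEquivOfPathConnected a y).trans (θ.trans
        (FundamentalGroup.fundamentalGroupMulEquivOfPathConnected y' b))))⟩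
  exact ⟨key, isEmpty_homotopyEquiv key⟩

theorem pathConnected_surgery (hν : IsOpenEmbedding ν) (p : ℤ) :
    PathConnectedSpace (Surgery ν p) := by
  have := pathConnected_compl hν
  obtain ⟨h, ν', F, -⟩ := fill_surgery hν p
  exact F.pathConnected

end Vale.Agent.N258B
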