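import Vale.Agent.N258B.K4
import Vale.Agent.N258B.Defs4

/-! From one knot to its cosets. -/

namespace Vale.Agent.N258B

open Set Filter Topology
open Vale.Agent.P258.Braid
open Vale.Agent.P002Z

theorem per_congr {w0 w : Word} (h : ∀ p, pos w w.length p = pos w0 w0.length p) :
    per w = per w0 := by
  have h1 : ∀ q, lab w q = lab w0 q := fun q => by
    conv_lhs => rw [← pos_lab w0 q, ← h, lab_pos]
  unfold per
  congr 1
  funext p
  rw [down, down, h, h1]

theorem stable {nb : ℕ} {w : Word} {ν : Circle × ℂ → S3} {e : ↥(pattern nb 0 w) → S3}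
    (hw : ∀ x ∈ w, x.1 + 1 < 2 * nb) (hF : Framed nb 0 w e ν)
    (h : (∀ (H : Type) [Group H] [Finite H] (y : Surgery ν 2) (y' : Surgery ν (-2)),
      Nat.card (FundamentalGroup (Surgery ν 2) y →* H) =
        Nat.card (FundamentalGroup (Surgery ν (-2)) y' →* H)) → False) : Stable nb w := by
  intro o
  have hb := hF.pos
  obtain ⟨eX, E⟩ := exists_emb (ok_of_small hb hw 0) hF.1 hF.2.1 hF.2.2.1
  have hper := per_eq E.ok E.preconnected
  obtain ⟨H, _, _, y, y', hne⟩ : ∃ (H : Type) (_ : Group H) (_ : Finite H) (y : Surgery ν 2)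
      (y' : Surgery ν (-2)), Nat.card (FundamentalGroup (Surgery ν 2) y →* H) ≠
        Nat.card (FundamentalGroup (Surgery ν (-2)) y' →* H) := by
    by_contra hc
    exact h fun H _ _ y y' => by_contra fun hn => hc ⟨H, _, inferInstance, y, y', hn⟩
  obtain ⟨S, h1, h2, h3⟩ := general nb o H
  have h4 := actKer_finiteIndex (2 * nb + o) H 1 one_pos
  refine ⟨S ⊓ actKer (2 * nb + o) H 1, inferInstance, inferInstance, fun w' hw' e' => ⟨?_, ?_⟩⟩
  · have h5 := ((mem_actKer _ H _ _ _).1 hw'.2.2).1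
    refine exists_framed (ok_of_same hb hw hw'.1 h5) ((per_congr fun p => ?_).trans hper)
    exact same_pos (fun x hx => by have := hw x hx; omega) hw'.1 h5 p
  · intro ν' hF'
    obtain ⟨ε, hε, h5⟩ := h3 w w' hw hw'.1 hw'.2.1 e ν e' ν' hF hF'
    refine distinct_of (fun hc => hne ?_) (pathConnected_surgery hF'.2.1 2)
      (pathConnected_surgery hF'.2.1 (-2))
    obtain ⟨z⟩ := nonempty_surgery ν' 2
    obtain ⟨z'⟩ := nonempty_surgery ν' (-2)
    rcases hε with rfl | rfl
    · exact (h5 2 z y).symm.trans ((hc H z z').trans (h5 (-2) z' y'))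
    · exact (h5 (-2) z' y).symm.trans ((hc H z z').symm.trans (h5 2 z y'))

end Vale.Agent.N258B
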