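import Vale.Agent.N258B.R2
import Vale.Agent.N258B.A2

/-! The number of homomorphisms of the group of the surgery. -/

namespace Vale.Agent.N258B

open Set Filter Topology
open Vale.Agent.P258.Braid
open Vale.Agent.P002Z

variable {nb o : ℕ} {w : Word} {ν : Circle × ℂ → S3} {e : ↥(pattern nb o w) → S3}
  {eX : C(XX nb o w, ↥(core ν)ᶜ)} {G : Type} [Group G]

theorem card_eq_of_rel {A B : Type} (R : A → B → Prop) (h1 : ∀ a, ∃ b, R a b)
    (h2 : ∀ b, ∃ a, R a b) (h3 : ∀ a b b', R a b → R a b' → b = b')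
    (h4 : ∀ a a' b, R a b → R a' b → a = a') : Nat.card A = Nat.card B := by
  choose f hf using h1
  refine Nat.card_congr (Equiv.ofBijective f ⟨fun a a' h => h4 a a' (f a) (hf a) (h ▸ hf a'),
    fun b => ?_⟩)
  obtain ⟨a, ha⟩ := h2 b
  exact ⟨a, h3 a _ _ (hf a) ha⟩

/-- the slope condition in terms of the Wirtinger meridian and longitude -/
theorem slope_iff {M Λ c R g : G} {i d k x p : ℤ} {N : ℕ} (hN : ∀ g : G, g ^ N = 1)
    (hi : i = 1 ∨ i = -1) (hd : d = 1 ∨ d = -1) (hc : Commute M Λ) (h1 : c = g⁻¹ * M ^ i * g)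
    (h2 : R⁻¹ = g⁻¹ * (M ^ k * Λ ^ d) * g) (hk : (N : ℤ) ∣ k * i - -x) :
    M ^ p * Λ = 1 ↔ c ^ (-(i * d) * p) * (R * c ^ (-x)) ^ (1 : ℤ) = 1 := by
  have hii : i * i = 1 := by rcases hi with rfl | rfl <;> rfl
  have hcz : ∀ n : ℤ, c ^ n = g⁻¹ * M ^ (i * n) * g := by
    intro n
    rw [h1, zpow_mul]
    have := conj_zpow (a := g⁻¹) (b := M ^ i) (i := n)
    rwa [inv_inv] at this
  have hR : R = g⁻¹ * (Λ ^ (-d) * M ^ (-k)) * g := by
    rw [← inv_inv R, h2]; group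
  have h3 : c ^ (-x) = g⁻¹ * M ^ k * g := by
    rw [← zpow_congr' hN c hk, hcz, show i * (k * i) = k by linear_combination k * hii]
  have h4 : c ^ (-(i * d) * p) * (R * c ^ (-x)) ^ (1 : ℤ) =
      g⁻¹ * (M ^ p * Λ) ^ (-d) * g := by
    rw [h3, hcz, hR, (hc.zpow_left p).mul_zpow, ← zpow_mul,
      show i * (-(i * d) * p) = p * -d by linear_combination (-d * p) * hii]
    group
  rw [h4]
  constructor
  · intro h
    rw [h]; group
  · intro h
    have h5 : (M ^ p * Λ) ^ (-d) = 1 := by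
      calc (M ^ p * Λ) ^ (-d) = g * (g⁻¹ * (M ^ p * Λ) ^ (-d) * g) * g⁻¹ := by group
        _ = 1 := by rw [h]; group
    rcases hd with rfl | rfl
    · rwa [zpow_neg_one, inv_eq_one] at h5
    · rwa [neg_neg, zpow_one] at h5

/-- the colourings that give homomorphisms of the group of the surgery -/
def Sol (nb : ℕ) (w : Word) (G : Type) [Group G] (x p : ℤ) : Type :=
  {c : Fin (2 * nb) → G // Capd nb w (Pc c) ∧
    (Pc c 1)⁻¹ ^ p * (Raw w (Pc c) * (Pc c 1)⁻¹ ^ (-x)) ^ (1 : ℤ) = 1}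

/-- the exponent of the meridian in the push-off of the knot -/
theorem expo_dvd (E : Emb nb o w ν e eX) (hpref : Preferred ν) {N : ℕ}
    (hS : Split nb o w (Multiplicative (ZMod N))) {c : Fin (2 * nb) → Multiplicative (ZMod N)}
    (hP : Capd nb w (Pc c)) (c2 : (Pc c 1)⁻¹ = Multiplicative.ofAdd 1) {x : ℤ}
    (c3 : Raw w (Pc c) = Multiplicative.ofAdd (x : ZMod N)) {a : ↥(core ν)ᶜ} {mu lam : Path a a}
    (hlam : ∀ t, (lam t).1 = ν (ex t, 1)) {i d k : ℤ} (hi : i = 1 ∨ i = -1)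
    (hper : ∀ (β : PF (↥(core ν)ᶜ) (Multiplicative (ZMod N))) (P : ℕ → Multiplicative (ZMod N))
      (x0 : XX nb o w), Capd nb w P → HasReg (β.comap eX) x0 P →
        ∃ g, (P 1)⁻¹ = g⁻¹ * β.v mu ^ i * g ∧
          (Raw w P)⁻¹ = g⁻¹ * (β.v mu ^ k * β.v lam ^ d) * g) : (N : ℤ) ∣ k * i - -x := by
  obtain ⟨x0, -⟩ := exists_mem_up nb o w
  obtain ⟨β, hβ⟩ := exists_ext E x0 (hS _ (Pc_zero c)).1 hP (Pc_flat hP)
  obtain ⟨g, g1, g2⟩ := hper β _ x0 hP hβ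
  rw [c2, mul_comm g⁻¹, mul_assoc, inv_mul_cancel, mul_one] at g1
  rw [c3, hpref.v_eq_one lam hlam β, one_zpow, mul_one, mul_comm g⁻¹,
    mul_assoc, inv_mul_cancel, mul_one] at g2
  have hii : i * i = 1 := by rcases hi with rfl | rfl <;> rfl
  have g3 : β.v mu ^ k = Multiplicative.ofAdd (1 : ZMod N) ^ (k * i) := by
    rw [g1, ← zpow_mul, show i * (k * i) = k by linear_combination k * hii]
  have g4 := congrArg Multiplicative.toAdd (g2.trans g3)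
  simp only [toAdd_inv, toAdd_ofAdd, toAdd_zpow, zsmul_eq_mul, mul_one] at g4
  refine (ZMod.intCast_eq_intCast_iff_dvd_sub _ _ _).1 ?_
  rw [← g4, Int.cast_neg]

theorem count (E : Emb nb o w ν e eX) (hpref : Preferred ν) {N : ℕ} (hN : ∀ g : G, g ^ N = 1)
    (hS : Split nb o w G) (hSN : Split nb o w (Multiplicative (ZMod N)))
    {c0 : Fin (2 * nb) → Multiplicative (ZMod N)} (c1 : Capd nb w (Pc c0))
    (c2 : (Pc c0 1)⁻¹ = Multiplicative.ofAdd 1) {x : ℤ}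
    (c3 : Raw w (Pc c0) = Multiplicative.ofAdd (x : ZMod N)) :
    ∃ ε : ℤ, (ε = 1 ∨ ε = -1) ∧ ∀ (p : ℤ) (z : Surgery ν p),
      Nat.card (FundamentalGroup (Surgery ν p) z →* G) = Nat.card (Sol nb w G x (ε * p)) := by
  have hZ := exists_int E.ok
  obtain ⟨x0, hx⟩ := exists_mem_up nb o w
  obtain ⟨b, mu, lam, -, hmu, hlam, -, -⟩ := exists_loops E.hν 0
  obtain ⟨i, d, k, hi, hd, hper⟩ := peripheral E hZ mu lam hmu hlam
  have hk := expo_dvd E hpref hSN c1 c2 c3 hlam hi (hper _)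
  refine ⟨-(i * d), by rcases hi with rfl | rfl <;> rcases hd with rfl | rfl <;> simp, ?_⟩
  intro p z
  obtain ⟨b', mu', lam', sl, hmu', hlam', hsl, hv⟩ := exists_loops E.hν p
  have := pathConnected_compl E.hν
  rw [card_surgery E.hν p sl hsl (eX x0) (PathConnectedSpace.somePath _ _) z G]
  have hiff : ∀ (β : PF (↥(core ν)ᶜ) G) (c : Fin (2 * nb) → G), Capd nb w (Pc c) →
      HasReg (β.comap eX) x0 (Pc c) →
      (β.toHom (eX x0) (conjLoop (PathConnectedSpace.somePath _ _) sl) = 1 ↔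
        (Pc c 1)⁻¹ ^ (-(i * d) * p) * (Raw w (Pc c) * (Pc c 1)⁻¹ ^ (-x)) ^ (1 : ℤ) = 1) := by
    intro β c hc h
    obtain ⟨g, g1, g2⟩ := hper G β _ x0 hc h
    rw [β.congr (p := mu) (q := mu') fun t => Subtype.ext ((hmu t).trans (hmu' t).symm)] at g1
    rw [β.congr (p := mu) (q := mu') fun t => Subtype.ext ((hmu t).trans (hmu' t).symm),
      β.congr (p := lam) (q := lam') fun t => Subtype.ext ((hlam t).trans (hlam' t).symm)] at g2
    refine Iff.trans ?_ (slope_iff hN hi hd (hv G β).1 g1 g2 hk)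
    rw [PF.toHom_conjLoop, ← (hv G β).2]
    constructor
    · intro h
      calc β.v sl = β.v (PathConnectedSpace.somePath (eX x0) b') *
            ((β.v (PathConnectedSpace.somePath (eX x0) b'))⁻¹ * β.v sl *
              β.v (PathConnectedSpace.somePath (eX x0) b')) *
            (β.v (PathConnectedSpace.somePath (eX x0) b'))⁻¹ := by group
        _ = 1 := by rw [h]; group
    · intro h
      rw [h]; group
  refine card_eq_of_rel (fun f c => ∃ β : PF (↥(core ν)ᶜ) G, β.toHom (eX x0) = f.1 ∧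
    HasReg (β.comap eX) x0 (Pc c.1)) ?_ ?_ ?_ ?_
  · rintro ⟨f, hf⟩
    obtain ⟨β, rfl⟩ := exists_pf (eX x0) f
    obtain ⟨P, p1, p2, p3⟩ := exists_flat E hZ hS hx β
    obtain ⟨c, hc⟩ := Pc_surj (capd_zero p1) p2
    have q1 := capd_congr E.ok p1 hc
    have q2 := hasReg_congr E.ok p3 hc
    exact ⟨⟨c, q1, (hiff β c q1 q2).1 hf⟩, β, rfl, q2⟩
  · rintro ⟨c, hP, hc⟩
    obtain ⟨β, hβ⟩ := exists_ext E x0 (hS _ (Pc_zero c)).1 hP (Pc_flat hP)
    exact ⟨⟨β.toHom (eX x0), (hiff β c hP hβ).2 hc⟩, β, rfl, hβ⟩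
  · rintro f c c' ⟨β, h1, h2⟩ ⟨β', h1', h2'⟩
    refine Subtype.ext (Pc_inj fun j hj => ?_)
    exact lab_unique E.ok hx h2 h2' (Pc_zero _) (Pc_zero _)
      (toHom_comap eX x0 (h1.trans h1'.symm)) j (by omega)
  · rintro f f' c ⟨β, h1, h2⟩ ⟨β', h1', h2'⟩
    refine Subtype.ext ?_
    rw [← h1, ← h1']
    exact toHom_eq_of_flat E hZ hx (hS _ (Pc_zero _)).1 c.2.1 (Pc_flat c.2.1) h2 h2'

/-- the count for a word that acts as a word on the strands of the knot only -/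
theorem count_same {w0 : Word} (h0 : ∀ x ∈ w0, x.1 + 1 < 2 * nb)
    (hw : ∀ x ∈ w, x.1 + 1 < 2 * nb + o) {N : ℕ} (hN : ∀ g : G, g ^ N = 1)
    (hE : Equiv (2 * nb + o) G N w0 w) (hF : Framed nb o w e ν)
    {c0 : Fin (2 * nb) → Multiplicative (ZMod N)} (hb : 0 < nb) (c1 : Capd nb w0 (Pc c0))
    (c2 : (Pc c0 1)⁻¹ = Multiplicative.ofAdd 1) {x : ℤ}
    (c3 : Raw w0 (Pc c0) = Multiplicative.ofAdd (x : ZMod N)) :
    ∃ ε : ℤ, (ε = 1 ∨ ε = -1) ∧ ∀ (p : ℤ) (z : Surgery ν p),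
      Nat.card (FundamentalGroup (Surgery ν p) z →* G) = Nat.card (Sol nb w0 G x (ε * p)) := by
  obtain ⟨he, hν, hcore, hpref⟩ := hF
  obtain ⟨eX, E⟩ := exists_emb (ok_of_same hb h0 hw hE.1) he hν hcore
  obtain ⟨ε, hε, h⟩ := count E hpref hN (split_of_same h0 hw hE.1) (split_of_same h0 hw hE.2)
    ((capd_same h0 hw hE.2 _).2 c1) c2 ((raw_same hb h0 hw hE.2 _ (Pc_zero _)).trans c3)
  refine ⟨ε, hε, fun p z => (h p z).trans ?_⟩
  refine Nat.card_congr (Equiv.subtypeEquivRight fun c => ?_)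
  rw [capd_same h0 hw hE.1, raw_same hb h0 hw hE.1 _ (Pc_zero _)]

theorem Framed.pos (hF : Framed nb o w e ν) : 0 < nb := by
  obtain ⟨y, ⟨p, hp, -⟩, -⟩ : ν (1, 0) ∈ e '' (Subtype.val ⁻¹' knot nb w) :=
    hF.2.2.1.le ⟨1, rfl⟩
  omega

/-- the general theorem -/
theorem general (nb o : ℕ) (G : Type) [Group G] [Finite G] :
    ∃ S : Subgroup (BraidGroup (2 * nb + o)), S.Normal ∧ S.FiniteIndex ∧
      ∀ w0 w : Word, (∀ x ∈ w0, x.1 + 1 < 2 * nb) → (∀ x ∈ w, x.1 + 1 < 2 * nb + o) →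
        (toBraid (2 * nb + o) w0)⁻¹ * toBraid (2 * nb + o) w ∈ S →
        ∀ (e0 : ↥(pattern nb 0 w0) → S3) (ν0 : Circle × ℂ → S3) (e : ↥(pattern nb o w) → S3)
          (ν : Circle × ℂ → S3), Framed nb 0 w0 e0 ν0 → Framed nb o w e ν →
          ∃ ε : ℤ, (ε = 1 ∨ ε = -1) ∧ ∀ (p : ℤ) (z : Surgery ν p) (z0 : Surgery ν0 (ε * p)),
            Nat.card (FundamentalGroup (Surgery ν p) z →* G) =
              Nat.card (FundamentalGroup (Surgery ν0 (ε * p)) z0 →* G) := by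
  have hN : ∀ g : G, g ^ Nat.card G = 1 := fun _ => pow_card_eq_one'
  refine ⟨actKer _ G (Nat.card G), inferInstance, actKer_finiteIndex _ G _ Nat.card_pos, ?_⟩
  intro w0 w h0 hw hS e0 ν0 e ν hF0 hF
  have hb := hF.pos
  obtain ⟨c0, c1, c2⟩ := exists_col (ok_of_small hb h0 0)
    (Multiplicative.ofAdd (1 : ZMod (Nat.card G)))
  obtain ⟨x, hx⟩ := ZMod.intCast_surjective (Multiplicative.toAdd (Raw w0 (Pc c0)))
  have c3 : Raw w0 (Pc c0) = Multiplicative.ofAdd (x : ZMod (Nat.card G)) := by rw [hx]; rfl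
  obtain ⟨ε, hε, h⟩ := count_same h0 hw hN ((mem_actKer _ G _ _ _).1 hS) hF hb c1 c2 c3
  obtain ⟨ε0, hε0, h'⟩ := count_same (o := 0) h0 h0 hN ⟨Same.refl' _, Same.refl' _⟩ hF0 hb c1 c2 c3
  refine ⟨ε0 * ε, by rcases hε with rfl | rfl <;> rcases hε0 with rfl | rfl <;> simp, ?_⟩
  intro p z z0
  rw [h p z, h' _ z0, show ε0 * (ε0 * ε * p) = ε * p by rcases hε0 with rfl | rfl <;> ring]

end Vale.Agent.N258B
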