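import Vale.Agent.N258B.P1a
import Vale.Agent.N258B.C
import Mathlib.Analysis.Convex.PathConnected

/-! Block P1: a small meridian and the knot pushed upwards. -/

namespace Vale.Agent.N258B

open Set Filter Topology
open Vale.Agent.P258.Braid (Word)
open Vale.Agent.P002Z

variable {nb o : ℕ} {w : Word}

/-- The path `γ0` in the knot can be pushed upwards, with the value `A`. -/
def P1bGood (nb o : ℕ) (w : Word) {x y : ↥(knot nb w)} (γ0 : Path x y)
    (A : ∀ (G : Type) [Group G], (ℕ → G) → G) : Prop :=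
  ∀ δ : ℝ, 0 < δ → δ ≤ 1 / 8 → ∃ (b b' : XX nb o w) (γ : Path b b'),
    (∀ t, (γ t).1 = (γ0 t).1 + ((δ * Complex.I : ℂ), (0 : ℝ))) ∧
    ∀ (G : Type) [Group G] (φ : PF (XX nb o w) G) (P : ℕ → G) (τp τm : XX nb o w → G),
      Reg φ P τp τm → φ.v γ = (τp b')⁻¹ * A G P * τp b

theorem p1b_trans {x y z : ↥(knot nb w)} {γ0 : Path x y} {γ1 : Path y z}
    {A B : ∀ (G : Type) [Group G], (ℕ → G) → G} (h0 : P1bGood nb o w γ0 A)
    (h1 : P1bGood nb o w γ1 B) : P1bGood nb o w (γ0.trans γ1) fun G _ P => B G P * A G P := by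
  intro δ hδ hδ'
  obtain ⟨b, b', γ, hγ, hv⟩ := h0 δ hδ hδ'
  obtain ⟨c, c', γ', hγ', hv'⟩ := h1 δ hδ hδ'
  obtain rfl : b' = c := by
    apply Subtype.ext
    have e1 := hγ 1
    have e2 := hγ' 0
    rw [γ.target, γ0.target] at e1
    rw [γ'.source, γ1.source] at e2
    rw [e1, e2]
  refine ⟨b, c', γ.trans γ', fun t => ?_, fun G _ φ P τp τm h => ?_⟩
  · rw [Path.trans_apply, Path.trans_apply]
    split_ifs
    · exact hγ _
    · exact hγ' _
  · rw [φ.trans, hv G φ P τp τm h, hv' G φ P τp τm h]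
    group

theorem p1b_symm {x y : ↥(knot nb w)} {γ0 : Path x y}
    {A : ∀ (G : Type) [Group G], (ℕ → G) → G} (h0 : P1bGood nb o w γ0 A) :
    P1bGood nb o w γ0.symm fun G _ P => (A G P)⁻¹ := by
  intro δ hδ hδ'
  obtain ⟨b, b', γ, hγ, hv⟩ := h0 δ hδ hδ'
  refine ⟨b', b, γ.symm, fun t => hγ _, fun G _ φ P τp τm h => ?_⟩
  rw [φ.symm, hv G φ P τp τm h]
  group

theorem p1b_congr {x y : ↥(knot nb w)} {γ0 : Path x y}
    {A B : ∀ (G : Type) [Group G], (ℕ → G) → G} (h0 : P1bGood nb o w γ0 A)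
    (e : ∀ (G : Type) [Group G] (P : ℕ → G), A G P = B G P) : P1bGood nb o w γ0 B := by
  intro δ hδ hδ'
  obtain ⟨b, b', γ, hγ, hv⟩ := h0 δ hδ hδ'
  exact ⟨b, b', γ, hγ, fun G _ φ P τp τm h => by rw [hv G φ P τp τm h, e]⟩

/-- a piece of a strand -/
theorem p1b_piece (ok : Ok nb o w) {p : ℕ} (hp : p < 2 * nb) {a b : ℝ} (ha : -1 ≤ a) (hab : a ≤ b)
    (hb : b ≤ w.length + 1) (x y : ↥(knot nb w)) (hx : x.1 = (strand nb w p a, a))
    (hy : y.1 = (strand nb w p b, b)) :
    ∃ γ0 : Path x y, (∀ t, ∃ s, a ≤ s ∧ s ≤ b ∧ (γ0 t).1 = (strand nb w p s, s)) ∧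
      (a ≤ 0 → w.length ≤ b → P1bGood nb o w γ0 fun _ _ P => (trP w P p w.length)⁻¹) ∧
      (b ≤ 0 → P1bGood nb o w γ0 fun _ _ _ => 1) := by
  let q : Path a b := Path.segment a b
  have hq : ∀ t, a ≤ q t ∧ q t ≤ b := fun t => by
    have : q t ∈ segment ℝ a b := by
      rw [← Path.range_segment]
      exact ⟨t, rfl⟩
    rwa [segment_eq_Icc hab] at this
  let γ0 : Path x y :=
    { toFun := fun t => ⟨(strand nb w p (q t), q t), p, hp, ha.trans (hq t).1, (hq t).2.trans hb, rfl⟩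
      continuous_toFun := by
        refine Continuous.subtype_mk ?_ _
        exact ((continuous_strand nb w p).comp q.continuous).prodMk q.continuous
      source' := Subtype.ext (by rw [hx]; simp only [q.source])
      target' := Subtype.ext (by rw [hy]; simp only [q.target]) }
  have hpush : ∀ (δ : ℝ) (f : C(ℝ, XX nb o w)),
      (∀ t, (f t).1 = (strand nb w p t + δ * Complex.I, t)) →
      ∀ t, ((q.map f.continuous) t).1 = (γ0 t).1 + ((δ * Complex.I : ℂ), (0 : ℝ)) := by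
    intro δ f hf t
    change (f (q t)).1 = (strand nb w p (q t), q t) + _
    rw [hf, Prod.mk_add_mk, add_zero]
  refine ⟨γ0, fun t => ⟨q t, (hq t).1, (hq t).2, rfl⟩, fun ha0 hb0 δ hδ hδ' => ?_,
    fun hb0 δ hδ hδ' => ?_⟩
  · obtain ⟨f, hf⟩ := exists_push ok (p := p) (by omega) hδ hδ'
    exact ⟨f a, f b, q.map f.continuous, hpush δ f hf, fun G _ φ P τp τm h =>
      arc ok h (by omega) hδ hδ' f hf ha0 hb0 q⟩
  · obtain ⟨f, hf⟩ := exists_push ok (p := p) (by omega) hδ hδ'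
    refine ⟨f a, f b, q.map f.continuous, hpush δ f hf, fun G _ φ P τp τm h => ?_⟩
    rw [mul_one]
    exact h.up _ _ _ fun t => push_mem_up ok hδ (hf (q t)) (Or.inl ((hq t).2.trans hb0))

theorem p1b_re (w : Word) {p : ℕ} (hp : p < 2 * nb) {t : ℝ} (h0 : -1 ≤ t) (h1 : t ≤ 0) :
    (strand nb w p t).re = p + (-1) ^ p * (-t) / 2 := by
  rw [strand_bot nb w p h1, cap, if_pos hp, Complex.ofReal_re, min_eq_left (by linarith)]

theorem p1b_far (w : Word) {p : ℕ} (h1 : 1 ≤ p) (hp : p < 2 * nb) :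
    1 / 2 < (strand nb w p (-(1 / 4))).re := by
  rw [p1b_re w hp (by norm_num) (by norm_num)]
  have h2 : (1 : ℝ) ≤ p := by exact_mod_cast h1
  rcases neg_one_pow_eq_or ℝ p with h | h <;> rw [h] <;> linarith

/-- The function on the knot that counts the passages through a point. -/
theorem p1b_chi (nb : ℕ) (w : Word) :
    ∃ (χ : PF (↥(knot nb w)) (Multiplicative ℤ)) (τ : ↥(knot nb w) → Multiplicative ℤ),
      χ.Pot {y | 1 / 4 < y.1.1.re ∨ y.1.2 ≠ -(1 / 4)} τ ∧
      ∀ (x y : ↥(knot nb w)) (p : Path x y), (∀ t, (p t).1.1.re < 1 / 2) → x.1.2 < -(1 / 4) →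
        -(1 / 4) < y.1.2 → χ.v p = (τ y)⁻¹ * Multiplicative.ofAdd 1 * τ x := by
  classical
  let U : Bool → Set ↥(knot nb w) := fun i =>
    if i then {y | y.1.1.re < 1 / 2} else {y | 1 / 4 < y.1.1.re ∨ y.1.2 ≠ -(1 / 4)}
  let a : ↥(knot nb w) → Multiplicative ℤ := fun y =>
    if -(1 / 4) < y.1.2 then (Multiplicative.ofAdd 1)⁻¹ else 1
  let A : Bool → ↥(knot nb w) → Multiplicative ℤ := fun i y => if i then a y else 1
  have c1 : Continuous fun y : ↥(knot nb w) => y.1.1.re := by fun_prop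
  have c2 : Continuous fun y : ↥(knot nb w) => y.1.2 := by fun_prop
  have ha : ∀ x ∈ U true ∩ U false, ∀ᶠ y in 𝓝 x, a y = a x := by
    rintro x ⟨h1, h2⟩
    have h1' : x.1.1.re < 1 / 2 := h1
    have h2' : 1 / 4 < x.1.1.re ∨ x.1.2 ≠ -(1 / 4) := h2
    have h3 : x.1.2 ≠ -(1 / 4) := by
      intro h3
      rcases h2' with h2' | h2'
      · obtain ⟨p, hp, -, -, h4⟩ := x.2
        rw [h4, h3] at h1' h2'
        rcases Nat.eq_zero_or_pos p with rfl | hp0
        · rw [p1b_re w hp (by norm_num) (by norm_num)] at h2'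
          norm_num at h2'
        · exact h1'.not_gt (p1b_far w hp0 hp)
      · exact h2' h3
    rcases h3.lt_or_gt with h3 | h3
    · filter_upwards [(isOpen_lt c2 continuous_const).mem_nhds h3] with y hy
      have hy' : y.1.2 < -(1 / 4) := hy
      simp only [a, if_neg h3.not_gt, if_neg hy'.not_gt]
    · filter_upwards [(isOpen_lt continuous_const c2).mem_nhds h3] with y hy
      have hy' : -(1 / 4) < y.1.2 := hy
      simp only [a, if_pos h3, if_pos hy']
  obtain ⟨χ, t, ht, hg⟩ := exists_holonomy U (by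
      intro i
      cases i
      · exact (isOpen_lt continuous_const c1).union (isOpen_ne_fun c2 continuous_const)
      · exact isOpen_lt c1 continuous_const) (by
      intro x
      by_cases h : x.1.1.re < 1 / 2
      · exact ⟨true, h⟩
      · exact ⟨false, Or.inl (by linarith [not_lt.1 h])⟩)
    (fun i j y => A j y * (A i y)⁻¹) (by
      intro i j x hx
      cases i <;> cases j
      · exact Eventually.of_forall fun y => rfl
      · filter_upwards [ha x ⟨hx.2, hx.1⟩] with y hy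
        simp only [A, if_true, hy, Bool.false_eq_true, if_false]
      · filter_upwards [ha x hx] with y hy
        simp only [A, if_true, hy, Bool.false_eq_true, if_false]
      · exact Eventually.of_forall fun y => by simp only [mul_inv_cancel]) (by
      intro i j k x _
      group)
  refine ⟨χ, t false, ht false, fun x y p hp hx hy => ?_⟩
  have hx1 : x ∈ U false ∩ U true := ⟨Or.inr hx.ne, p.source ▸ hp 0⟩
  have hy1 : y ∈ U false ∩ U true := ⟨Or.inr hy.ne', p.target ▸ hp 1⟩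
  rw [ht true x y p hp, hg false true x hx1, hg false true y hy1]
  simp only [A, a, if_true, Bool.false_eq_true, if_false, if_pos hy, if_neg hx.not_gt]
  group

theorem push_off (ok : Ok nb o w) :
    ∃ (γ0 : Path (⟨k0, k0_mem ok.pos0 w⟩ : ↥(knot nb w)) ⟨k0, k0_mem ok.pos0 w⟩)
      (χ : PF (↥(knot nb w)) (Multiplicative ℤ)), χ.v γ0 = Multiplicative.ofAdd 1 ∧
      ∀ δ : ℝ, 0 < δ → δ ≤ 1 / 8 → ∃ (b : XX nb o w) (γ : Path b b),
        (∀ t, (γ t).1 = (γ0 t).1 + ((δ * Complex.I : ℂ), (0 : ℝ))) ∧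
        ∀ (G : Type) [Group G] (φ : PF (XX nb o w) G) (P : ℕ → G) (τp τm : XX nb o w → G),
          Reg φ P τp τm → φ.v γ = (τp b)⁻¹ * (Raw w P)⁻¹ * τp b := by
  obtain ⟨χ, τ, hτ, hχ⟩ := p1b_chi nb w
  have hL : (0 : ℝ) ≤ w.length := Nat.cast_nonneg _
  have h0 : 0 < 2 * nb := by have := ok.pos0; omega
  let pt : ∀ p, p < 2 * nb → ∀ t : ℝ, -1 ≤ t → t ≤ w.length + 1 → ↥(knot nb w) :=
    fun p hp t h1 h2 => ⟨(strand nb w p t, t), p, hp, h1, h2, rfl⟩
  let top : ∀ p, p < 2 * nb → ↥(knot nb w) := fun p hp =>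
    pt p hp (w.length + 1) (by linarith) le_rfl
  let bot : ∀ p, p < 2 * nb → ↥(knot nb w) := fun p hp => pt p hp (-1) le_rfl (by linarith)
  let z : ↥(knot nb w) := pt 0 h0 0 (by norm_num) (by linarith)
  let k : ↥(knot nb w) := ⟨k0, k0_mem ok.pos0 w⟩
  have hk : k.1 = (strand nb w 0 (-(1 / 2)), -(1 / 2)) := by
    change k0 = _
    rw [strand_bot nb w 0 (by norm_num), k0, cap, if_pos h0, neg_neg,
      min_eq_left (by norm_num)]
    congr 1
    push_cast
    norm_num
  have whole : ∀ p, 1 ≤ p → p < 2 * nb → ∀ x y : ↥(knot nb w), x.1 = (strand nb w p (-1), -1) →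
      y.1 = (strand nb w p (w.length + 1), (w.length + 1 : ℝ)) →
      ∃ γ0 : Path x y, χ.v γ0 = (τ y)⁻¹ * τ x ∧
        P1bGood nb o w γ0 fun _ _ P => (trP w P p w.length)⁻¹ := by
    intro p h1 hp x y hx hy
    obtain ⟨γ0, h2, h3, -⟩ := p1b_piece ok hp le_rfl (by linarith) le_rfl x y hx hy
    refine ⟨γ0, hτ _ _ _ fun t => ?_, h3 (by norm_num) (by linarith)⟩
    obtain ⟨s, -, -, hs⟩ := h2 t
    change 1 / 4 < (γ0 t).1.1.re ∨ (γ0 t).1.2 ≠ -(1 / 4)
    rw [hs]
    by_cases h : s = -(1 / 4)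
    · left
      change 1 / 4 < (strand nb w p s).re
      have := p1b_far w h1 hp
      rw [h]
      linarith
    · exact Or.inr h
  have back : ∀ (i : ℕ) (x y : ↥(knot nb w)),
      x.1 = (strand nb w (walk w i) (w.length + 1), (w.length + 1 : ℝ)) →
      y.1 = (strand nb w (walk w (i + 1)) (-1), -1) →
      ∃ γ0 : Path x y, χ.v γ0 = (τ y)⁻¹ * τ x ∧
        P1bGood nb o w γ0 fun _ _ P => trP w P (down w (walk w i)) w.length := by
    intro i x y hx hy
    have hd : down w (walk w i) < 2 * nb := (down_lt ok _).2 (walk_lt ok i)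
    have h1 : 1 ≤ down w (walk w i) := Nat.pos_of_ne_zero (down_ne_walk w i 0)
    obtain ⟨g, a1, a2⟩ := whole _ h1 hd y x (by rw [hy, walk_succ, ← tip_bot w hd])
      (by rw [hx, tip_top ok (walk_lt ok i)])
    refine ⟨g.symm, ?_, p1b_congr (p1b_symm a2) fun G _ P => inv_inv _⟩
    rw [χ.symm, a1, mul_inv_rev, inv_inv]
  obtain ⟨gA, a1, -, a2⟩ := p1b_piece ok (p := 0) h0 (a := -(1 / 2)) (b := 0)
    (by norm_num) (by norm_num) (by linarith) k z hk rfl
  obtain ⟨gB, b1, b2, -⟩ := p1b_piece ok (p := 0) h0 (a := 0) (b := w.length + 1)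
    (by norm_num) (by linarith) le_rfl z (top 0 h0) rfl rfl
  obtain ⟨gC, c1, -, c2⟩ := p1b_piece ok (p := 0) h0 (a := -1) (b := -(1 / 2))
    le_rfl (by norm_num) (by linarith) (bot 0 h0) k rfl hk
  have xA : χ.v gA = (τ z)⁻¹ * Multiplicative.ofAdd 1 * τ k := by
    refine hχ _ _ _ (fun t => ?_) (by rw [hk]; norm_num) (by norm_num [z, pt])
    obtain ⟨s, h1, h2, hs⟩ := a1 t
    rw [hs]
    change (strand nb w 0 s).re < 1 / 2
    rw [p1b_re w h0 (by linarith) h2]
    norm_num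
    linarith
  have xB : χ.v gB = (τ _)⁻¹ * τ _ := hτ _ _ _ fun t => by
    obtain ⟨s, h1, -, hs⟩ := b1 t
    refine Or.inr ?_
    rw [hs]
    intro h
    have : s = -(1 / 4) := h
    linarith
  have xC : χ.v gC = (τ _)⁻¹ * τ _ := hτ _ _ _ fun t => by
    obtain ⟨s, -, h1, hs⟩ := c1 t
    refine Or.inr ?_
    rw [hs]
    intro h
    have : s = -(1 / 4) := h
    linarith
  have main : ∀ i, i < per w → ∀ y : ↥(knot nb w),
      y.1 = (strand nb w (walk w (i + 1)) (-1), -1) →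
      ∃ γ0 : Path k y, χ.v γ0 = (τ y)⁻¹ * Multiplicative.ofAdd 1 * τ k ∧
        P1bGood nb o w γ0 fun _ _ P => (((List.range (i + 1)).map fun i =>
          trP w P (walk w i) w.length * (trP w P (down w (walk w i)) w.length)⁻¹).prod)⁻¹ := by
    intro i
    induction i with
    | zero =>
      intro _ y hy
      obtain ⟨g, g1, g2⟩ := back 0 (top 0 h0) y rfl hy
      refine ⟨(gA.trans gB).trans g, ?_, p1b_congr (p1b_trans (p1b_trans (a2 le_rfl)
        (b2 le_rfl (by linarith))) g2) fun G _ P => ?_⟩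
      · rw [χ.trans, χ.trans, xA, xB, g1]
        simp only [mul_assoc, mul_inv_cancel_left]
      · simp only [zero_add, List.range_one, List.map_cons, List.map_nil, List.prod_cons,
          List.prod_nil, walk_zero, mul_one, mul_inv_rev, inv_inv]
    | succ i ih =>
      intro hi y hy
      have hw := walk_lt ok (i + 1)
      have h1 : 1 ≤ walk w (i + 1) := Nat.pos_of_ne_zero fun h =>
        Nat.succ_ne_zero i (walk_inj hi (per_pos ok) h)
      obtain ⟨e, e1, e2⟩ := ih (by omega) (bot _ hw) rfl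
      obtain ⟨f, f1, f2⟩ := whole _ h1 hw (bot _ hw) (top _ hw) rfl rfl
      obtain ⟨g, g1, g2⟩ := back (i + 1) (top _ hw) y rfl hy
      refine ⟨(e.trans f).trans g, ?_, p1b_congr (p1b_trans (p1b_trans e2 f2) g2)
        fun G _ P => ?_⟩
      · rw [χ.trans, χ.trans, e1, f1, g1]
        simp only [mul_assoc, mul_inv_cancel_left]
      · rw [List.range_succ (n := i + 1), List.map_append, List.prod_append]
        simp only [List.map_cons, List.map_nil, List.prod_cons, List.prod_nil, mul_one,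
          mul_inv_rev, inv_inv, mul_assoc]
  obtain ⟨n, hn⟩ : ∃ n, per w = n + 1 := Nat.exists_eq_succ_of_ne_zero (per_pos ok).ne'
  obtain ⟨e, e1, e2⟩ := main n (by omega) (bot 0 h0) (by rw [← hn, walk_per])
  have good := p1b_trans e2 (c2 (by norm_num))
  refine ⟨e.trans gC, χ, ?_, fun δ hδ hδ' => ?_⟩
  · rw [χ.trans, e1, xC]
    calc _ = (τ k)⁻¹ * Multiplicative.ofAdd 1 * τ k := by
          simp only [mul_assoc, mul_inv_cancel_left]
      _ = _ := by rw [mul_right_comm, inv_mul_cancel, one_mul]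
  · obtain ⟨b, b', γ, hγ, hv⟩ := good δ hδ hδ'
    obtain rfl : b = b' := by
      apply Subtype.ext
      have e1 := hγ 1
      have e2 := hγ 0
      rw [γ.target, Path.target] at e1
      rw [γ.source, Path.source] at e2
      rw [e1, e2]
    refine ⟨b, γ, hγ, fun G _ φ P τp τm h => ?_⟩
    rw [hv G φ P τp τm h, Raw, hn]
    simp only [one_mul]

end Vale.Agent.N258B
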