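import Vale.Agent.N258B.W4

/-! Block P1: a small meridian and the knot pushed upwards. -/

namespace Vale.Agent.N258B

open Set Filter Topology
open Vale.Agent.P258.Braid (Word)
open Vale.Agent.P002Z

variable {nb o : ℕ} {w : Word}

/-- the base point on the knot -/
noncomputable def k0 : ℂ × ℝ := ((1 / 4 : ℂ), -(1 / 2 : ℝ))

theorem P1a_strand (w : Word) (p : ℕ) : strand nb w p (-(1 / 2)) = cap nb p (1 / 2) := by
  rw [strand_bot nb w p (by norm_num), neg_neg]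

theorem k0_mem (h : 0 < nb) (w : Word) : k0 ∈ knot nb w := by
  refine ⟨0, by omega, by norm_num [k0], ?_, ?_⟩
  · have : (0 : ℝ) ≤ w.length := Nat.cast_nonneg _
    change -(1 / 2 : ℝ) ≤ _
    linarith
  · change (1 / 4 : ℂ) = strand nb w 0 (-(1 / 2))
    rw [P1a_strand, cap, if_pos (by omega), min_eq_left (by norm_num)]
    norm_num

theorem P1a_cap {p : ℕ} (h1 : 1 / 8 ≤ (cap nb p (1 / 2)).re) (h2 : (cap nb p (1 / 2)).re ≤ 3 / 8) :
    cap nb p (1 / 2) = 1 / 4 := by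
  by_cases hp : p < 2 * nb
  · rw [cap, if_pos hp, min_eq_left (by norm_num)] at h1 h2 ⊢
    rw [Complex.ofReal_re] at h1 h2
    rcases Nat.eq_zero_or_pos p with rfl | h0
    · norm_num
    · have h3 : (1 : ℝ) ≤ p := by exact_mod_cast h0
      rcases neg_one_pow_eq_or ℝ p with h4 | h4 <;> rw [h4] at h2 <;> linarith
  · rw [cap, if_neg hp, Complex.natCast_re] at h1 h2
    rcases Nat.eq_zero_or_pos p with rfl | h0
    · norm_num at h1
    · have h3 : (1 : ℝ) ≤ p := by exact_mod_cast h0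
      linarith

theorem P1a_up {e : ℝ} {y : ℂ × ℝ} (h : y.2 = -(1 / 2)) (h1 : 1 / 8 ≤ y.1.re)
    (h2 : y.1.re ≤ 3 / 8) (h3 : y.1.re = 1 / 4 → 0 < e * y.1.im) :
    y ∈ Subtype.val '' Up nb o w e := by
  have key : ∀ p, (strand nb w p y.2).re = y.1.re → 0 < e * (y.1.im - (strand nb w p y.2).im) := by
    intro p hp
    rw [h, P1a_strand] at hp ⊢
    have h4 := P1a_cap (p := p) (hp ▸ h1) (hp ▸ h2)
    rw [h4] at hp ⊢
    have h5 : (1 / 4 : ℂ).im = 0 := by norm_num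
    rw [h5, sub_zero]
    exact h3 (by rw [← hp]; norm_num)
  refine ⟨⟨y, ?_⟩, fun p _ _ hp => key p hp, rfl⟩
  rintro ⟨p, -, -, hp⟩
  have := key p (by rw [← hp])
  rw [← hp, sub_self, mul_zero] at this
  exact lt_irrefl _ this

theorem P1a_seg {δ e σ : ℝ} (h0 : 0 < δ) (h1 : δ ≤ 1 / 8) (he : e = 1 ∨ e = -1)
    (hσ : σ = 1 ∨ σ = -1) {x y : XX nb o w} (hx : x.1 = k0 + ((⟨0, e * δ⟩ : ℂ), (0 : ℝ)))
    (hy : y.1 = k0 + ((⟨σ * δ, 0⟩ : ℂ), (0 : ℝ))) :
    JoinedIn (Up nb o w e ∩ {z | dist z.1 k0 ≤ δ}) x y := by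
  refine joinedIn_of_segment x y fun z hz => ?_
  have hd : dist z k0 ≤ δ := by
    refine (convex_closedBall k0 δ).segment_subset ?_ ?_ hz
    · rw [Metric.mem_closedBall, dist_eq_norm, hx, add_sub_cancel_left, Prod.norm_mk, norm_zero]
      refine max_le ((Complex.norm_le_abs_re_add_abs_im _).trans ?_) h0.le
      rcases he with rfl | rfl <;> simp [abs_of_pos h0]
    · rw [Metric.mem_closedBall, dist_eq_norm, hy, add_sub_cancel_left, Prod.norm_mk, norm_zero]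
      refine max_le ((Complex.norm_le_abs_re_add_abs_im _).trans ?_) h0.le
      rcases hσ with rfl | rfl <;> simp [abs_of_pos h0]
  obtain ⟨a, c, ha, hc, hac, rfl⟩ := hz
  have e1 : (a • x.1 + c • y.1).2 = -(1 / 2) := by
    simp only [hx, hy, k0, Prod.snd_add, Prod.smul_snd, smul_eq_mul]
    linear_combination (-(1 / 2)) * hac
  have e2 : (a • x.1 + c • y.1).1.re = 1 / 4 + c * (σ * δ) := by
    simp only [hx, hy, k0, Prod.fst_add, Prod.smul_fst, Complex.add_re, Complex.smul_re,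
      smul_eq_mul]
    norm_num
    linear_combination (1 / 4) * hac
  have e3 : (a • x.1 + c • y.1).1.im = a * (e * δ) := by
    simp only [hx, hy, k0, Prod.fst_add, Prod.smul_fst, Complex.add_im, Complex.smul_im,
      smul_eq_mul]
    norm_num
  obtain ⟨u, hu, huz⟩ := P1a_up (nb := nb) (o := o) (w := w) (e := e) e1
    (by rw [e2]; rcases hσ with rfl | rfl <;> nlinarith)
    (by rw [e2]; rcases hσ with rfl | rfl <;> nlinarith)
    (by
      rw [e2, e3]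
      intro h
      have hc0 : c = 0 := by
        rcases hσ with rfl | rfl <;> nlinarith
      have ha1 : a = 1 := by linarith
      rcases he with rfl | rfl <;> nlinarith)
  exact ⟨u, ⟨hu, by rw [mem_ofPred_eq, huz]; exact hd⟩, huz⟩

theorem P1a_side {δ σ : ℝ} (h0 : 0 < δ) (h1 : δ ≤ 1 / 8) (hσ : σ = 1 ∨ σ = -1) :
    ∃ y ∈ Up nb o w 1 ∩ Up nb o w (-1), y.1 = k0 + ((⟨σ * δ, 0⟩ : ℂ), (0 : ℝ)) := by
  have e1 : (k0 + ((⟨σ * δ, 0⟩ : ℂ), (0 : ℝ))).2 = -(1 / 2) := by simp [k0]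
  have e2 : (k0 + ((⟨σ * δ, 0⟩ : ℂ), (0 : ℝ))).1.re = 1 / 4 + σ * δ := by
    simp only [k0, Prod.fst_add, Complex.add_re]
    norm_num
  have key : ∀ e : ℝ, k0 + ((⟨σ * δ, 0⟩ : ℂ), (0 : ℝ)) ∈ Subtype.val '' Up nb o w e := fun e =>
    P1a_up e1 (by rw [e2]; rcases hσ with rfl | rfl <;> linarith)
      (by rw [e2]; rcases hσ with rfl | rfl <;> linarith)
      (by rw [e2]; intro h; exfalso; rcases hσ with rfl | rfl <;> linarith)
  obtain ⟨y, hy, e3⟩ := key 1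
  obtain ⟨y', hy', e4⟩ := key (-1)
  obtain rfl : y = y' := Subtype.ext (e3.trans e4.symm)
  exact ⟨y, ⟨hy, hy'⟩, e3⟩

theorem small_meridian (ok : Ok nb o w) {δ : ℝ} (h0 : 0 < δ) (h1 : δ ≤ 1 / 8) (b : XX nb o w)
    (hb : b.1 = k0 + ((δ * Complex.I : ℂ), (0 : ℝ))) :
    ∃ m0 : Path b b, (∀ t, dist (m0 t).1 k0 ≤ δ) ∧
      ∀ (G : Type) [Group G] (φ : PF (XX nb o w) G) (P : ℕ → G) (τp τm : XX nb o w → G),
        Reg φ P τp τm → φ.v m0 = (τp b)⁻¹ * ((P 1)⁻¹ * P 0) * τp b := by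
  obtain ⟨l, hl, hl1⟩ := P1a_side (nb := nb) (o := o) (w := w) h0 h1 (Or.inr rfl)
  obtain ⟨r, hr, hr1⟩ := P1a_side (nb := nb) (o := o) (w := w) h0 h1 (Or.inl rfl)
  have hb' : b.1 = k0 + ((⟨0, 1 * δ⟩ : ℂ), (0 : ℝ)) := by
    rw [hb]
    congr 2
    exact Complex.ext (by simp) (by simp)
  obtain ⟨c, -, hc⟩ := P1a_up (nb := nb) (o := o) (w := w) (e := -1)
    (y := k0 + ((⟨0, -1 * δ⟩ : ℂ), (0 : ℝ))) (by simp [k0]) (by norm_num [k0]) (by norm_num [k0])
    (fun _ => by simpa [k0] using h0)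
  obtain ⟨p1, q1⟩ := P1a_seg h0 h1 (Or.inl rfl) (Or.inr rfl) hb' hl1
  obtain ⟨p2, q2⟩ := (P1a_seg h0 h1 (Or.inr rfl) (Or.inr rfl) hc hl1).symm.trans
    (P1a_seg h0 h1 (Or.inr rfl) (Or.inl rfl) hc hr1)
  obtain ⟨p3, q3⟩ := (P1a_seg h0 h1 (Or.inl rfl) (Or.inl rfl) hb' hr1).symm
  refine ⟨p1.trans (p2.trans p3), fun t => ?_, fun G _ φ P τp τm h => ?_⟩
  · have : range (p1.trans (p2.trans p3)) ⊆ {z | dist z.1 k0 ≤ δ} := by
      rw [Path.trans_range, Path.trans_range]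
      refine union_subset ?_ (union_subset ?_ ?_)
      · rintro _ ⟨t, rfl⟩; exact (q1 t).2
      · rintro _ ⟨t, rfl⟩; exact (q2 t).2
      · rintro _ ⟨t, rfl⟩; exact (q3 t).2
    exact this ⟨t, rfl⟩
  · have e1 : τm l = P 0 * τp l := by
      rw [h.lab l hl]
      congr 1
      refine (QQ_cap0 ok P (y := l.1) (by simp [hl1, k0])).1 ?_
      rw [hl1]
      simp only [k0, Prod.fst_add, Complex.add_re]
      norm_num
      exact h0
    have e2 : τm r = P 1 * τp r := by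
      rw [h.lab r hr]
      congr 1
      refine (QQ_cap0 ok P (y := r.1) (by simp [hr1, k0])).2 ?_ ?_
      · rw [hr1]
        simp only [k0, Prod.fst_add, Complex.add_re]
        norm_num
        exact h0
      · rw [hr1]
        simp only [k0, Prod.fst_add, Complex.add_re]
        norm_num
        linarith
    rw [φ.trans, φ.trans, h.up _ _ p1 fun t => (q1 t).1, h.dn _ _ p2 fun t => (q2 t).1,
      h.up _ _ p3 fun t => (q3 t).1, e1, e2]
    group

end Vale.Agent.N258B
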