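import Vale.Agent.N258B.T1

/-! Block T: the circle and punctured solid tori. -/

namespace Vale.Agent.N258B

open Set Filter Topology
open Vale.Agent.P258.Braid (Word)
open Vale.Agent.P002Z

variable {G : Type} [Group G]

theorem T2_ex_add_int (s : ℝ) (i : ℤ) : ex (s + i) = ex s :=
  Circle.exp_eq_exp.2 ⟨i, by ring⟩

theorem T2_ex_mul (p : ℤ) (s : ℝ) : (ex (p * s) : ℂ) = (ex s : ℂ) ^ p := by
  simp only [ex, Circle.coe_exp]
  rw [← Complex.exp_int_mul]
  congr 1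
  push_cast
  ring

theorem T2_lift (γ : C(I, Circle)) (s0 : ℝ) (h0 : ex s0 = γ 0) (h : γ 1 = γ 0) :
    ∃ (s : C(I, ℝ)) (n : ℤ), s 0 = s0 ∧ s 1 = s0 + n ∧ ∀ t, ex (s t) = γ t := by
  obtain ⟨Γ, h1, h2⟩ := Circle.isCoveringMap_exp.exists_path_lifts γ (2 * Real.pi * s0) h0.symm
  have h3 : ∀ t, Circle.exp (Γ t) = γ t := fun t => congrFun h1 t
  obtain ⟨n, hn⟩ := Circle.exp_eq_exp.1 ((h3 1).trans (h.trans (h3 0).symm))
  have hp : 2 * Real.pi ≠ 0 := by positivity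
  refine ⟨⟨fun t => Γ t / (2 * Real.pi), by fun_prop⟩, n, ?_, ?_, fun t => ?_⟩
  · simp only [ContinuousMap.coe_mk, h2]
    field_simp
  · simp only [ContinuousMap.coe_mk, hn, h2]
    field_simp
  · simp only [ContinuousMap.coe_mk, ex]
    rw [mul_div_cancel₀ _ hp, h3]

theorem T2_surj (u : Circle) : ∃ s, ex s = u :=
  ⟨Complex.arg u / (2 * Real.pi), by
    rw [ex, mul_div_cancel₀ _ (by positivity), Circle.exp_arg]⟩

/-- the universal cover of a punctured solid torus -/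
abbrev T2W (J : Set ℝ) : Type := ↥{z : ℝ × ℝ × ℝ | z.2.2 ∈ J}

theorem T2_norm {r : ℝ} (h : 0 < r) (u : Circle) : ‖(r : ℂ) * u‖ = r := by
  rw [norm_mul, Circle.norm_coe, mul_one, Complex.norm_real, Real.norm_of_nonneg h.le]

/-- the covering map -/
noncomputable def T2pi {J : Set ℝ} (hJ : J ⊆ Ioi 0) : C(T2W J, TJ J) :=
  ⟨fun z => ⟨(ex z.1.2.1, (z.1.2.2 : ℂ) * ex z.1.1), by
      rw [T2_norm (hJ z.2)]
      exact z.2⟩, by
    have := continuous_ex
    fun_prop⟩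

/-- the deck transformations -/
def T2tr (J : Set ℝ) (i k : ℤ) : C(T2W J, T2W J) :=
  ⟨fun z => ⟨(z.1.1 + i, z.1.2.1 + k, z.1.2.2), z.2⟩, by fun_prop⟩

theorem T2pi_tr {J : Set ℝ} (hJ : J ⊆ Ioi 0) (i k : ℤ) (z : T2W J) :
    T2pi hJ (T2tr J i k z) = T2pi hJ z :=
  Subtype.ext (by simp only [T2pi, T2tr, ContinuousMap.coe_mk, T2_ex_add_int])

theorem T2tr_add (J : Set ℝ) (i k i' k' : ℤ) (z : T2W J) :
    T2tr J (i + i') (k + k') z = T2tr J i k (T2tr J i' k' z) :=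
  Subtype.ext (by simp only [T2tr, ContinuousMap.coe_mk]; push_cast; ring_nf)

/-- a straight path in the universal cover -/
def T2seg {J : Set ℝ} {r : ℝ} (hr : r ∈ J) (i k : ℤ) :
    Path (⟨(0, 0, r), hr⟩ : T2W J) (T2tr J i k ⟨(0, 0, r), hr⟩) where
  toFun t := ⟨(i * t, k * t, r), hr⟩
  continuous_toFun := by fun_prop
  source' := by simp
  target' := Subtype.ext (by simp [T2tr])

theorem T2_key {J : Set ℝ} (hJ : J ⊆ Ioi 0) (hc : J.OrdConnected) (α : PF (TJ J) G) {r : ℝ}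
    (hr : r ∈ J) {b : TJ J} (m l : Path b b)
    (hm : ∀ t, (m t).1 = (1, (r : ℂ) * ex t)) (hl : ∀ t, (l t).1 = (ex t, (r : ℂ))) :
    Commute (α.v m) (α.v l) ∧ ∃ g : T2W J → G, g ⟨(0, 0, r), hr⟩ = 1 ∧
      ∀ (w : T2W J) (i k : ℤ) (q : Path w (T2tr J i k w)) (y : TJ J) (p : Path y y),
        (∀ x, p x = T2pi hJ (q x)) → α.v p = (g w)⁻¹ * (α.v m ^ i * α.v l ^ k) * g w := by
  have hcv : Convex ℝ {z : ℝ × ℝ × ℝ | z.2.2 ∈ J} :=
    hc.convex.is_linear_preimage (f := fun z : ℝ × ℝ × ℝ => z.2.2) ⟨fun _ _ => rfl, fun _ _ => rfl⟩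
  have hsc : SimplyConnectedSpace (T2W J) := G1_sc hcv ⟨(0, 0, r), hr⟩
  obtain ⟨τ, hτ⟩ := exists_pot_univ (α.comap (T2pi hJ))
  let w0 : T2W J := ⟨(0, 0, r), hr⟩
  have h1 : ∀ i k w, τ (T2tr J i k w) * (τ w)⁻¹ = τ (T2tr J i k w0) * (τ w0)⁻¹ := by
    intro i k w
    refine pot_ratio (φ := α.comap (T2pi hJ)) (V' := univ) (τ' := fun z => τ (T2tr J i k z)) hτ
      (fun x y p _ => ?_) ?_
    · rw [← hτ _ _ (p.map (T2tr J i k).continuous) fun _ => mem_univ _]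
      exact α.congr fun t => (T2pi_tr hJ i k (p t)).symm
    · rw [inter_self, joinedIn_univ]
      exact PathConnectedSpace.joined _ _
  let c : Multiplicative (ℤ × ℤ) →* G := MonoidHom.mk'
    (fun a => (τ w0)⁻¹ * (τ (T2tr J a.toAdd.1 a.toAdd.2 w0) * (τ w0)⁻¹) * τ w0) (by
      intro a a'
      have := h1 a.toAdd.1 a.toAdd.2 (T2tr J a'.toAdd.1 a'.toAdd.2 w0)
      rw [← T2tr_add] at this
      rw [← this, toAdd_mul, Prod.fst_add, Prod.snd_add]
      group)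
  have h2 : ∀ (w : T2W J) (i k : ℤ) (q : Path w (T2tr J i k w)) (y : TJ J) (p : Path y y),
      (∀ x, p x = T2pi hJ (q x)) →
        α.v p = ((τ w0)⁻¹ * τ w)⁻¹ * (c (Multiplicative.ofAdd (i, k)))⁻¹ * ((τ w0)⁻¹ * τ w) := by
    intro w i k q y p hp
    have e : α.v p = (τ (T2tr J i k w))⁻¹ * τ w := by
      rw [← hτ _ _ q fun _ => mem_univ _]
      exact α.congr hp
    have e' : c (Multiplicative.ofAdd (i, k)) =
      (τ w0)⁻¹ * (τ (T2tr J i k w0) * (τ w0)⁻¹) * τ w0 := rfl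
    rw [e, e', ← h1 i k w]
    group
  have hM : α.v m = c (Multiplicative.ofAdd (1, 0))⁻¹ := by
    rw [h2 w0 1 0 (T2seg hr 1 0) b m fun x => Subtype.ext (by
      simp [hm, T2pi, T2seg, ex_zero]), map_inv]
    group
  have hL : α.v l = c (Multiplicative.ofAdd (0, 1))⁻¹ := by
    rw [h2 w0 0 1 (T2seg hr 0 1) b l fun x => Subtype.ext (by
      simp [hl, T2pi, T2seg, ex_zero]), map_inv]
    group
  refine ⟨?_, fun w => (τ w0)⁻¹ * τ w, inv_mul_cancel _, fun w i k q y p hp => ?_⟩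
  · rw [hM, hL]
    exact (Commute.all _ _).map c
  · rw [h2 w i k q y p hp, hM, hL, ← map_zpow, ← map_zpow, ← map_mul, ← map_inv]
    congr 3
    apply Multiplicative.toAdd.injective
    simp

/-- the fundamental group of a punctured solid torus -/
theorem torus_pow {J : Set ℝ} (hJ : J ⊆ Ioi 0) (hc : J.OrdConnected) (a : C(TJ J, Circle))
    (ha : ∀ x, x.1.2 = (‖x.1.2‖ : ℂ) * a x) (α : PF (TJ J) G) {r : ℝ} (h0 : 0 < r)
    {b : TJ J} (m l : Path b b)
    (hm : ∀ t, (m t).1 = (1, (r : ℂ) * ex t)) (hl : ∀ t, (l t).1 = (ex t, (r : ℂ))) :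
    Commute (α.v m) (α.v l) ∧ ∀ y, ∃ g, ∀ p : Path y y,
      α.v p = g⁻¹ * (α.v m ^ (Multiplicative.toAdd ((dg.comap a).v p)) *
        α.v l ^ (Multiplicative.toAdd ((dg.comap (fstC J)).v p))) * g := by
  have hr : r ∈ J := by
    have := (m 0).2
    rwa [hm, T2_norm h0] at this
  have hr0 : (r : ℂ) ≠ 0 := by exact_mod_cast h0.ne'
  obtain ⟨hcm, g, -, hg⟩ := T2_key hJ hc α hr m l hm hl
  obtain ⟨-, g1, -, hg1⟩ := T2_key hJ hc (dg.comap a) hr m l hm hl
  obtain ⟨-, g2, -, hg2⟩ := T2_key hJ hc (dg.comap (fstC J)) hr m l hm hl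
  have a1 : (dg.comap a).v m = Multiplicative.ofAdd 1 := by
    rw [← dg_exLoop]
    refine dg.congr fun t => Circle.ext ?_
    have := ha (m t)
    rw [hm, T2_norm h0] at this
    exact (mul_left_cancel₀ hr0 this).symm
  have a2 : (dg.comap a).v l = 1 := by
    rw [← dg.refl 1]
    refine dg.congr fun t => Circle.ext ?_
    have := ha (l t)
    rw [hl, Complex.norm_real, Real.norm_of_nonneg h0.le] at this
    exact (mul_left_cancel₀ hr0 ((mul_one _).trans this)).symm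
  have a3 : (dg.comap (fstC J)).v m = 1 := by
    rw [← dg.refl 1]
    exact dg.congr fun t => congrArg Prod.fst (hm t)
  have a4 : (dg.comap (fstC J)).v l = Multiplicative.ofAdd 1 := by
    rw [← dg_exLoop]
    exact dg.congr fun t => congrArg Prod.fst (hl t)
  refine ⟨hcm, fun y => ?_⟩
  obtain ⟨s0, hs0⟩ := T2_surj (a y)
  obtain ⟨t0, ht0⟩ := T2_surj y.1.1
  let w : T2W J := ⟨(s0, t0, ‖y.1.2‖), y.2⟩
  refine ⟨g w, fun p => ?_⟩
  obtain ⟨s, i, e1, e2, e3⟩ := T2_lift (a.comp p.toContinuousMap) s0 (by simpa using hs0) (by simp)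
  obtain ⟨t, k, e4, e5, e6⟩ := T2_lift ((fstC J).comp p.toContinuousMap) t0
    (by simpa [fstC] using ht0) (by simp)
  let q : Path w (T2tr J i k w) :=
    { toFun := fun x => ⟨(s x, t x, ‖(p x).1.2‖), (p x).2⟩
      continuous_toFun := by fun_prop
      source' := Subtype.ext (by simp [w, e1, e4])
      target' := Subtype.ext (by simp [w, e2, e5, T2tr]) }
  have hq : ∀ x, p x = T2pi hJ (q x) := fun x => Subtype.ext (Prod.ext (e6 x).symm
    ((ha (p x)).trans (congrArg (fun u : Circle => (‖(p x).1.2‖ : ℂ) * u) (e3 x).symm)))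
  have b1 : Multiplicative.toAdd ((dg.comap a).v p) = i := by
    rw [hg1 w i k q y p hq, a1, a2]
    simp
  have b2 : Multiplicative.toAdd ((dg.comap (fstC J)).v p) = k := by
    rw [hg2 w i k q y p hq, a3, a4]
    simp
  rw [b1, b2]
  exact hg w i k q y p hq

/-- the punctured solid torus in the complement of the core -/
theorem exists_tube {Z : Type} [TopologicalSpace Z] {ν : Circle × ℂ → Z} (hν : IsOpenEmbedding ν)
    {J : Set ℝ} (hJ : J ⊆ Ioi 0) :
    ∃ j : C(TJ J, ↥(core ν)ᶜ), IsEmbedding j ∧ ∀ x, (j x).1 = ν x.1 := by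
  have hm : ∀ x : TJ J, (ν ∘ Subtype.val) x ∈ (core ν)ᶜ := by
    rintro x ⟨u, hu⟩
    have h1 : (0 : ℂ) = x.1.2 := congrArg Prod.snd (hν.injective hu)
    have h2 := hJ x.2
    rw [← h1, norm_zero] at h2
    exact lt_irrefl (0 : ℝ) h2
  have he := (hν.isEmbedding.comp IsEmbedding.subtypeVal).codRestrict _ hm
  exact ⟨⟨_, he.continuous⟩, he, fun _ => rfl⟩

/-- meridian, longitude and the curve of slope `p` -/
theorem exists_loops {Z : Type} [TopologicalSpace Z] {ν : Circle × ℂ → Z} (hν : IsOpenEmbedding ν)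
    (p : ℤ) : ∃ (a : ↥(core ν)ᶜ) (mu lam sl : Path a a), (∀ t, (mu t).1 = ν (1, ex t)) ∧
      (∀ t, (lam t).1 = ν (ex t, 1)) ∧ (∀ t, (sl t).1 = ν (ex t, (ex t : ℂ) ^ p)) ∧
      ∀ (G : Type) [Group G] (β : PF (↥(core ν)ᶜ) G),
        Commute (β.v mu) (β.v lam) ∧ β.v sl = β.v mu ^ p * β.v lam := by
  obtain ⟨j, -, hj⟩ := exists_tube hν (J := Ioi 0) Subset.rfl
  have hr : (1 : ℝ) ∈ Ioi (0 : ℝ) := mem_Ioi.2 one_pos
  obtain ⟨b, m, l, hm, hl⟩ := exists_torus_loops one_pos hr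
  have hb : b.1 = (1, 1) := by simpa [ex_zero] using hl 0
  have hs : ∀ x : I, (T2pi Subset.rfl (T2seg hr p 1 x)).1 = (ex x, (ex x : ℂ) ^ p) := fun x => by
    simp [T2pi, T2seg, T2_ex_mul]
  let s : Path b b :=
    { toFun := fun x => T2pi Subset.rfl (T2seg hr p 1 x)
      continuous_toFun := by fun_prop
      source' := Subtype.ext (by rw [hs, hb]; simp [ex_zero])
      target' := Subtype.ext (by rw [hs, hb]; simp [ex_one]) }
  refine ⟨j b, m.map j.continuous, l.map j.continuous, s.map j.continuous, fun t => ?_,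
    fun t => ?_, fun t => ?_, fun G _ β => ?_⟩
  · exact (hj _).trans (congrArg ν (by simpa using hm t))
  · exact (hj _).trans (congrArg ν (by simpa using hl t))
  · exact (hj _).trans (congrArg ν (hs t))
  · obtain ⟨h1, g, h2, h3⟩ := T2_key Subset.rfl ordConnected_Ioi (β.comap j) hr m l hm hl
    refine ⟨h1, ?_⟩
    have := h3 _ p 1 (T2seg hr p 1) b s fun _ => rfl
    rw [h2, inv_one, one_mul, mul_one, zpow_one] at this
    exact this

end Vale.Agent.N258B
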