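import Vale.Agent.N258B.QA

/-! Block Q: the labels of the regions of the diagram. -/

namespace Vale.Agent.N258B

open Set Filter Topology
open Vale.Agent.P258.Braid (Word)
open Vale.Agent.P002Z

variable {nb o : ℕ} {w : Word} {G : Type} [Group G]

/-- the reference points -/
theorem exists_ref (ok : Ok nb o w) {k : ℕ} (hk : k ≤ w.length) (j : ℕ) :
    ∃ r : XX nb o w, r.1 = (((((j : ℝ) - 1 / 2 : ℝ)) : ℂ), (k : ℝ)) ∧
      r ∈ Up nb o w 1 ∩ Up nb o w (-1) := by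
  have _ := ok
  have h : ∀ p < 2 * nb + o, act nb w p ((((((j : ℝ) - 1 / 2 : ℝ)) : ℂ), (k : ℝ)) : ℂ × ℝ).2 →
      (strand nb w p ((((((j : ℝ) - 1 / 2 : ℝ)) : ℂ), (k : ℝ)) : ℂ × ℝ).2).re ≠
        ((((((j : ℝ) - 1 / 2 : ℝ)) : ℂ), (k : ℝ)) : ℂ × ℝ).1.re := by
    intro p _ _ h
    dsimp only at h
    rw [strand_int p hk, Complex.natCast_re, Complex.ofReal_re] at h
    have h2 : ((2 * pos w k p + 1 : ℕ) : ℝ) = ((2 * j : ℕ) : ℝ) := by
      push_cast
      linarith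
    have := Nat.cast_injective h2
    omega
  exact ⟨⟨_, not_mem_link h⟩, rfl, mem_up_up.2 h⟩

/-- segments, when the strands move in an affine way -/
theorem QB_seg (y : XX nb o w) (z : ℂ × ℝ) {a b : ℝ} (hy : y.1.2 ∈ Icc a b) (hz : z.2 ∈ Icc a b)
    (h : ∀ p < 2 * nb + o, ∃ α β : ℝ, (∀ t ∈ Icc a b, act nb w p t → (strand nb w p t).re = α + β * t) ∧
      ((α + β * y.1.2 < y.1.1.re ∧ α + β * z.2 < z.1.re) ∨
        (y.1.1.re < α + β * y.1.2 ∧ z.1.re < α + β * z.2))) :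
    ∃ r : XX nb o w, r.1 = z ∧ JoinedIn (Up nb o w 1 ∩ Up nb o w (-1)) y r := by
  have key : ∀ u ∈ segment ℝ y.1 z,
      ∀ p < 2 * nb + o, act nb w p u.2 → (strand nb w p u.2).re ≠ u.1.re := by
    rintro u ⟨c, d, hc, hd, hcd, rfl⟩ p hp ha
    obtain ⟨α, β, h1, h2⟩ := h p hp
    have e1 : (c • y.1 + d • z).1.re = c * y.1.1.re + d * z.1.re := by simp
    have e2 : (c • y.1 + d • z).2 = c * y.1.2 + d * z.2 := by simp
    have hm : (c • y.1 + d • z).2 ∈ Icc a b := by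
      rw [e2]
      exact convex_Icc (𝕜 := ℝ) a b hy hz hc hd hcd
    have hneg : ∀ {u v : ℝ}, u < 0 → v < 0 → c * u + d * v < 0 := fun hu hv =>
      convex_Iio (𝕜 := ℝ) (0 : ℝ) hu hv hc hd hcd
    rw [h1 _ hm ha, e1, e2]
    have e3 : α = c * α + d * α := by rw [← add_mul, hcd, one_mul]
    rcases h2 with ⟨h3, h4⟩ | ⟨h3, h4⟩
    · have := hneg (sub_neg.2 h3) (sub_neg.2 h4)
      apply ne_of_lt
      nlinarith
    · have := hneg (sub_neg.2 h3) (sub_neg.2 h4)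
      apply ne_of_gt
      nlinarith
  refine ⟨⟨z, not_mem_link (key z (right_mem_segment _ _ _))⟩, rfl,
    joinedIn_of_segment _ _ fun u hu => ?_⟩
  exact ⟨⟨u, not_mem_link (key u hu)⟩, mem_up_up.2 (key u hu), rfl⟩

/-- points close to the level `k` -/
theorem QB_level (ok : Ok nb o w) {y : XX nb o w} (hy : y ∈ Up nb o w 1 ∩ Up nb o w (-1)) {k : ℕ}
    {a b : ℝ} (hya : y.1.2 ∈ Icc a b) (hk : (k : ℝ) ∈ Icc a b) (hact : ∀ p, act nb w p y.1.2)
    (h : ∀ p, ∃ β : ℝ, |β * (y.1.2 - k)| ≤ 1 / 2 ∧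
      ∀ t ∈ Icc a b, (strand nb w p t).re = pos w k p + β * (t - k)) :
    ∃ j ≤ 2 * nb + o, ∃ r : XX nb o w, r.1 = (((((j : ℝ) - 1 / 2 : ℝ)) : ℂ), (k : ℝ)) ∧
      JoinedIn (Up nb o w 1 ∩ Up nb o w (-1)) y r := by
  classical
  choose β hβ hre using h
  have hne := mem_up_up.1 hy
  have hex : ∃ j : ℕ, ∀ p < 2 * nb + o, j ≤ pos w k p → y.1.1.re < (strand nb w p y.1.2).re :=
    ⟨2 * nb + o, fun p hp hj => absurd ((pos_lt ok.rng k p).2 hp) (not_lt.2 hj)⟩
  refine ⟨Nat.find hex, Nat.find_min' hex fun p hp hj =>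
    absurd ((pos_lt ok.rng k p).2 hp) (not_lt.2 hj), ?_⟩
  refine QB_seg y _ hya hk fun p hp => ⟨pos w k p - β p * k, β p, fun t ht _ => ?_, ?_⟩
  · rw [hre p t ht]
    ring
  have e1 : pos w k p - β p * k + β p * y.1.2 = (strand nb w p y.1.2).re := by
    rw [hre p _ hya]
    ring
  rw [e1]
  dsimp only
  rw [Complex.ofReal_re, sub_add_cancel]
  rcases lt_or_ge (pos w k p) (Nat.find hex) with hj | hj
  · left
    constructor
    · have h1 := Nat.find_min hex hj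
      push Not at h1
      obtain ⟨q, -, hq1, hq2⟩ := h1
      refine lt_of_le_of_ne (le_trans ?_ hq2) (hne p hp (hact p))
      rcases hq1.lt_or_eq with h2 | h2
      · rw [hre p _ hya, hre q _ hya]
        have h3 : ((pos w k p + 1 : ℕ) : ℝ) ≤ pos w k q := Nat.cast_le.2 h2
        push_cast at h3
        linarith [(abs_le.1 (hβ p)).2, (abs_le.1 (hβ q)).1]
      · rw [pos_inj w k h2]
    · have h3 : ((pos w k p + 1 : ℕ) : ℝ) ≤ (Nat.find hex : ℕ) := Nat.cast_le.2 hj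
      push_cast at h3
      linarith
  · right
    refine ⟨Nat.find_spec hex p hp hj, ?_⟩
    have h3 : ((Nat.find hex : ℕ) : ℝ) ≤ pos w k p := Nat.cast_le.2 hj
    linarith

theorem QB_abs {β s : ℝ} {c d : ℝ} (h1 : |β| ≤ c) (h2 : |s| ≤ d) (h : c * d ≤ 1 / 2) :
    |β * s| ≤ 1 / 2 := by
  rw [abs_mul]
  exact (mul_le_mul h1 h2 (abs_nonneg _) ((abs_nonneg _).trans h1)).trans h

theorem QB_cap (q : ℕ) : ∃ β : ℝ, |β| ≤ 1 / 2 ∧ ∀ s ≤ 1, (cap nb q s).re = q + β * s := by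
  by_cases hq : q < 2 * nb
  · refine ⟨(-1) ^ q / 2, ?_, fun s hs => ?_⟩
    · rw [abs_div, abs_neg_one_pow, abs_two]
    · rw [QA_cap_re, if_pos hq, min_eq_left hs]
      ring
  · refine ⟨0, by norm_num, fun s _ => ?_⟩
    rw [QA_cap_re, if_neg hq]
    ring

/-- points at the heights of the knot -/
theorem QB_near (ok : Ok nb o w) {y : XX nb o w} (hy : y ∈ Up nb o w 1 ∩ Up nb o w (-1))
    (h1 : -1 ≤ y.1.2) (h2 : y.1.2 ≤ w.length + 1) :
    ∃ k ≤ w.length, ∃ j ≤ 2 * nb + o, ∃ r : XX nb o w, r.1 = (((((j : ℝ) - 1 / 2 : ℝ)) : ℂ), (k : ℝ)) ∧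
      JoinedIn (Up nb o w 1 ∩ Up nb o w (-1)) y r := by
  have hact : ∀ p, act nb w p y.1.2 := fun p => Or.inr ⟨h1, h2⟩
  rcases slab w y.1.2 with ht | ht | ⟨k, x, hx, t1, t2⟩
  · refine ⟨0, Nat.zero_le _, QB_level ok hy (a := -1) (b := 0) ⟨h1, ht⟩ (by simp) hact
      fun p => ?_⟩
    obtain ⟨β, hβ, h⟩ := QB_cap p
    refine ⟨-β, QB_abs (c := 1 / 2) (d := 1) (by rwa [abs_neg]) ?_ (by norm_num), fun t ht => ?_⟩
    · rw [abs_le, Nat.cast_zero]
      constructor <;> linarith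
    · rw [strand_bot nb w p ht.2, h _ (by linarith [ht.1]), pos_zero, Nat.cast_zero]
      ring
  · refine ⟨w.length, le_rfl, QB_level ok hy (a := w.length) (b := w.length + 1) ⟨ht, h2⟩
      ⟨le_rfl, by linarith⟩ hact fun p => ?_⟩
    obtain ⟨β, hβ, h⟩ := QB_cap (pos w w.length p)
    refine ⟨β, QB_abs (c := 1 / 2) (d := 1) hβ ?_ (by norm_num), fun t ht => ?_⟩
    · rw [abs_le]
      constructor <;> linarith
    · rw [strand_top p ht.1, h _ (by linarith [ht.2])]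
  · have hk := QA_lt hx
    rcases le_total y.1.2 (k + 1 / 2) with t3 | t3
    · refine ⟨k, hk.le, QB_level ok hy (a := k) (b := k + 1) ⟨t1, t2⟩
        ⟨le_rfl, by linarith⟩ hact fun p => ?_⟩
      have hs : |y.1.2 - k| ≤ 1 / 2 := by
        rw [abs_le]
        constructor <;> linarith
      by_cases q1 : pos w k p = x.1
      · refine ⟨1, QB_abs (c := 1) (by norm_num) hs (by norm_num), fun t ht => ?_⟩
        rw [strand_mid hx p ht.1 ht.2, QA_mv_re, if_pos q1, q1]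
        ring
      by_cases q2 : pos w k p = x.1 + 1
      · refine ⟨-1, QB_abs (c := 1) (by norm_num) hs (by norm_num), fun t ht => ?_⟩
        rw [strand_mid hx p ht.1 ht.2, QA_mv_re, if_neg q1, if_pos q2, q2]
        push_cast
        ring
      · refine ⟨0, QB_abs (c := 1) (by norm_num) hs (by norm_num), fun t ht => ?_⟩
        rw [strand_mid hx p ht.1 ht.2, QA_mv_re, if_neg q1, if_neg q2]
        ring
    · refine ⟨k + 1, hk, QB_level ok hy (a := k) (b := k + 1) ⟨t1, t2⟩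
        ⟨by push_cast; linarith, by push_cast; exact le_rfl⟩ hact fun p => ?_⟩
      have hs : |y.1.2 - (k + 1 : ℕ)| ≤ 1 / 2 := by
        rw [abs_le]
        push_cast
        constructor <;> linarith
      rw [pos_succ hx, sw]
      by_cases q1 : pos w k p = x.1
      · refine ⟨1, QB_abs (c := 1) (by norm_num) hs (by norm_num), fun t ht => ?_⟩
        rw [strand_mid hx p ht.1 ht.2, QA_mv_re, if_pos q1, if_pos q1, q1]
        push_cast
        ring
      by_cases q2 : pos w k p = x.1 + 1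
      · refine ⟨-1, QB_abs (c := 1) (by norm_num) hs (by norm_num), fun t ht => ?_⟩
        rw [strand_mid hx p ht.1 ht.2, QA_mv_re, if_neg q1, if_pos q2, if_neg q1, if_pos q2]
        push_cast
        ring
      · refine ⟨0, QB_abs (c := 1) (by norm_num) hs (by norm_num), fun t ht => ?_⟩
        rw [strand_mid hx p ht.1 ht.2, QA_mv_re, if_neg q1, if_neg q2, if_neg q1, if_neg q2]
        ring

/-- points above or below the knot -/
theorem QB_far {y : XX nb o w} (hy : y ∈ Up nb o w 1 ∩ Up nb o w (-1)) {a b c : ℝ}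
    (hya : y.1.2 ∈ Icc a b) (hc : c ∈ Icc a b) (hna : ∀ p < 2 * nb, ¬ act nb w p y.1.2)
    (h6 : ∀ p, 2 * nb ≤ p → ∀ t ∈ Icc a b, (strand nb w p t).re = p)
    (h5 : ∀ p < 2 * nb, ∃ α < (2 * nb - 1 : ℝ), ∀ t ∈ Icc a b, (strand nb w p t).re = α) :
    ∃ r : XX nb o w, r.1.2 = c ∧ JoinedIn (Up nb o w 1 ∩ Up nb o w (-1)) y r := by
  have hne := mem_up_up.1 hy
  have big : ∀ p < 2 * nb + o, 2 * nb ≤ p → ((p : ℝ) < y.1.1.re ∧ (p : ℝ) < max (2 * nb - 1 : ℝ) y.1.1.re) ∨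
      (y.1.1.re < p ∧ max (2 * nb - 1 : ℝ) y.1.1.re < (p : ℝ)) := by
    intro p hp hp6
    have h1 := hne p hp (Or.inl hp6)
    rw [h6 p hp6 _ hya] at h1
    have h2 : (2 * nb : ℝ) ≤ p := by exact_mod_cast hp6
    rcases h1.lt_or_gt with h | h
    · exact Or.inl ⟨h, lt_max_of_lt_right h⟩
    · exact Or.inr ⟨h, max_lt (by linarith) h⟩
  obtain ⟨r1, e1, j1⟩ := QB_seg y (((max (2 * nb - 1) y.1.1.re : ℝ) : ℂ), y.1.2) (a := y.1.2) (b := y.1.2)
    ⟨le_rfl, le_rfl⟩ ⟨le_rfl, le_rfl⟩ fun p hp => by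
      rcases lt_or_ge p (2 * nb) with h | h
      · refine ⟨y.1.1.re - 1, 0, fun t ht ha => ?_, Or.inl ⟨by linarith, ?_⟩⟩
        · rw [le_antisymm ht.2 ht.1] at ha
          exact absurd ha (hna p h)
        · have := le_max_right (2 * nb - 1 : ℝ) y.1.1.re
          rw [Complex.ofReal_re]
          linarith
      · refine ⟨p, 0, fun t ht _ => ?_, ?_⟩
        · rw [le_antisymm ht.2 ht.1, h6 p h _ hya]
          ring
        · simpa using big p hp h
  obtain ⟨r2, e2, j2⟩ := QB_seg r1 (((max (2 * nb - 1) y.1.1.re : ℝ) : ℂ), c) (a := a) (b := b)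
    (by rw [e1]; exact hya) hc fun p hp => by
      rw [e1]
      rcases lt_or_ge p (2 * nb) with h | h
      · obtain ⟨α, h1, h2⟩ := h5 p h
        have := le_max_left (2 * nb - 1 : ℝ) y.1.1.re
        refine ⟨α, 0, fun t ht _ => ?_, Or.inl ⟨?_, ?_⟩⟩
        · rw [h2 t ht]
          ring
        · rw [Complex.ofReal_re]
          linarith
        · rw [Complex.ofReal_re]
          linarith
      · refine ⟨p, 0, fun t ht _ => ?_, ?_⟩
        · rw [h6 p h t ht]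
          ring
        · rcases big p hp h with h1 | h1
          · left
            simpa using h1.2
          · right
            simpa using h1.2
  exact ⟨r2, by rw [e2], j1.trans j2⟩

theorem QB_cap_far {q : ℕ} (hq : q < 2 * nb) : ∃ α < (2 * nb - 1 : ℝ), ∀ s, 1 ≤ s → (cap nb q s).re = α := by
  refine ⟨_, ?_, fun s hs => QA_cap_tip hq hs⟩
  have : ((q / 2 + 1 : ℕ) : ℝ) ≤ nb := Nat.cast_le.2 (by omega)
  push_cast at this
  linarith

/-- every region contains a reference point -/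
theorem joined_ref (ok : Ok nb o w) {y : XX nb o w} (hy : y ∈ Up nb o w 1 ∩ Up nb o w (-1)) :
    ∃ k ≤ w.length, ∃ j ≤ 2 * nb + o, ∃ r : XX nb o w, r.1 = (((((j : ℝ) - 1 / 2 : ℝ)) : ℂ), (k : ℝ)) ∧
      JoinedIn (Up nb o w 1 ∩ Up nb o w (-1)) y r := by
  have hL : (0 : ℝ) ≤ w.length := Nat.cast_nonneg _
  have fin : ∀ r : XX nb o w, -1 ≤ r.1.2 → r.1.2 ≤ w.length + 1 →
      JoinedIn (Up nb o w 1 ∩ Up nb o w (-1)) y r → ∃ k ≤ w.length, ∃ j ≤ 2 * nb + o, ∃ r : XX nb o w,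
        r.1 = (((((j : ℝ) - 1 / 2 : ℝ)) : ℂ), (k : ℝ)) ∧
          JoinedIn (Up nb o w 1 ∩ Up nb o w (-1)) y r := by
    intro r h1 h2 hj
    obtain ⟨k, hk, j, hj', r', e, j'⟩ := QB_near ok hj.target_mem h1 h2
    exact ⟨k, hk, j, hj', r', e, hj.trans j'⟩
  rcases lt_or_ge y.1.2 (-1) with h1 | h1
  · obtain ⟨r, e, j⟩ := QB_far hy (a := y.1.2) (b := -1) (c := -1) ⟨le_rfl, h1.le⟩
      ⟨h1.le, le_rfl⟩ (fun p hp ha => ha.elim (by omega) fun h => by linarith [h.1])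
      (fun p hp t ht => by
        rw [strand_bot nb w p (by linarith [ht.2]), QA_cap_re, if_neg (by omega)])
      fun p hp => by
        obtain ⟨α, h2, h3⟩ := QB_cap_far hp
        refine ⟨α, h2, fun t ht => ?_⟩
        rw [strand_bot nb w p (by linarith [ht.2]), h3 _ (by linarith [ht.2])]
    exact fin r e.ge (by linarith) j
  rcases lt_or_ge (w.length + 1 : ℝ) y.1.2 with h2 | h2
  · obtain ⟨r, e, j⟩ := QB_far hy (a := w.length + 1) (b := y.1.2) (c := w.length + 1)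
      ⟨h2.le, le_rfl⟩ ⟨le_rfl, h2.le⟩
      (fun p hp ha => ha.elim (by omega) fun h => by linarith [h.2])
      (fun p hp t ht => by
        rw [strand_top _ (by linarith [ht.1]), ok.top p hp, QA_cap_re, if_neg (by omega)])
      fun p hp => by
        obtain ⟨α, h3, h4⟩ := QB_cap_far ((ok.top_lt p).2 hp)
        refine ⟨α, h3, fun t ht => ?_⟩
        rw [strand_top _ (by linarith [ht.1]), h4 _ (by linarith [ht.1])]
    exact fin r (by linarith) e.le j
  · exact QB_near ok hy h1 h2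

end Vale.Agent.N258B
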