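import Vale.Agent.N258B.QA
import Vale.Agent.N258B.QB

/-! Both parts of the block. -/
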