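import Vale.Agent.N258B.Geo

/-! Block Q: the labels of the regions of the diagram. -/

namespace Vale.Agent.N258B

open Set Filter Topology
open Vale.Agent.P258.Braid (Word)
open Vale.Agent.P002Z

variable {nb o : ℕ} {w : Word} {G : Type} [Group G]

/-- the label of the region of the point -/
noncomputable def QQ (nb o : ℕ) (w : Word) (P : ℕ → G) (y : ℂ × ℝ) : G :=
  reg w P (stage w y.2) (idx nb o w y)

theorem idx_le (nb o : ℕ) (w : Word) (y : ℂ × ℝ) : idx nb o w y ≤ 2 * nb + o := by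
  unfold idx
  exact (Finset.card_filter_le _ _).trans (Finset.card_range _).le

theorem idx_of_pos (ok : Ok nb o w) (k : ℕ) {j : ℕ} (hj : j ≤ 2 * nb + o) {y : ℂ × ℝ}
    (h : ∀ p < 2 * nb + o, (strand nb w p y.2).re < y.1.re ↔ pos w k p < j) : idx nb o w y = j := by
  unfold idx
  rw [← Finset.card_range j]
  refine Finset.card_bij (fun p _ => pos w k p) (fun p hp => ?_)
    (fun p _ q _ e => pos_inj w k e) fun q hq => ?_
  · rw [Finset.mem_filter, Finset.mem_range] at hp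
    exact Finset.mem_range.2 ((h p hp.1).1 hp.2)
  · rw [Finset.mem_range] at hq
    obtain ⟨p, hp, rfl⟩ := pos_surj ok.rng k (hq.trans_le hj)
    exact ⟨p, Finset.mem_filter.2 ⟨Finset.mem_range.2 hp, (h p hp).2 hq⟩, rfl⟩

theorem QA_ceil (a : ℝ) :
    ∀ᶠ b in 𝓝 a, ⌈b⌉₊ = ⌈a⌉₊ ∨ (a = ⌈a⌉₊ ∧ ⌈b⌉₊ = ⌈a⌉₊ + 1) := by
  have h1 : ∀ᶠ b in 𝓝 a, ⌈a⌉₊ ≤ ⌈b⌉₊ := by
    rcases hn : ⌈a⌉₊ with _ | n
    · exact Eventually.of_forall fun _ => Nat.zero_le _
    · have : (n : ℝ) < a := Nat.lt_ceil.1 (by omega)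
      filter_upwards [eventually_gt_nhds this] with b hb
      exact Nat.lt_ceil.2 hb
  rcases (Nat.le_ceil a).lt_or_eq with h | h
  · filter_upwards [h1, eventually_lt_nhds h] with b hb hb'
    exact Or.inl (le_antisymm (Nat.ceil_le.2 hb'.le) hb)
  · have h2 : a < ((⌈a⌉₊ + 1 : ℕ) : ℝ) := by
      push_cast
      linarith
    filter_upwards [h1, eventually_lt_nhds h2] with b hb hb'
    have := Nat.ceil_le.2 hb'.le
    rcases hb.lt_or_eq with h3 | h3
    · exact Or.inr ⟨h, by omega⟩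
    · exact Or.inl h3.symm

theorem QA_mv_re (x : ℕ × Bool) (q : ℕ) (s : ℝ) : (mv x q s).re =
    if q = x.1 then (x.1 : ℝ) + s else if q = x.1 + 1 then (x.1 : ℝ) + 1 - s else q := by
  unfold mv
  split_ifs with h1 h2
  · rw [h1]
  · rw [h2]
    push_cast
    rfl
  · rfl

theorem QA_cap_re (q : ℕ) (s : ℝ) : (cap nb q s).re =
    if q < 2 * nb then (q : ℝ) + (-1) ^ q * min s 1 / 2 else q := by
  unfold cap
  split_ifs
  · exact Complex.ofReal_re _
  · rfl

theorem QA_lt {k : ℕ} {x : ℕ × Bool} (h : w[k]? = some x) : k < w.length :=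
  (List.getElem?_eq_some_iff.1 h).1

theorem QA_step {k : ℕ} {x : ℕ × Bool} (h : w[k]? = some x) (P : ℕ → G) {j : ℕ}
    (hj : j ≠ x.1 + 1) : reg w P (k + 1) j = reg w P k j := by
  rw [reg_succ h, stepP, Function.update_of_ne hj]

theorem QA_stage {k : ℕ} (hk : k ≤ w.length) {t : ℝ} (h1 : (k : ℝ) - 1 / 2 < t)
    (h2 : t ≤ k + 1 / 2) : stage w t = k := by
  have : ⌈t - 1 / 2⌉₊ = k := by
    refine le_antisymm (Nat.ceil_le.2 (by linarith)) ?_
    rcases k with _ | k
    · exact Nat.zero_le _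
    · refine Nat.lt_ceil.2 ?_
      push_cast at h1
      linarith
  rw [stage, this, min_eq_right hk]

theorem QA_stage_bot {t : ℝ} (h : t ≤ 1 / 2) : stage w t = 0 := by
  rw [stage, Nat.ceil_eq_zero.2 (by linarith), Nat.min_zero]

theorem QA_stage_top {t : ℝ} (h : (w.length : ℝ) + 1 / 2 ≤ t) : stage w t = w.length :=
  min_eq_left (by
    have := Nat.le_ceil (t - 1 / 2)
    exact_mod_cast (show (w.length : ℝ) ≤ ⌈t - 1 / 2⌉₊ by linarith))

/-- the index of the region outside the caps -/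
noncomputable def QA_J (nb o : ℕ) (r : ℝ) : ℕ := max (2 * nb) (min (2 * nb + o) ⌈r⌉₊)

theorem QA_cap_tip {q : ℕ} (hq : q < 2 * nb) {s : ℝ} (hs : 1 ≤ s) :
    (cap nb q s).re = 2 * (q / 2 : ℕ) + 1 / 2 := by
  rw [QA_cap_re, if_pos hq, min_eq_right hs]
  obtain ⟨m, rfl | rfl⟩ := Nat.even_or_odd' q
  · rw [show 2 * m / 2 = m by omega, (even_two_mul m).neg_one_pow]
    push_cast
    ring
  · rw [show (2 * m + 1) / 2 = m by omega, (odd_two_mul_add_one m).neg_one_pow]
    push_cast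
    ring

theorem QA_cap_one (nb o : ℕ) {s : ℝ} (hs : 1 ≤ s) (r : ℝ) :
    ∃ j ≤ 2 * nb + o, (j = QA_J nb o r ∨ ((∃ i ≤ nb, j = 2 * i) ∧ QA_J nb o r = 2 * nb)) ∧
      ∀ q < 2 * nb + o, (cap nb q s).re < r ↔ q < j := by
  have tip : ∀ q < 2 * nb, ((cap nb q s).re < r ↔ q / 2 < ⌈(r - 1 / 2) / 2⌉₊) := fun q hq => by
    rw [QA_cap_tip hq hs, Nat.lt_ceil]
    constructor <;> intro h <;> linarith
  have far : ∀ q, ¬ q < 2 * nb → ((cap nb q s).re < r ↔ q < ⌈r⌉₊) := fun q hq => by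
    rw [QA_cap_re, if_neg hq, Nat.lt_ceil]
  have h1 := Nat.le_ceil ((r - 1 / 2) / 2)
  generalize ⌈(r - 1 / 2) / 2⌉₊ = i at tip h1
  rcases lt_or_ge i nb with hi | hi
  · have h2 : ⌈r⌉₊ ≤ 2 * i + 1 := Nat.ceil_le.2 (by
      push_cast
      linarith)
    refine ⟨2 * i, by omega, Or.inr ⟨⟨i, hi.le, rfl⟩, by unfold QA_J; omega⟩, fun q _ => ?_⟩
    by_cases hq : q < 2 * nb
    · rw [tip q hq]
      omega
    · rw [far q hq]
      omega
  · refine ⟨QA_J nb o r, by unfold QA_J; omega, Or.inl rfl, fun q hq' => ?_⟩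
    unfold QA_J
    by_cases hq : q < 2 * nb
    · rw [tip q hq]
      omega
    · rw [far q hq]
      omega

theorem QA_below (ok : Ok nb o w) {P : ℕ → G} (hP : Capd nb w P) {y : ℂ × ℝ} (h : y.2 ≤ -1) :
    QQ nb o w P y = P (QA_J nb o y.1.re) := by
  obtain ⟨j, hj, h1, h2⟩ := QA_cap_one nb o (s := -y.2) (by linarith) y.1.re
  have : idx nb o w y = j := idx_of_pos ok 0 hj fun p hp => by
    rw [strand_bot nb w p (by linarith), pos_zero]
    exact h2 p hp
  rw [QQ, this, QA_stage_bot (by linarith), reg_zero]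
  rcases h1 with h1 | ⟨⟨i, hi, rfl⟩, h1⟩
  · rw [h1]
  · rw [h1, (hP i hi).1, ← (hP nb le_rfl).1]

theorem QA_above (ok : Ok nb o w) {P : ℕ → G} (hP : Capd nb w P) {y : ℂ × ℝ}
    (h : w.length + 1 ≤ y.2) : QQ nb o w P y = reg w P w.length (QA_J nb o y.1.re) := by
  obtain ⟨j, hj, h1, h2⟩ := QA_cap_one nb o (s := y.2 - w.length) (by linarith) y.1.re
  have : idx nb o w y = j := idx_of_pos ok w.length hj fun p hp => by
    rw [strand_top p (by linarith)]
    exact h2 _ ((pos_lt ok.rng _ _).2 hp)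
  rw [QQ, this, QA_stage_top (by linarith)]
  rcases h1 with h1 | ⟨⟨i, hi, rfl⟩, h1⟩
  · rw [h1]
  · rw [h1, (hP i hi).2, ← (hP nb le_rfl).2]

theorem QA_J_lc {r : ℝ} (h : ∀ p, 2 * nb ≤ p → p < 2 * nb + o → ((p : ℕ) : ℝ) ≠ r) :
    ∀ᶠ b in 𝓝 r, QA_J nb o b = QA_J nb o r := by
  filter_upwards [QA_ceil r] with b hb
  unfold QA_J
  rcases hb with hb | ⟨h1, hb⟩
  · rw [hb]
  · have : ¬ (2 * nb ≤ ⌈r⌉₊ ∧ ⌈r⌉₊ < 2 * nb + o) := fun h2 => h _ h2.1 h2.2 h1.symm
    omega

theorem QA_idx_lc {y : ℂ × ℝ} (h : ∀ p < 2 * nb + o, (strand nb w p y.2).re ≠ y.1.re) :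
    ∀ᶠ z in 𝓝 y, idx nb o w z = idx nb o w y := by
  have h1 : ∀ᶠ z in 𝓝 y, ∀ p ∈ Finset.range (2 * nb + o),
      ((strand nb w p z.2).re < z.1.re ↔ (strand nb w p y.2).re < y.1.re) := by
    rw [Filter.eventually_all_finset]
    intro p hp
    have c1 : ContinuousAt (fun z : ℂ × ℝ => (strand nb w p z.2).re) y :=
      (Complex.continuous_re.comp ((continuous_strand nb w p).comp continuous_snd)).continuousAt
    have c2 : ContinuousAt (fun z : ℂ × ℝ => z.1.re) y :=
      (Complex.continuous_re.comp continuous_fst).continuousAt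
    rcases (h p (Finset.mem_range.1 hp)).lt_or_gt with h2 | h2
    · filter_upwards [c1.eventually_lt c2 h2] with z hz
      exact iff_of_true hz h2
    · filter_upwards [c2.eventually_lt c1 h2] with z hz
      exact iff_of_false hz.not_gt h2.not_gt
  filter_upwards [h1] with z hz
  unfold idx
  exact congrArg Finset.card (Finset.filter_congr hz)

theorem QA_idx_half (ok : Ok nb o w) {k : ℕ} {x : ℕ × Bool} (h : w[k]? = some x) {y : ℂ × ℝ}
    (hy : y.2 - 1 / 2 = k) : idx nb o w y ≠ x.1 + 1 := by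
  have hx := ok.rng x (List.mem_of_getElem? h)
  have hre : ∀ p, (strand nb w p y.2).re = (mv x (pos w k p) (1 / 2)).re := fun p => by
    rw [strand_mid h p (by linarith) (by linarith), show y.2 - k = 1 / 2 by linarith]
  by_cases hr : y.1.re ≤ x.1 + 1 / 2
  · rw [idx_of_pos ok k (j := min x.1 ⌈y.1.re⌉₊) (by omega) fun p _ => ?_]
    · omega
    rw [hre, QA_mv_re]
    generalize pos w k p = q
    split_ifs with h1 h2
    · exact iff_of_false (by linarith) (by omega)
    · exact iff_of_false (by linarith) (by omega)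
    · rw [lt_min_iff, Nat.lt_ceil]
      refine ⟨fun h3 => ⟨?_, h3⟩, fun h3 => h3.2⟩
      have : (q : ℝ) < (x.1 + 1 : ℕ) := by
        push_cast
        linarith
      have := Nat.cast_lt.1 this
      omega
  · rw [idx_of_pos ok k (j := max (x.1 + 2) (min (2 * nb + o) ⌈y.1.re⌉₊)) (by omega) fun p hp => ?_]
    · omega
    rw [hre, QA_mv_re]
    have hq := (pos_lt ok.rng k p).2 hp
    generalize pos w k p = q at hq ⊢
    split_ifs with h1 h2
    · exact iff_of_true (by linarith) (by omega)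
    · exact iff_of_true (by linarith) (by omega)
    · rw [← Nat.lt_ceil]
      have : x.1 < ⌈y.1.re⌉₊ := Nat.lt_ceil.2 (by linarith)
      omega

/-- the labels are locally constant -/
theorem QQ_lc (ok : Ok nb o w) {P : ℕ → G} (hP : Capd nb w P) {y : ℂ × ℝ}
    (h : ∀ p < 2 * nb + o, act nb w p y.2 → (strand nb w p y.2).re ≠ y.1.re) :
    ∀ᶠ z in 𝓝 y, QQ nb o w P z = QQ nb o w P y := by
  have c2 : ContinuousAt (fun z : ℂ × ℝ => z.1.re) y :=
    (Complex.continuous_re.comp continuous_fst).continuousAt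
  have c3 : ContinuousAt (fun z : ℂ × ℝ => z.2) y := continuous_snd.continuousAt
  by_cases hb : y.2 < -1
  · have hJ := QA_J_lc (nb := nb) (o := o) (r := y.1.re) fun p h1 h2 => by
      have := h p h2 (Or.inl h1)
      rwa [strand_bot nb w p (by linarith), QA_cap_re, if_neg (by omega)] at this
    filter_upwards [c2.eventually hJ, c3.eventually (eventually_lt_nhds hb)] with z h1 h2
    rw [QA_below ok hP h2.le, QA_below ok hP hb.le, h1]
  by_cases ht : (w.length : ℝ) + 1 < y.2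
  · have hJ := QA_J_lc (nb := nb) (o := o) (r := y.1.re) fun p h1 h2 => by
      have := h p h2 (Or.inl h1)
      rwa [strand_top _ (by linarith), ok.top p h1, QA_cap_re, if_neg (by omega)] at this
    filter_upwards [c2.eventually hJ, c3.eventually (eventually_gt_nhds ht)] with z h1 h2
    rw [QA_above ok hP h2.le, QA_above ok hP ht.le, h1]
  have c4 : ContinuousAt (fun z : ℂ × ℝ => z.2 - 1 / 2) y := c3.sub continuousAt_const
  filter_upwards [QA_idx_lc fun p hp => h p hp (Or.inr ⟨not_lt.1 hb, not_lt.1 ht⟩),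
    c4.eventually (QA_ceil _)] with z h1 h2
  rw [QQ, QQ, h1, stage, stage]
  rcases h2 with h2 | ⟨h3, h2⟩
  · rw [h2]
  · rw [h2]
    rcases lt_or_ge ⌈y.2 - 1 / 2⌉₊ w.length with h4 | h4
    · have h5 := List.getElem?_eq_getElem h4
      rw [min_eq_right h4.le, min_eq_right (Nat.succ_le_of_lt h4),
        QA_step h5 P (QA_idx_half ok h5 h3)]
    · rw [min_eq_left h4, min_eq_left (Nat.le_succ_of_le h4)]

/-- the labels in the box of a crossing -/
theorem QQ_box (ok : Ok nb o w) (P : ℕ → G) {k : ℕ} {x : ℕ × Bool} (h : w[k]? = some x)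
    {y : ℂ × ℝ} (h1 : (x.1 : ℝ) < y.1.re) (h2 : y.1.re < x.1 + 1) (h3 : k < y.2)
    (h4 : y.2 < k + 1) :
    (y.1.re < x.1 + (y.2 - k) → y.1.re < x.1 + 1 - (y.2 - k) → QQ nb o w P y = reg w P k x.1) ∧
    (x.1 + (y.2 - k) < y.1.re → x.1 + 1 - (y.2 - k) < y.1.re →
      QQ nb o w P y = reg w P k (x.1 + 2)) ∧
    (x.1 + (y.2 - k) < y.1.re → y.1.re < x.1 + 1 - (y.2 - k) →
      QQ nb o w P y = reg w P k (x.1 + 1)) ∧
    (y.1.re < x.1 + (y.2 - k) → x.1 + 1 - (y.2 - k) < y.1.re →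
      QQ nb o w P y = reg w P (k + 1) (x.1 + 1)) := by
  have hx := ok.rng x (List.mem_of_getElem? h)
  have hk := QA_lt h
  have hre : ∀ p, (strand nb w p y.2).re = (mv x (pos w k p) (y.2 - k)).re := fun p => by
    rw [strand_mid h p h3.le h4.le]
  have oth : ∀ q : ℕ, q ≠ x.1 → q ≠ x.1 + 1 → ((q : ℝ) < y.1.re ↔ q < x.1) := by
    intro q q1 q2
    constructor
    · intro h5
      have : (q : ℝ) < (x.1 + 1 : ℕ) := by
        push_cast
        linarith
      have := Nat.cast_lt.1 this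
      omega
    · intro h5
      exact (Nat.cast_lt.2 h5).trans h1
  have early : y.2 ≤ k + 1 / 2 → stage w y.2 = k := fun h5 => QA_stage hk.le (by linarith) h5
  have late : k + 1 / 2 < y.2 → stage w y.2 = k + 1 := fun h5 =>
    QA_stage hk (by push_cast; linarith) (by push_cast; linarith)
  have both : ∀ j, j ≠ x.1 + 1 → reg w P (stage w y.2) j = reg w P k j := by
    intro j hj
    rcases le_or_gt y.2 (k + 1 / 2) with h5 | h5
    · rw [early h5]
    · rw [late h5, QA_step h P hj]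
  refine ⟨fun a b => ?_, fun a b => ?_, fun a b => ?_, fun a b => ?_⟩
  · rw [QQ, idx_of_pos ok k (j := x.1) (by omega) fun p _ => ?_, both _ (by omega)]
    rw [hre, QA_mv_re]
    split_ifs with q1 q2
    · exact iff_of_false a.not_gt (by omega)
    · exact iff_of_false b.not_gt (by omega)
    · exact oth _ q1 q2
  · rw [QQ, idx_of_pos ok k (j := x.1 + 2) (by omega) fun p _ => ?_, both _ (by omega)]
    rw [hre, QA_mv_re]
    split_ifs with q1 q2
    · exact iff_of_true a (by omega)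
    · exact iff_of_true b (by omega)
    · rw [oth _ q1 q2]
      omega
  · rw [QQ, idx_of_pos ok k (j := x.1 + 1) (by omega) fun p _ => ?_, early (by linarith)]
    rw [hre, QA_mv_re]
    split_ifs with q1 q2
    · exact iff_of_true a (by omega)
    · exact iff_of_false b.not_gt (by omega)
    · rw [oth _ q1 q2]
      omega
  · rw [QQ, idx_of_pos ok (k + 1) (j := x.1 + 1) (by omega) fun p _ => ?_, late (by linarith)]
    rw [hre, QA_mv_re, pos_succ h, sw]
    split_ifs with q1 q2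
    · exact iff_of_false a.not_gt (by omega)
    · exact iff_of_true b (by omega)
    · rw [oth _ q1 q2]
      omega

/-- the labels at the reference points -/
theorem QQ_ref (ok : Ok nb o w) (P : ℕ → G) {k j : ℕ} (hk : k ≤ w.length) (hj : j ≤ 2 * nb + o)
    {y : ℂ × ℝ} (h1 : (j : ℝ) - 1 < y.1.re) (h2 : y.1.re < j) (h3 : y.2 = k) :
    QQ nb o w P y = reg w P k j := by
  rw [QQ, idx_of_pos ok k hj fun p _ => ?_, QA_stage hk (by linarith) (by linarith)]
  rw [h3, strand_int p hk, Complex.natCast_re]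
  constructor
  · intro h4
    exact Nat.cast_lt.1 (h4.trans h2)
  · intro h4
    have : ((pos w k p + 1 : ℕ) : ℝ) ≤ j := Nat.cast_le.2 h4
    push_cast at this
    linarith

theorem QQ_left (ok : Ok nb o w) (P : ℕ → G) {y : ℂ × ℝ} (h : y.1.re < 0) : QQ nb o w P y = P 0 := by
  rw [QQ, idx_of_pos ok 0 (Nat.zero_le _) fun p hp => ?_, reg_left]
  have := (strand_re ok hp y.2).1
  exact iff_of_false (by linarith) (Nat.not_lt_zero _)

theorem QQ_right (ok : Ok nb o w) (P : ℕ → G) {y : ℂ × ℝ} (h : (2 * nb + o : ℝ) - 1 < y.1.re) :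
    QQ nb o w P y = P (2 * nb + o) := by
  rw [QQ, idx_of_pos ok 0 le_rfl fun p hp => ?_, reg_right ok.rng]
  have := (strand_re ok hp y.2).2
  exact iff_of_true (by linarith) ((pos_lt ok.rng _ _).2 hp)

/-- below the caps only the labels `P j`, `j ≥ 6`, are seen -/
theorem QQ_below (ok : Ok nb o w) {y : ℂ × ℝ} (h : y.2 ≤ -1) :
    ∃ j, 2 * nb ≤ j ∧ j ≤ 2 * nb + o ∧ ∀ (G : Type) [Group G] (P : ℕ → G), Capd nb w P → QQ nb o w P y = P j :=
  ⟨QA_J nb o y.1.re, by unfold QA_J; omega, by unfold QA_J; omega,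
    fun _ _ _ hP => QA_below ok hP h⟩

theorem QQ_above (ok : Ok nb o w) {y : ℂ × ℝ} (h : w.length + 1 ≤ y.2) :
    ∃ j, 2 * nb ≤ j ∧ j ≤ 2 * nb + o ∧ ∀ (G : Type) [Group G] (P : ℕ → G), Capd nb w P →
      QQ nb o w P y = reg w P w.length j :=
  ⟨QA_J nb o y.1.re, by unfold QA_J; omega, by unfold QA_J; omega,
    fun _ _ _ hP => QA_above ok hP h⟩

/-- next to the first strand, on its bottom cap -/
theorem QQ_cap0 (ok : Ok nb o w) (P : ℕ → G) {y : ℂ × ℝ} (h : y.2 = -(1 / 2)) :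
    (y.1.re < 1 / 4 → QQ nb o w P y = P 0) ∧
      (1 / 4 < y.1.re → y.1.re < 3 / 4 → QQ nb o w P y = P 1) := by
  have hre : ∀ p, (strand nb w p y.2).re =
      if p < 2 * nb then (p : ℝ) + (-1) ^ p * (1 / 2) / 2 else p := fun p => by
    rw [strand_bot nb w p (by linarith), QA_cap_re, h, neg_neg, min_eq_left (by norm_num)]
  have h0 : (strand nb w 0 y.2).re = 1 / 4 := by
    rw [hre, if_pos (by have := ok.pos0; omega)]
    norm_num
  have h1 : (strand nb w 1 y.2).re = 3 / 4 := by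
    rw [hre, if_pos (by have := ok.pos0; omega)]
    norm_num
  have big : ∀ p, 2 ≤ p → 3 / 4 ≤ (strand nb w p y.2).re := fun p hp => by
    have h2 : (2 : ℝ) ≤ p := by exact_mod_cast hp
    rw [hre]
    split_ifs
    · rcases neg_one_pow_eq_or ℝ p with h3 | h3 <;> rw [h3] <;> linarith
    · linarith
  refine ⟨fun a => ?_, fun a b => ?_⟩
  · rw [QQ, idx_of_pos ok 0 (Nat.zero_le _) fun p _ => ?_, reg_left]
    refine iff_of_false ?_ (Nat.not_lt_zero _)
    rcases p with _ | _ | p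
    · linarith
    · linarith
    · have := big (p + 1 + 1) (by omega)
      linarith
  · rw [QQ, idx_of_pos ok 0 (j := 1) (by have := ok.pos0; omega) fun p _ => ?_,
      QA_stage_bot (by linarith), reg_zero]
    rw [pos_zero]
    rcases p with _ | _ | p
    · exact iff_of_true (by linarith) (by omega)
    · exact iff_of_false (by linarith) (by omega)
    · have := big (p + 1 + 1) (by omega)
      exact iff_of_false (by linarith) (by omega)

end Vale.Agent.N258B
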