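import Vale.Agent.N258B.P2
import Vale.Agent.N258B.R1
import Vale.Agent.N258B.W3
import Vale.Agent.N258B.S

/-! Re-embedding: functions of paths on the complement of the knot and flat labellings. -/

namespace Vale.Agent.N258B

open Set Filter Topology
open Vale.Agent.P258.Braid (Word)
open Vale.Agent.P002Z

variable {nb o : ℕ} {w : Word} {ν : Circle × ℂ → S3} {e : ↥(pattern nb o w) → S3}
  {eX : C(XX nb o w, ↥(core ν)ᶜ)} {G : Type} [Group G]

theorem xx_mem_pattern (y : XX nb o w) : y.1 ∈ pattern nb o w := by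
  by_contra h
  exact y.2 ((link_eq nb o w).ge (Or.inr h))

theorem Emb.isOpenEmbedding (E : Emb nb o w ν e eX) : IsOpenEmbedding eX := by
  have h1 : IsOpenEmbedding (inclusion (fun y (hy : y ∈ (link nb o w)ᶜ) =>
      xx_mem_pattern ⟨y, hy⟩) : XX nb o w → ↥(pattern nb o w)) :=
    IsOpenEmbedding.inclusion _ ((isClosed_link nb o w).isOpen_compl.preimage continuous_subtype_val)
  have h2 := E.he.comp h1
  have h3 : Subtype.val ∘ eX = e ∘ inclusion (fun y (hy : y ∈ (link nb o w)ᶜ) =>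
      xx_mem_pattern ⟨y, hy⟩) := funext fun y => E.heX y _
  rw [← h3] at h2
  exact IsOpenEmbedding.of_comp _ (isOpen_compl_core E.hν).isOpenEmbedding_subtypeVal h2

/-- the part of the complement of the knot outside the image of `C` -/
def Out (ν : Circle × ℂ → S3) (e : ↥(pattern nb o w) → S3) (C : Set (ℂ × ℝ)) : Set ↥(core ν)ᶜ :=
  {z | z.1 ∉ e '' (Subtype.val ⁻¹' C)}

variable {C : Set (ℂ × ℝ)}

theorem isOpen_out (E : Emb nb o w ν e eX) (hC : IsCompact C) (h2 : C ⊆ pattern nb o w) :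
    IsOpen (Out ν e C) := by
  have h1 : IsCompact (Subtype.val ⁻¹' C : Set ↥(pattern nb o w)) := by
    rw [Subtype.isCompact_iff, Subtype.image_preimage_coe, inter_eq_right.2 h2]
    exact hC
  exact (h1.image E.he.continuous).isClosed.isOpen_compl.preimage continuous_subtype_val

theorem mem_out (E : Emb nb o w ν e eX) (y : XX nb o w) : eX y ∈ Out ν e C ↔ y.1 ∉ C := by
  change (eX y).1 ∉ _ ↔ _
  rw [E.heX y (xx_mem_pattern y), E.he.injective.mem_set_image]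
  rfl

theorem cover_out (E : Emb nb o w ν e eX) (z : ↥(core ν)ᶜ) : z ∈ range eX ∨ z ∈ Out ν e C := by
  by_cases h : z ∈ Out ν e C
  · exact Or.inr h
  · left
    obtain ⟨c, -, hc⟩ : z.1 ∈ e '' (Subtype.val ⁻¹' C) := not_not.1 h
    have h1 : c.1 ∉ link nb o w := by
      rw [link_eq]
      rintro (h | h)
      · exact z.2 (E.hcore.ge ⟨c, h, hc⟩)
      · exact h c.2
    exact ⟨⟨c.1, h1⟩, Subtype.ext ((E.heX ⟨c.1, h1⟩ c.2).trans hc)⟩

theorem nice_compl (hν : IsOpenEmbedding ν) : Nice ↥(core ν)ᶜ := (fill_S3 hν).nice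

/-- gluing along the end -/
theorem glue_out (E : Emb nb o w ν e eX) (hC : IsCompact C) (h2 : C ⊆ pattern nb o w)
    (β : PF (↥(core ν)ᶜ) G) (φ : PF (XX nb o w) G) (s : XX nb o w → G)
    (hs : ∀ x y (p : Path x y), (∀ t, (p t).1 ∉ C) → φ.v p = (s y)⁻¹ * (β.comap eX).v p * s x) :
    ∃ (γ : PF (↥(core ν)ᶜ) G) (u : ↥(core ν)ᶜ → G),
      (∀ x y (p : Path x y), (γ.comap eX).v p = φ.v p) ∧ Par γ β (Out ν e C) u ∧
      ∀ y, y.1 ∉ C → u (eX y) * s y = 1 := by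
  classical
  have hO := isOpen_out E hC h2
  let j : C(↥(Out ν e C), ↥(core ν)ᶜ) := ⟨Subtype.val, continuous_subtype_val⟩
  obtain ⟨γ, u, h1, h3, h4⟩ := glue (nice_XX nb o w)
    (Nice.of_isOpenEmbedding hO.isOpenEmbedding_subtypeVal (nice_compl E.hν)) eX j
    E.isOpenEmbedding hO.isOpenEmbedding_subtypeVal
    (fun z => (cover_out (C := C) E z).imp id fun h => ⟨⟨z, h⟩, rfl⟩) φ (β.comap j) s (by
      intro x1 y1 p1 x2 y2 p2 h
      rw [hs x1 y1 p1 fun t => (mem_out E _).1 (by rw [h t]; exact (p2 t).2)]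
      congr 2
      exact β.congr h)
  refine ⟨γ, fun z => if h : z ∈ Out ν e C then u ⟨z, h⟩ else 1, h1, ?_, ?_⟩
  · intro x y p hp
    have hx : x ∈ Out ν e C := p.source ▸ hp 0
    have hy : y ∈ Out ν e C := p.target ▸ hp 1
    let q : Path (⟨x, hx⟩ : ↥(Out ν e C)) ⟨y, hy⟩ :=
      { toFun := fun t => ⟨p t, hp t⟩
        continuous_toFun := p.continuous.subtype_mk _
        source' := Subtype.ext p.source
        target' := Subtype.ext p.target }
    have h5 := h3 _ _ q fun _ => mem_univ _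
    simp only [hx, hy, dif_pos]
    rw [← β.congr (p := q.map j.continuous) (q := p) fun _ => rfl,
      ← γ.congr (p := q.map j.continuous) (q := p) fun _ => rfl]
    exact h5
  · intro y hy
    have := (mem_out E y).2 hy
    simp only [this, dif_pos]
    exact h4 y ⟨_, this⟩ rfl

/-- the use of the simple connectivity of the sphere -/
theorem outside (E : Emb nb o w ν e eX)
    (hZ : ∃ P : ℕ → Multiplicative ℤ, Capd nb w P ∧ P 1 = Multiplicative.ofAdd 1)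
    (hC : IsCompact C) (h2 : C ⊆ pattern nb o w) (β : PF (↥(core ν)ᶜ) G) (φ : PF (XX nb o w) G)
    (s : XX nb o w → G) (hs : Par (β.comap eX) φ {y | y.1 ∉ C} s) {x0 : XX nb o w} {P : ℕ → G}
    (hP : Capd nb w P) (h : HasReg φ x0 P) (h1 : P 1 = 1) :
    ∃ (ωX : XX nb o w → G) (ωY : ↥(core ν)ᶜ → G), φ.Pot univ ωX ∧ β.Pot (Out ν e C) ωY ∧
      ∀ y, y.1 ∉ C → ωX y = ωY (eX y) * s y := by
  obtain ⟨γ, u, g1, g2, g3⟩ := glue_out E hC h2 β φ s hs
  obtain ⟨a, mu, lam, sl, hmu, hlam, -, -⟩ := exists_loops E.hν 0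
  obtain ⟨i, d, k, hi, -, hper⟩ := peripheral E hZ mu lam hmu hlam
  obtain ⟨g, hg, -⟩ := hper G γ P x0 hP (hasReg_of_eq h g1)
  have hmu1 : γ.v mu = 1 := by
    rw [h1, inv_one] at hg
    have h5 : γ.v mu ^ i = 1 := by
      calc γ.v mu ^ i = g * (g⁻¹ * γ.v mu ^ i * g) * g⁻¹ := by group
        _ = 1 := by rw [← hg]; group
    rcases hi with rfl | rfl
    · simpa using h5
    · simpa using h5
  obtain ⟨Γ, hΓ⟩ := (fill_S3 E.hν).ext mu hmu γ hmu1
  have := simplyConnected_S3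
  obtain ⟨Ω, hΩ⟩ := exists_pot_univ Γ
  have hω : γ.Pot univ fun z => Ω z.1 := fun x y p _ => by
    rw [← hΓ]
    exact hΩ _ _ _ fun _ => mem_univ _
  refine ⟨fun y => Ω (eX y).1, fun z => Ω z.1 * u z, fun x y p _ => ?_,
    pot_of_par (pot_mono hω (subset_univ _)) g2, fun y hy => ?_⟩
  · rw [← g1]
    exact hω _ _ _ fun _ => mem_univ _
  · rw [mul_assoc, g3 y hy, mul_one]

theorem capd_zero {P : ℕ → G} (h : Capd nb w P) : P 0 = 1 := (h 0 (by omega)).1

theorem capd_one (w : Word) : Capd nb w fun _ => (1 : G) := fun _ _ => ⟨rfl, reg_one _ _ _⟩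

theorem toHom_eq_of_pot {X : Type} [TopologicalSpace X] {φ : PF X G} {τ : X → G}
    (h : φ.Pot univ τ) (x0 : X) : φ.toHom x0 = (triv X G).toHom x0 := by
  refine MonoidHom.ext fun a => ?_
  obtain ⟨p, rfl⟩ := Path.Homotopic.Quotient.mk_surjective a
  rw [PF.toHom_mk, PF.toHom_mk, h _ _ p fun _ => mem_univ _, inv_mul_cancel]
  rfl

theorem forget_le (P : ℕ → G) {j : ℕ} (hj : j ≤ 2 * nb) : forget nb P j = 1 := if_pos hj

theorem forget_ge {P : ℕ → G} (hP : Capd nb w P) {j : ℕ} (hj : 2 * nb ≤ j) :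
    P j = forget nb P j := by
  by_cases h6 : j ≤ 2 * nb
  · obtain rfl : j = 2 * nb := by omega
    rw [forget_le P le_rfl]
    exact (hP nb le_rfl).1
  · exact (if_neg h6).symm

/-- a labelling that comes from the complement of the knot is flat -/
theorem flat_of_splitAt (E : Emb nb o w ν e eX)
    (hZ : ∃ P : ℕ → Multiplicative ℤ, Capd nb w P ∧ P 1 = Multiplicative.ofAdd 1)
    {x0 : XX nb o w} (hx : x0 ∈ Up nb o w 1) (β : PF (↥(core ν)ᶜ) G) {P : ℕ → G}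
    (hP : Capd nb w P) (h : HasReg (β.comap eX) x0 P) (hs : SplitAt nb o w P)
    (hP' : Capd nb w (forget nb P)) (hs' : SplitAt nb o w (forget nb P)) : Flat nb o P := by
  obtain ⟨s1, s2⟩ := hs
  obtain ⟨t1, t2⟩ := hs'
  obtain ⟨φ', h'⟩ := exists_hasReg E.ok hP' x0
  obtain ⟨C, c1, c2, c3, c4⟩ := exists_end E.ok
  obtain ⟨τp, τm, hr, hτ⟩ := h
  obtain ⟨τp', τm', hr', hτ'⟩ := h'
  obtain ⟨s, hs⟩ := c4 G _ _ P _ _ _ _ _ hr hr' hP hP'
    (fun j h1 h2 => ⟨forget_ge hP h1, by rw [s1 j h1 h2, t1 j h1 h2, forget_ge hP h1]⟩)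
    (fun p h1 h2 => by rw [s2 p h1 h2, t2 p h1 h2])
  obtain ⟨ωX, -, hω, -⟩ := outside E hZ c1 c3 β φ' s hs hP' ⟨τp', τm', hr', hτ'⟩
    (forget_le P (by have := E.ok.pos0; omega))
  have key := lab_unique E.ok hx ⟨τp', τm', hr', hτ'⟩ (hasReg_triv x0) (capd_zero hP') rfl
    (toHom_eq_of_pot hω x0)
  exact fun j h1 h2 => (forget_ge hP h1).trans (key j h2)

theorem Split.flat (E : Emb nb o w ν e eX)
    (hZ : ∃ P : ℕ → Multiplicative ℤ, Capd nb w P ∧ P 1 = Multiplicative.ofAdd 1)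
    (hS : Split nb o w G) {x0 : XX nb o w} (hx : x0 ∈ Up nb o w 1) (β : PF (↥(core ν)ᶜ) G)
    {P : ℕ → G} (hP : Capd nb w P) (h : HasReg (β.comap eX) x0 P) : Flat nb o P := by
  obtain ⟨t1, t3⟩ := hS (forget nb P) (forget_le P (Nat.zero_le _))
  exact flat_of_splitAt E hZ hx β hP h (hS P (capd_zero hP)).1
    (fun j hj => ⟨forget_le P (by omega), t3 (fun _ => forget_le P) _ (by omega)⟩) t1

/-- every function of paths on the complement of the knot has a flat labelling -/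
theorem exists_flat (E : Emb nb o w ν e eX)
    (hZ : ∃ P : ℕ → Multiplicative ℤ, Capd nb w P ∧ P 1 = Multiplicative.ofAdd 1)
    (hS : Split nb o w G) {x0 : XX nb o w} (hx : x0 ∈ Up nb o w 1) (β : PF (↥(core ν)ᶜ) G) :
    ∃ P, Capd nb w P ∧ Flat nb o P ∧ HasReg (β.comap eX) x0 P := by
  obtain ⟨P, hP, h⟩ := exists_lab E.ok (β.comap eX) x0
  exact ⟨P, hP, hS.flat E hZ hx β hP h, h⟩

/-- the gauge at the end between a flat function and the trivial one -/
theorem end_flat (ok : Ok nb o w) :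
    ∃ C : Set (ℂ × ℝ), IsCompact C ∧ C ⊆ pattern nb o w ∧ ∀ (φ : PF (XX nb o w) G)
      (x0 : XX nb o w) (P : ℕ → G), SplitAt nb o w P → Capd nb w P → Flat nb o P →
      HasReg φ x0 P → ∃ s, Par φ (triv (XX nb o w) G) {y | y.1 ∉ C} s := by
  obtain ⟨C, c1, c2, c3, c4⟩ := exists_end ok
  refine ⟨C, c1, c3, ?_⟩
  rintro φ x0 P ⟨s1, s2⟩ hP hF ⟨τp, τm, hr, -⟩
  obtain ⟨τp', τm', hr', -⟩ := hasReg_triv (G := G) x0
  exact c4 G _ _ P _ _ _ _ _ hr hr' hP (capd_one w)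
    (fun j h1 h2 => ⟨hF j h1 h2, by rw [s1 j h1 h2, hF j h1 h2, reg_one]⟩)
    (fun p h1 h2 => by rw [s2 p h1 h2, trP_one])

/-- every flat labelling comes from the complement of the knot -/
theorem exists_ext (E : Emb nb o w ν e eX) (x0 : XX nb o w) {P : ℕ → G}
    (hS : SplitAt nb o w P) (hP : Capd nb w P) (hF : Flat nb o P) :
    ∃ β : PF (↥(core ν)ᶜ) G, HasReg (β.comap eX) x0 P := by
  obtain ⟨C, c1, c3, c4⟩ := end_flat (G := G) E.ok
  obtain ⟨φ, h⟩ := exists_hasReg E.ok hP x0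
  obtain ⟨s, hs⟩ := c4 φ x0 P hS hP hF h
  obtain ⟨γ, u, g1, -, -⟩ := glue_out E c1 c3 (triv _ G) φ _ hs.symm
  exact ⟨γ, hasReg_of_eq h g1⟩

theorem toHom_eq_of_flat (E : Emb nb o w ν e eX)
    (hZ : ∃ P : ℕ → Multiplicative ℤ, Capd nb w P ∧ P 1 = Multiplicative.ofAdd 1)
    {x0 : XX nb o w} (hx : x0 ∈ Up nb o w 1) {β β' : PF (↥(core ν)ᶜ) G} {P : ℕ → G}
    (hS : SplitAt nb o w P) (hP : Capd nb w P) (hF : Flat nb o P) (h : HasReg (β.comap eX) x0 P)
    (h' : HasReg (β'.comap eX) x0 P) : β.toHom (eX x0) = β'.toHom (eX x0) := by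
  obtain ⟨C, c1, c3, c4⟩ := end_flat (G := G) E.ok
  obtain ⟨s, hs⟩ := c4 _ x0 P hS hP hF h
  obtain ⟨τp, τm, hr, hτ⟩ := h
  obtain ⟨τp', τm', hr', hτ'⟩ := h'
  obtain ⟨r, hr1, hr2⟩ := par_of_reg E.ok hr hr' fun _ _ => rfl
  have hr0 : r x0 = 1 := by rw [hr2 x0 hx, hτ, hτ', inv_mul_cancel]
  have hs' := (hr1.symm.mono (subset_univ _)).trans hs
  obtain ⟨ωX, ωY, a1, a2, a3⟩ := outside E hZ c1 c3 β _ s hs (capd_one w) (hasReg_triv x0) rfl
  obtain ⟨ωX', ωY', b1, b2, b3⟩ :=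
    outside E hZ c1 c3 β' _ _ hs' (capd_one w) (hasReg_triv x0) rfl
  have := pathConnected_XX E.ok
  have hconst : ∀ ω : XX nb o w → G, (triv (XX nb o w) G).Pot univ ω → ∀ y, ω y = ω x0 := by
    intro ω hω y
    have := hω x0 y (PathConnectedSpace.somePath x0 y) fun _ => mem_univ _
    exact (inv_mul_eq_one.1 this.symm)
  have hO := isOpen_out E c1 c3
  let j : C(↥(Out ν e C), ↥(core ν)ᶜ) := ⟨Subtype.val, continuous_subtype_val⟩
  have hY := (par_of_pot a2 (pot_mul_left b2 (ωX x0 * (ωX' x0)⁻¹))).comap j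
  obtain ⟨R, R1, R2, -⟩ := par_glue eX j E.isOpenEmbedding hO.isOpenEmbedding_subtypeVal
    (fun z => (cover_out (C := C) E z).imp id fun h => ⟨⟨z, h⟩, rfl⟩) β β' r _ hr1
    (hY.mono fun z _ => z.2) (by
      intro x1 x2 h
      have h1 : x1.1 ∉ C := (mem_out E _).1 (by rw [h]; exact x2.2)
      have e1 := a3 x1 h1
      have e2 := b3 x1 h1
      rw [hconst ωX a1 x1] at e1
      rw [hconst ωX' b1 x1] at e2
      rw [← h, e1, e2]
      group)
  exact toHom_eq_of_par R1 ((R2 x0).trans hr0)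

theorem toHom_comap {X Y : Type} [TopologicalSpace X] [TopologicalSpace Y] {β β' : PF Y G}
    (f : C(X, Y)) (x0 : X) (h : β.toHom (f x0) = β'.toHom (f x0)) :
    (β.comap f).toHom x0 = (β'.comap f).toHom x0 := by
  refine MonoidHom.ext fun a => ?_
  obtain ⟨p, rfl⟩ := Path.Homotopic.Quotient.mk_surjective a
  rw [PF.toHom_mk, PF.toHom_mk]
  change β.v (p.map f.continuous) = β'.v (p.map f.continuous)
  rw [← PF.toHom_mk, ← PF.toHom_mk, h]

end Vale.Agent.N258B
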