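import Vale.Agent.N258B.F
import Vale.Agent.N258B.Geo
import Vale.Agent.P216.H347.SCS

/-! Block S: the surgered space. -/

namespace Vale.Agent.N258B

open Set Filter Topology
open Vale.Agent.P258.Braid (Word)
open Vale.Agent.P002Z

theorem simplyConnected_S3 : SimplyConnectedSpace S3 :=
  Vale.Agent.P216.SCS.simplyConnected_sphere 3 (by norm_num)

theorem S1_isOpen {ν : Circle × ℂ → S3} (hν : IsOpenEmbedding ν) : IsOpen (core ν)ᶜ :=
  (isCompact_range (hν.continuous.comp
    (continuous_id.prodMk continuous_const))).isClosed.isOpen_compl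

/-- the sphere is the trivial filling -/
theorem fill_S3 {ν : Circle × ℂ → S3} (hν : IsOpenEmbedding ν) :
    Fill (⟨Subtype.val, continuous_subtype_val⟩ : C(↥(core ν)ᶜ, S3)) ν where
  nice := Nice.of_isOpenEmbedding (S1_isOpen hν).isOpenEmbedding_subtypeVal nice_S3
  hh := (S1_isOpen hν).isOpenEmbedding_subtypeVal
  hν := hν
  rng := Subtype.range_coe

theorem isOpen_compl_core {ν : Circle × ℂ → S3} (hν : IsOpenEmbedding ν) : IsOpen (core ν)ᶜ :=
  S1_isOpen hν

theorem pathConnected_compl {ν : Circle × ℂ → S3} (hν : IsOpenEmbedding ν) :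
    PathConnectedSpace ↥(core ν)ᶜ := by
  have := simplyConnected_S3
  exact (fill_S3 hν).pathConnected'

/-- homotopy equivalent spaces have isomorphic fundamental groups -/
theorem isEmpty_homotopyEquiv {X Y : Type} [TopologicalSpace X] [TopologicalSpace Y] [Nonempty X]
    (h : ∀ (x : X) (y : Y), IsEmpty (FundamentalGroup X x ≃* FundamentalGroup Y y)) :
    IsEmpty (ContinuousMap.HomotopyEquiv X Y) := by
  refine ⟨fun e => ?_⟩
  obtain ⟨x⟩ := ‹Nonempty X›
  let E := FundamentalGroupoidFunctor.equivOfHomotopyEquiv e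
  exact (h x (E.functor.obj ⟨x⟩).as).false (E.fullyFaithfulFunctor.mulEquivEnd ⟨x⟩)

theorem nonempty_surgery (ν : Circle × ℂ → S3) (p : ℤ) : Nonempty (Surgery ν p) :=
  ⟨Quot.mk _ (Sum.inr (1, 0))⟩

/-- a preferred longitude is killed by abelian groups -/
theorem Preferred.v_eq_one {ν : Circle × ℂ → S3} (h : Preferred ν) {a : ↥(core ν)ᶜ}
    (lam : Path a a) (hl : ∀ t, (lam t).1 = ν (ex t, 1)) {A : Type} [CommGroup A]
    (β : PF (↥(core ν)ᶜ) A) : β.v lam = 1 := by
  have h1 := Abelianization.commutator_subset_ker (β.toHom a) (h a lam hl)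
  rw [MonoidHom.mem_ker] at h1
  exact h1

/-- the complement of the strands in the complement of the knot -/
theorem exists_emb {nb o : ℕ} {w : Word} {ν : Circle × ℂ → S3} {e : ↥(pattern nb o w) → S3}
    (ok : Ok nb o w) (he : IsOpenEmbedding e) (hν : IsOpenEmbedding ν)
    (hcore : core ν = e '' (Subtype.val ⁻¹' knot nb w)) : ∃ eX, Emb nb o w ν e eX := by
  have hl : ∀ y : ℂ × ℝ, y ∈ knot nb w ∪ (pattern nb o w)ᶜ → y ∈ link nb o w := fun y hy =>
    (link_eq nb o w).symm ▸ hy
  have hp : ∀ y : XX nb o w, y.1 ∈ pattern nb o w := fun y => by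
    by_contra hy
    exact y.2 (hl _ (Or.inr hy))
  have hk : ∀ y : XX nb o w, e ⟨y.1, hp y⟩ ∈ (core ν)ᶜ := fun y => by
    rw [hcore]
    rintro ⟨z, hz, hze⟩
    have h2 : z.1 = y.1 := congrArg Subtype.val (he.injective hze)
    exact y.2 (hl _ (Or.inl (h2 ▸ hz)))
  exact ⟨⟨fun y => ⟨e ⟨y.1, hp y⟩, hk y⟩,
    (he.continuous.comp (continuous_subtype_val.subtype_mk _)).subtype_mk _⟩,
    ok, he, hν, hcore, fun _ _ => rfl⟩

end Vale.Agent.N258B
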