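import Vale.Agent.N258B.W2

/-! Block W4: the value of a strand pushed upwards. -/

namespace Vale.Agent.N258B

open Set Filter Topology
open Vale.Agent.P258.Braid (Word)
open Vale.Agent.P002Z

variable {nb o : ℕ} {w : Word} {G : Type} [Group G]

theorem W4_cap_im (q : ℕ) (s : ℝ) : (cap nb q s).im = 0 := by
  unfold cap
  split_ifs
  · exact Complex.ofReal_im _
  · exact Complex.natCast_im _

theorem W4_im_zero (p : ℕ) {t : ℝ} (ht : t ≤ 0 ∨ w.length ≤ t) : (strand nb w p t).im = 0 := by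
  rcases ht with ht | ht
  · rw [strand_bot nb w p ht, W4_cap_im]
  · rw [strand_top p ht, W4_cap_im]

theorem exists_push (ok : Ok nb o w) {p : ℕ} (hp : p < 2 * nb + o) {δ : ℝ} (h0 : 0 < δ)
    (h1 : δ ≤ 1 / 8) :
    ∃ f : C(ℝ, XX nb o w), ∀ t, (f t).1 = (strand nb w p t + δ * Complex.I, t) := by
  have key : ∀ t : ℝ, (strand nb w p t + δ * Complex.I, t) ∈ (link nb o w)ᶜ := by
    rintro t ⟨q, -, -, hq⟩
    change strand nb w p t + δ * Complex.I = strand nb w q t at hq
    by_cases ht : t ≤ 0 ∨ w.length ≤ t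
    · have h2 := congrArg Complex.im hq
      simp [W4_im_zero p ht, W4_im_zero q ht] at h2
      exact h0.ne' h2
    · rw [not_or, not_le, not_le] at ht
      by_cases hpq : p = q
      · subst hpq
        have h2 := congrArg Complex.im hq
        simp at h2
        exact h0.ne' h2
      · have h2 := strand_sep ok hpq (t := t) (Or.inr ⟨by linarith [ht.1], by linarith [ht.2]⟩)
        have h3 : strand nb w p t - strand nb w q t = -(δ * Complex.I) := by rw [← hq]; ring
        rw [h3, norm_neg, norm_mul, Complex.norm_I, Complex.norm_real, Real.norm_eq_abs,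
          abs_of_pos h0] at h2
        linarith
  exact ⟨⟨fun t => ⟨_, key t⟩,
    (((continuous_strand nb w p).add continuous_const).prodMk continuous_id).subtype_mk _⟩,
    fun _ => rfl⟩

theorem push_mem_up (ok : Ok nb o w) {p : ℕ} {δ : ℝ} (h0 : 0 < δ) {y : XX nb o w} {t : ℝ}
    (hy : y.1 = (strand nb w p t + δ * Complex.I, t)) (ht : t ≤ 0 ∨ w.length ≤ t) :
    y ∈ Up nb o w 1 := by
  intro q _ _ _
  rw [hy]
  simp [W4_im_zero p ht, W4_im_zero q ht, h0]

/-- in a slab a strand lies above the other strands with the same real part, except the strand that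
passes under at the middle of the slab -/
theorem W4_mv (x : ℕ × Bool) {q q' : ℕ} (hq : q ≠ q') {s δ : ℝ} (s0 : 0 ≤ s) (s1 : s ≤ 1)
    (h0 : 0 < δ) (hre : (mv x q' s).re = (mv x q s).re)
    (hn : s ≠ 1 / 2 ∨ ¬((x.2 = true ∧ q = x.1 + 1) ∨ (x.2 = false ∧ q = x.1))) :
    0 < (mv x q s).im + δ - (mv x q' s).im := by
  obtain ⟨i, e⟩ := x
  have far : ∀ (n : ℕ) (u : ℝ), n ≠ i → n ≠ i + 1 → 0 ≤ u → u ≤ 1 → (n : ℝ) ≠ i + u := by
    intro n u a b c d h
    rcases Nat.lt_or_gt_of_ne a with a | a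
    · have : (n : ℝ) + 1 ≤ i := by exact_mod_cast a
      linarith
    · have a' : i + 2 ≤ n := by omega
      have : (i : ℝ) + 2 ≤ n := by exact_mod_cast a'
      linarith
  simp only [mv] at hre ⊢
  by_cases a : q = i
  · subst a
    have b' : q' ≠ q := hq.symm
    by_cases b : q' = q + 1
    · subst b
      simp at hre
      have hs : s = 1 / 2 := by linarith
      subst hs
      cases e
      · simp at hn
      · simp [sg]; linarith
    · simp [b, b'] at hre
      exact absurd hre (far q' s b' b s0 s1)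
  · by_cases a' : q = i + 1
    · subst a'
      by_cases b' : q' = i
      · subst b'
        simp at hre
        have hs : s = 1 / 2 := by linarith
        subst hs
        cases e
        · simp [sg]; linarith
        · simp at hn
      · have b : q' ≠ i + 1 := hq.symm
        simp [b, b'] at hre
        exact absurd (by rw [hre]; ring) (far q' (1 - s) b' b (by linarith) (by linarith))
    · by_cases b' : q' = i
      · subst b'
        simp [a, a'] at hre
        exact absurd hre.symm (far q s a a' s0 s1)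
      · by_cases b : q' = i + 1
        · subst b
          simp [a, a'] at hre
          exact absurd (by rw [← hre]; ring) (far q (1 - s) a a' (by linarith) (by linarith))
        · simp [a, a', b, b'] at hre
          exact absurd hre.symm hq

theorem W4_mem_up {k : ℕ} {x : ℕ × Bool} (hx : w[k]? = some x) {p : ℕ} {δ : ℝ} (h0 : 0 < δ)
    {y : XX nb o w} {t : ℝ} (hy : y.1 = (strand nb w p t + δ * Complex.I, t)) (t0 : k ≤ t)
    (t1 : t ≤ k + 1) (hn : t - k ≠ 1 / 2 ∨
      ¬((x.2 = true ∧ pos w k p = x.1 + 1) ∨ (x.2 = false ∧ pos w k p = x.1))) :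
    y ∈ Up nb o w 1 := by
  intro q _ _ hre
  rw [hy] at hre ⊢
  simp only [Complex.add_re, Complex.add_im, Complex.mul_re, Complex.mul_im, Complex.ofReal_re,
    Complex.ofReal_im, Complex.I_re, Complex.I_im, mul_zero, mul_one, zero_mul, sub_zero, add_zero,
    one_mul] at hre ⊢
  by_cases hpq : p = q
  · subst hpq
    linarith
  · rw [strand_mid hx p t0 t1, strand_mid hx q t0 t1] at hre ⊢
    exact W4_mv x (fun h => hpq (pos_inj w k h)) (by linarith) (by linarith) h0 hre hn

theorem W4_sample (ok : Ok nb o w) {φ : PF (XX nb o w) G} {P : ℕ → G} {τp τm : XX nb o w → G}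
    (h : Reg φ P τp τm) {k : ℕ} {x : ℕ × Bool} (hx : w[k]? = some x) {r : ℝ} (h1 : x.1 < r)
    (h2 : r < x.1 + 1) (h3 : r ≠ x.1 + 1 / 4) (h4 : r ≠ x.1 + 3 / 4) :
    ∃ y ∈ Vb nb o w k, y.1.1.re = r ∧ y.1.2 - k = 1 / 4 ∧ τm y = QQ nb o w P y.1 * τp y := by
  have e : (k : ℝ) + 1 / 4 - k = 1 / 4 := by ring
  have hb : |(r : ℂ).im| < ((k : ℝ) + 1 / 4 - k) * (1 - ((k : ℝ) + 1 / 4 - k)) := by
    rw [e, Complex.ofReal_im, abs_zero]; norm_num
  have hv : (⟨((r : ℂ), (k : ℝ) + 1 / 4), box_not_mem ok hx (y := ((r : ℂ), (k : ℝ) + 1 / 4))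
      h1 h2 hb⟩ : XX nb o w) ∈ Vb nb o w k := ⟨x, hx, h1, h2, hb⟩
  refine ⟨_, hv, rfl, e, h.lab _ ⟨(vb_mem_up ok hx (Or.inl rfl) hv).2 ?_,
    (vb_mem_up ok hx (Or.inr rfl) hv).2 ?_⟩⟩
  all_goals
    change r ≠ ov x _ ((k : ℝ) + 1 / 4 - k)
    rw [e]
    unfold ov sg
    split_ifs
    all_goals
      intro hr
      first
        | exact h3 (by linarith)
        | exact h4 (by linarith)

theorem W4_joined {V : Set ℝ} {a b : ℝ} (hab : a ≤ b) (h : ∀ t, a ≤ t → t ≤ b → t ∈ V) :
    JoinedIn (univ ∩ V) a b :=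
  (((convex_Icc a b).isPathConnected ⟨a, le_rfl, hab⟩).joinedIn a ⟨le_rfl, hab⟩ b
    ⟨hab, le_rfl⟩).mono fun t ht => ⟨mem_univ _, h t ht.1 ht.2⟩

/-- one crossing -/
theorem W4_step (ok : Ok nb o w) {φ : PF (XX nb o w) G} {P : ℕ → G} {τp τm : XX nb o w → G}
    (h : Reg φ P τp τm) {p : ℕ} {δ : ℝ} (h0 : 0 < δ) (h1 : δ ≤ 1 / 8)
    (f : C(ℝ, XX nb o w)) (hf : ∀ t, (f t).1 = (strand nb w p t + δ * Complex.I, t)) {σ : ℝ → G}
    (hσ : (φ.comap f).Pot univ σ) {k : ℕ} {x : ℕ × Bool} (hx : w[k]? = some x) :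
    τp (f ((k : ℝ) + 1)) * (σ ((k : ℝ) + 1))⁻¹ =
      (under x (reg w P k) (pos w k p))⁻¹ * (τp (f k) * (σ k)⁻¹) := by
  have hup : ∀ {a b : ℝ}, a ≤ b → (∀ t, a ≤ t → t ≤ b → f t ∈ Up nb o w 1) →
      τp (f b) * (σ b)⁻¹ = τp (f a) * (σ a)⁻¹ := fun hab hh =>
    pot_ratio hσ (pot_comap h.up f) (W4_joined hab hh)
  by_cases hu : (x.2 = true ∧ pos w k p = x.1 + 1) ∨ (x.2 = false ∧ pos w k p = x.1)
  · have e1 := hup (a := k) (b := k + 1 / 4) (by linarith) fun t a b =>
      W4_mem_up hx h0 (hf t) a (by linarith) (Or.inl (by intro c; linarith))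
    have e3 := hup (a := k + 3 / 4) (b := k + 1) (by linarith) fun t a b =>
      W4_mem_up hx h0 (hf t) (by linarith) b (Or.inl (by intro c; linarith))
    obtain ⟨τ, aL, aR, bL, bR, hτ, hbox⟩ := box_pot ok h.up h.dn hx
    have co : ∀ t : ℝ, k ≤ t → t ≤ k + 1 → (f t).1.2 = t ∧
        (f t).1.1.re = (mv x (pos w k p) (t - k)).re ∧
        (f t).1.1.im = (mv x (pos w k p) (t - k)).im + δ := fun t a b => by
      rw [hf t, strand_mid hx p a b]
      simp
    have co' : ∀ t : ℝ, k ≤ t → t ≤ k + 1 → (f t).1.2 = t ∧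
        (f t).1.1.re = ov x (-1) (t - k) ∧ (f t).1.1.im = δ - (t - k) * (1 - (t - k)) := by
      intro t a b
      obtain ⟨c1, c2, c3⟩ := co t a b
      refine ⟨c1, ?_, ?_⟩
      · rw [c2]
        rcases hu with ⟨u1, u2⟩ | ⟨u1, u2⟩ <;> simp [mv, ov, sg, u1, u2] <;> ring
      · rw [c3]
        rcases hu with ⟨u1, u2⟩ | ⟨u1, u2⟩ <;> simp [mv, sg, u1, u2] <;> ring
    have hv : ∀ t : ℝ, k + 1 / 4 ≤ t → t ≤ k + 3 / 4 → f t ∈ Vb nb o w k := by
      intro t a b
      obtain ⟨c1, c2, c3⟩ := co' t (by linarith) (by linarith)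
      refine ⟨x, hx, ?_, ?_, ?_⟩
      · rw [c2]; unfold ov sg; split_ifs <;> linarith
      · rw [c2]; unfold ov sg; split_ifs <;> linarith
      · rw [c1, c3, abs_lt]
        constructor <;> nlinarith [mul_nonneg (sub_nonneg.2 a) (sub_nonneg.2 b)]
    have e2 : τ (f (k + 3 / 4)) * (σ (k + 3 / 4))⁻¹ = τ (f (k + 1 / 4)) * (σ (k + 1 / 4))⁻¹ :=
      pot_ratio hσ (pot_comap hτ f) (W4_joined (by linarith) hv)
    obtain ⟨a1, a2, -⟩ := co' (k + 1 / 4) (by linarith) (by linarith)
    obtain ⟨b1, b2, -⟩ := co' (k + 3 / 4) (by linarith) (by linarith)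
    have hA := hbox _ (hv (k + 1 / 4) le_rfl (by linarith))
    have hB := hbox _ (hv (k + 3 / 4) (by linarith) le_rfl)
    rw [a1, a2] at hA
    rw [b1, b2] at hB
    obtain ⟨yM, vM, rM, tM, lM⟩ := W4_sample ok h hx (r := x.1 + 1 / 2) (by linarith)
      (by linarith) (by intro c; linarith) (by intro c; linarith)
    have qM := (QQ_box ok P hx (y := yM.1) (by linarith) (by linarith) (by linarith)
      (by linarith)).2.2.1 (by linarith) (by linarith)
    have hM := hbox _ vM
    rw [rM, tM, lM, qM] at hM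
    rw [e3, ← e1]
    rcases hu with ⟨u1, u2⟩ | ⟨u1, u2⟩
    · obtain ⟨yL, vL, rL, tL, lL⟩ := W4_sample ok h hx (r := x.1 + 1 / 8) (by linarith)
        (by linarith) (by intro c; linarith) (by intro c; linarith)
      have qL := (QQ_box ok P hx (y := yL.1) (by linarith) (by linarith) (by linarith)
        (by linarith)).1 (by linarith) (by linarith)
      have hL := hbox _ vL
      rw [rL, tL, lL, qL] at hL
      simp only [ov, sg, u1, if_true] at hA hB hM hL
      have k1 : aL = bL * reg w P k x.1 := mul_right_cancel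
        ((hL.1 (by linarith)).symm.trans ((hL.2.2.1 (by linarith)).trans (mul_assoc _ _ _).symm))
      have k2 : aR = bL * reg w P k (x.1 + 1) := mul_right_cancel
        ((hM.2.1 (by linarith)).symm.trans ((hM.2.2.1 (by linarith)).trans (mul_assoc _ _ _).symm))
      rw [hA.2.1 (by linarith), hB.1 (by linarith), k1, k2] at e2
      simp only [under, u1, u2, if_true]
      calc τp (f (k + 3 / 4)) * (σ (k + 3 / 4))⁻¹
          = (bL * reg w P k x.1)⁻¹ *
            (bL * reg w P k x.1 * τp (f (k + 3 / 4)) * (σ (k + 3 / 4))⁻¹) := by group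
        _ = _ := by rw [e2]; group
    · obtain ⟨yR, vR, rR, tR, lR⟩ := W4_sample ok h hx (r := x.1 + 7 / 8) (by linarith)
        (by linarith) (by intro c; linarith) (by intro c; linarith)
      have qR := (QQ_box ok P hx (y := yR.1) (by linarith) (by linarith) (by linarith)
        (by linarith)).2.1 (by linarith) (by linarith)
      have hR := hbox _ vR
      rw [rR, tR, lR, qR] at hR
      simp only [ov, sg, u1, Bool.false_eq_true, if_false] at hA hB hM hR
      have k1 : aL = bR * reg w P k (x.1 + 1) := mul_right_cancel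
        ((hM.1 (by linarith)).symm.trans ((hM.2.2.2 (by linarith)).trans (mul_assoc _ _ _).symm))
      have k2 : aR = bR * reg w P k (x.1 + 2) := mul_right_cancel
        ((hR.2.1 (by linarith)).symm.trans ((hR.2.2.2 (by linarith)).trans (mul_assoc _ _ _).symm))
      rw [hA.1 (by linarith), hB.2.1 (by linarith), k1, k2] at e2
      simp only [under, u1, u2, Bool.false_eq_true, if_true, if_false]
      calc τp (f (k + 3 / 4)) * (σ (k + 3 / 4))⁻¹
          = (bR * reg w P k (x.1 + 2))⁻¹ *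
            (bR * reg w P k (x.1 + 2) * τp (f (k + 3 / 4)) * (σ (k + 3 / 4))⁻¹) := by group
        _ = _ := by rw [e2]; group
  · have e1 := hup (a := k) (b := k + 1) (by linarith) fun t a b =>
      W4_mem_up hx h0 (hf t) a b (Or.inr hu)
    have e2 : under x (reg w P k) (pos w k p) = 1 := by
      unfold under
      rw [not_or] at hu
      cases hb : x.2
      · simpa [hb] using fun c => absurd ⟨hb, c⟩ hu.2
      · simpa [hb] using fun c => absurd ⟨hb, c⟩ hu.1
    rw [e1, e2, inv_one, one_mul]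

theorem arc (ok : Ok nb o w) {φ : PF (XX nb o w) G} {P : ℕ → G} {τp τm : XX nb o w → G}
    (h : Reg φ P τp τm) {p : ℕ} (hp : p < 2 * nb + o) {δ : ℝ} (h0 : 0 < δ) (h1 : δ ≤ 1 / 8)
    (f : C(ℝ, XX nb o w)) (hf : ∀ t, (f t).1 = (strand nb w p t + δ * Complex.I, t)) {a b : ℝ}
    (ha : a ≤ 0) (hb : w.length ≤ b) (q : Path a b) :
    (φ.comap f).v q = (τp (f b))⁻¹ * (trP w P p w.length)⁻¹ * τp (f a) := by
  obtain ⟨σ, hσ⟩ := exists_pot_univ (φ.comap f)
  have hup : ∀ {a b : ℝ}, a ≤ b → (∀ t, a ≤ t → t ≤ b → f t ∈ Up nb o w 1) →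
      τp (f b) * (σ b)⁻¹ = τp (f a) * (σ a)⁻¹ := fun hab hh =>
    pot_ratio hσ (pot_comap h.up f) (W4_joined hab hh)
  have e0 := hup ha fun t _ c => push_mem_up ok h0 (hf t) (Or.inl c)
  have e1 := hup hb fun t c _ => push_mem_up ok h0 (hf t) (Or.inr c)
  have key : ∀ k ≤ w.length, τp (f (k : ℕ)) * (σ (k : ℕ))⁻¹ =
      (trP w P p k)⁻¹ * (τp (f 0) * (σ 0)⁻¹) := by
    intro k hk
    induction k with
    | zero => simp [trP]
    | succ k ih =>
      have hx : w[k]? = some w[k] := List.getElem?_eq_getElem hk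
      rw [Nat.cast_succ, W4_step ok h h0 h1 f hf hσ hx, ih (Nat.le_of_succ_le hk), trP, hx]
      group
  rw [hσ a b q fun _ => mem_univ _]
  rw [key _ le_rfl, e0] at e1
  calc (σ b)⁻¹ * σ a = (τp (f b))⁻¹ * (τp (f b) * (σ b)⁻¹) * σ a := by group
    _ = _ := by rw [e1]; group

end Vale.Agent.N258B
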